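import Crest.Agent.N346.Bd.Defs
import Crest.Agent.R226.EucMin_77

/-!
Row 346, Part 1 (helper71): frames, traces, the second derivative test and perturbed maximum
principles (`ext_max`, `glob_max`).
-/

set_option autoImplicit false

open MeasureTheory Filter Set
open scoped ContDiff Topology
open Crest.GeometryTopology.CoordMetric Crest.MathPhysics.ExteriorData
open Crest.Agent.R202.Tens Crest.Agent.R247.Bo84 Crest.Agent.N346.Id Crest.Agent.N346.P1

noncomputable section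

namespace Crest.Agent.N346.Bd

variable {n : ℕ} {G g T S : MetricField n} {U : Set (E n)} {x : E n} {u v φ f : E n → ℝ}

/-! ### frames and traces -/

theorem traceK_frame (hG : IsRiemannianOn G U) (hx : x ∈ U) {ξ : Fin n → E n}
    (h : IsFrame (G x) ξ) (T : MetricField n) :
    traceK G T x = ∑ a, bil (T x) (ξ a) (ξ a) := by
  rw [traceK_eq hG hx, h.trL_eq hG hx]
  exact Finset.sum_congr rfl fun a _ => bil_shp hG hx T _ _

theorem normSqK_frame (hG : IsRiemannianOn G U) (hx : x ∈ U) {ξ : Fin n → E n}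
    (h : IsFrame (G x) ξ) (hT : ∀ i j, T x i j = T x j i) :
    normSqK G T x = ∑ a, ∑ b, bil (T x) (ξ a) (ξ b) ^ 2 := by
  rw [normSqK_eq hG hx hT, h.trL_eq hG hx]
  refine Finset.sum_congr rfl fun a _ => ?_
  rw [ContinuousLinearMap.comp_apply, bil_shp hG hx, bil_symm_of hT,
    ← bil_shp' hG hx T (ξ a) (shp G T x (ξ a)), h.bil_eq hG hx]
  refine Finset.sum_congr rfl fun b _ => ?_
  rw [bil_shp hG hx, bil_symm_of hT, pow_two]

theorem normSqK_nonneg (hG : IsRiemannianOn G U) (hx : x ∈ U) (hT : ∀ i j, T x i j = T x j i) :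
    0 ≤ normSqK G T x := by
  obtain ⟨ξ, h⟩ := exists_frame hG hx
  rw [normSqK_frame hG hx h hT]; positivity

theorem traceK_sq_le (hG : IsRiemannianOn G U) (hx : x ∈ U) (hT : ∀ i j, T x i j = T x j i) :
    traceK G T x ^ 2 ≤ n * normSqK G T x := by
  obtain ⟨ξ, h⟩ := exists_frame hG hx
  rw [normSqK_frame hG hx h hT, traceK_frame hG hx h]
  have h1 := sq_sum_le_card_mul_sum_sq (s := Finset.univ) (f := fun a => bil (T x) (ξ a) (ξ a))
  simp only [Finset.card_univ, Fintype.card_fin] at h1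
  refine h1.trans ?_
  gcongr with a
  exact Finset.single_le_sum (f := fun b => bil (T x) (ξ a) (ξ b) ^ 2) (fun b _ => sq_nonneg _)
    (Finset.mem_univ a)

theorem bil_frame_expand (hG : IsRiemannianOn G U) (hx : x ∈ U) {ξ : Fin n → E n}
    (h : IsFrame (G x) ξ) (H : E n →L[ℝ] E n →L[ℝ] ℝ) (Y Z : E n) :
    H Y Z = ∑ a, ∑ b, bil (G x) Y (ξ a) * bil (G x) Z (ξ b) * H (ξ a) (ξ b) := by
  conv_lhs => rw [h.expand hG hx Y, h.expand hG hx Z]
  simp only [map_sum, map_smul, ContinuousLinearMap.sum_apply, ContinuousLinearMap.smul_apply,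
    smul_eq_mul, Finset.mul_sum]
  rw [Finset.sum_comm]
  refine Finset.sum_congr rfl fun a _ => Finset.sum_congr rfl fun b _ => by ring

theorem bil_sq_le_normSq (hG : IsRiemannianOn G U) (hx : x ∈ U) (hT : ∀ i j, T x i j = T x j i)
    (Y Z : E n) : bil (T x) Y Z ^ 2 ≤ normSqK G T x * (bil (G x) Y Y * bil (G x) Z Z) := by
  obtain ⟨ξ, h⟩ := exists_frame hG hx
  rw [normSqK_frame hG hx h hT, bil_frame_expand hG hx h (bil (T x)) Y Z, h.bil_eq hG hx Y Y,
    h.bil_eq hG hx Z Z, Finset.sum_mul_sum, ← Finset.sum_product', ← Finset.sum_product',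
    ← Finset.sum_product']
  have := Finset.sum_mul_sq_le_sq_mul_sq (Finset.univ ×ˢ Finset.univ)
    (fun p : Fin n × Fin n => bil (T x) (ξ p.1) (ξ p.2))
    (fun p : Fin n × Fin n => bil (G x) Y (ξ p.1) * bil (G x) Z (ξ p.2))
  refine le_of_eq_of_le ?_ (this.trans_eq ?_)
  · congr 1
    exact Finset.sum_congr rfl fun p _ => by ring
  · congr 1
    exact Finset.sum_congr rfl fun p _ => by ring

theorem traceK_mono (hG : IsRiemannianOn G U) (hx : x ∈ U)
    (h : ∀ Y, bil (S x) Y Y ≤ bil (T x) Y Y) : traceK G S x ≤ traceK G T x := by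
  obtain ⟨ξ, hξ⟩ := exists_frame hG hx
  rw [traceK_frame hG hx hξ, traceK_frame hG hx hξ]
  exact Finset.sum_le_sum fun a _ => h _

theorem traceK_le (hG : IsRiemannianOn G U) (hx : x ∈ U) {c : ℝ}
    (h : ∀ Y, bil (T x) Y Y ≤ c * bil (G x) Y Y) : traceK G T x ≤ n * c := by
  obtain ⟨ξ, hξ⟩ := exists_frame hG hx
  rw [traceK_frame hG hx hξ]
  calc _ ≤ ∑ _a : Fin n, c := Finset.sum_le_sum fun a _ => by
        have := h (ξ a); rwa [hξ.orth, if_pos rfl, mul_one] at this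
    _ = _ := by simp

theorem le_traceK (hG : IsRiemannianOn G U) (hx : x ∈ U) {c : ℝ}
    (h : ∀ Y, c * bil (G x) Y Y ≤ bil (T x) Y Y) : n * c ≤ traceK G T x := by
  obtain ⟨ξ, hξ⟩ := exists_frame hG hx
  rw [traceK_frame hG hx hξ]
  calc _ = ∑ _a : Fin n, c := by simp
    _ ≤ _ := Finset.sum_le_sum fun a _ => by
        have := h (ξ a); rwa [hξ.orth, if_pos rfl, mul_one] at this

theorem abs_traceK_le (hG : IsRiemannianOn G U) (hx : x ∈ U) {c : ℝ}
    (h : ∀ Y, |bil (T x) Y Y| ≤ c * bil (G x) Y Y) : |traceK G T x| ≤ n * c := by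
  rw [abs_le]
  refine ⟨?_, traceK_le hG hx fun Y => (abs_le.1 (h Y)).2⟩
  have := le_traceK (T := T) hG hx (c := -c) fun Y => by have := (abs_le.1 (h Y)).1; linarith
  linarith

/-- `|Δ u| ≤ n c` from a Hessian bound. -/
theorem abs_lap_le (hG : IsRiemannianOn G U) (hx : x ∈ U) (hu : ContDiffAt ℝ 2 u x) {c : ℝ}
    (h : ∀ Y, |hess G u x Y Y| ≤ c * bil (G x) Y Y) : |laplaceBeltrami G u x| ≤ n * c := by
  rw [lap_eq_traceK hG hx hu]
  exact abs_traceK_le hG hx fun Y => by rw [bil_hessM]; exact h Y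

/-- trace for `ḡ` of a form that is bounded with respect to `g`. -/
theorem abs_traceK_gb_le (hd : Jd g φ f U) (hx : x ∈ U) {c : ℝ} (hc : 0 ≤ c)
    (h : ∀ Y, |bil (T x) Y Y| ≤ c * bil (g x) Y Y) : |traceK (gb g φ f) T x| ≤ n * c :=
  abs_traceK_le hd.riemb hx fun Y => (h Y).trans (by have := hd.bil_le_gb hx Y; gcongr)

/-- a nonnegative symmetric form: `H(w, w) ≤ |w|² tr H`. -/
theorem psd_ww_le (hG : IsRiemannianOn G U) (hx : x ∈ U) (hT : ∀ Y Z, bil (T x) Y Z = bil (T x) Z Y)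
    (h : ∀ Y, 0 ≤ bil (T x) Y Y) (W : E n) : bil (T x) W W ≤ bil (G x) W W * traceK G T x := by
  obtain ⟨ξ, hξ⟩ := exists_frame hG hx
  set c : Fin n → ℝ := fun a => bil (G x) W (ξ a)
  set H : Fin n → Fin n → ℝ := fun a b => bil (T x) (ξ a) (ξ b)
  have key : ∀ a b, 2 * (c a * c b * H a b) ≤ c b * c b * H a a + c a * c a * H b b := by
    intro a b
    have h1 := h (c b • ξ a - c a • ξ b)
    simp only [map_sub, map_smul, ContinuousLinearMap.sub_apply, ContinuousLinearMap.smul_apply,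
      smul_eq_mul] at h1
    have h2 : bil (T x) (ξ b) (ξ a) = H a b := hT _ _
    rw [h2] at h1
    simp only [H] at h1 ⊢
    linarith
  rw [bil_frame_expand hG hx hξ (bil (T x)) W W, hξ.bil_eq hG hx W W, traceK_frame hG hx hξ]
  have h3 : 2 * ∑ a, ∑ b, c a * c b * H a b
      ≤ ∑ a, ∑ b, (c b * c b * H a a + c a * c a * H b b) := by
    simp only [Finset.mul_sum]
    exact Finset.sum_le_sum fun a _ => Finset.sum_le_sum fun b _ => key a b
  simp only [Finset.sum_add_distrib] at h3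
  rw [Finset.sum_comm (f := fun a b => c b * c b * H a a), ← Finset.sum_mul_sum] at h3
  change ∑ a, ∑ b, c a * c b * H a b ≤ (∑ a, c a * c a) * ∑ a, H a a
  linarith

theorem fderiv_sq_le (hG : IsRiemannianOn G U) (hx : x ∈ U) (u : E n → ℝ) (Y : E n) :
    fderiv ℝ u x Y ^ 2 ≤ gam G u u x * bil (G x) Y Y := by
  rw [← bil_grad hG hx, gam_eq_bil hG hx]; exact bil_sq_le hG hx _ _

theorem gam_gb_le (hd : Jd g φ f U) (hx : x ∈ U) (u : E n → ℝ) :
    gam (gb g φ f) u u x ≤ gam g u u x := by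
  rw [hd.gam_gb hx]; nlinarith [mul_self_nonneg (fderiv ℝ u x (wv g φ f x))]

theorem fderiv_wv_sq_le (hd : Jd g φ f U) (hx : x ∈ U) (u : E n → ℝ) :
    fderiv ℝ u x (wv g φ f x) ^ 2 ≤ pp g φ f x * gam g u u x := by
  have := fderiv_sq_le hd.riem hx u (wv g φ f x)
  rwa [hd.bil_wv_wv hx, mul_comm] at this

theorem gam_le_gb (hd : Jd g φ f U) (hx : x ∈ U) (u : E n → ℝ) :
    gam g u u x ≤ gm g φ f x ^ 2 * gam (gb g φ f) u u x := by
  have h1 := fderiv_wv_sq_le hd hx u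
  have h2 := hd.gm_sq_mul hx
  have h3 : (1 - pp g φ f x) * gam g u u x ≤ gam (gb g φ f) u u x := by
    rw [hd.gam_gb hx]; nlinarith
  calc _ = gm g φ f x ^ 2 * ((1 - pp g φ f x) * gam g u u x) := by rw [← mul_assoc, h2, one_mul]
    _ ≤ _ := by gcongr

theorem gb_wv_wv (hd : Jd g φ f U) (hx : x ∈ U) :
    bil (gb g φ f x) (wv g φ f x) (wv g φ f x) = gm g φ f x ^ 2 * pp g φ f x := by
  rw [hd.gb_wv hx, hd.bil_wv_wv hx]

theorem gam_le_norm (hG : IsRiemannianOn G U) (hx : x ∈ U) {P : ℝ} (hP : 0 ≤ P)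
    (h : ∀ Y, ‖Y‖ ^ 2 ≤ P * bil (G x) Y Y) (u : E n → ℝ) :
    gam G u u x ≤ P * ‖fderiv ℝ u x‖ ^ 2 := by
  have h0 := gam_self_nonneg hG hx u
  have h1 := h (grad G u x)
  rw [← gam_eq_bil hG hx] at h1
  have h2 : gam G u u x ≤ ‖fderiv ℝ u x‖ * ‖grad G u x‖ := by
    rw [gam_eq_fderiv_grad]
    exact (le_abs_self _).trans ((fderiv ℝ u x).le_opNorm _)
  rcases h0.eq_or_lt with h0 | h0
  · rw [← h0]; positivity
  · have h3 : gam G u u x ^ 2 ≤ ‖fderiv ℝ u x‖ ^ 2 * (P * gam G u u x) :=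
      calc _ ≤ (‖fderiv ℝ u x‖ * ‖grad G u x‖) ^ 2 := by gcongr
        _ = ‖fderiv ℝ u x‖ ^ 2 * ‖grad G u x‖ ^ 2 := by ring
        _ ≤ _ := by gcongr
    nlinarith

theorem norm_sq_le_gam (hG : IsRiemannianOn G U) (hx : x ∈ U) {P : ℝ} (hP : 0 ≤ P)
    (h : ∀ Y, bil (G x) Y Y ≤ P * ‖Y‖ ^ 2) (u : E n → ℝ) :
    ‖fderiv ℝ u x‖ ^ 2 ≤ P * gam G u u x := by
  have h0 := gam_self_nonneg hG hx u
  have h1 : ‖fderiv ℝ u x‖ ≤ √(P * gam G u u x) := by
    refine ContinuousLinearMap.opNorm_le_bound _ (Real.sqrt_nonneg _) fun Y => ?_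
    rw [Real.norm_eq_abs, ← Real.sqrt_sq (norm_nonneg Y), ← Real.sqrt_mul (by positivity)]
    refine Real.abs_le_sqrt ((fderiv_sq_le hG hx u Y).trans ?_)
    have := h Y
    calc _ ≤ gam G u u x * (P * ‖Y‖ ^ 2) := by gcongr
      _ = _ := by ring
  calc _ ≤ √(P * gam G u u x) ^ 2 := by gcongr
    _ = _ := Real.sq_sqrt (by positivity)

/-- `H₀ = Θ + tr_g K - K(w, w)`. -/
theorem H0_eq_Th (hd : Jd g φ f U) (hx : x ∈ U) (K : MetricField n) :
    H0 g φ f x = Th g φ f K x + (traceK g K x - bil (K x) (wv g φ f x) (wv g φ f x)) := by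
  rw [Jd.Th_eq, hd.traceK_gb hx K]; ring

/-- `|Ē|²_ḡ = (1 - p)|E|² + ⟨w, E⟩²`. -/
theorem eSq_gb (hd : Jd g φ f U) (hx : x ∈ U) (EE : VectorField n) :
    eSq (gb g φ f) EE x
      = (1 - pp g φ f x) * eSq g EE x + eDot g EE x (wv g φ f x) ^ 2 := by
  have hv : ∀ G : MetricField n, vecNormSq G EE x
      = bil (G x) (WithLp.toLp 2 (EE x)) (WithLp.toLp 2 (EE x)) := fun G => by
    rw [bil_apply]; rfl
  have hdet : ∀ {G : MetricField n}, IsRiemannianOn G U → (G x).det = volDensity G x ^ 2 :=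
    fun hG => (Real.sq_sqrt (det_pos hG hx).le).symm
  have hvol : 0 < volDensity g x := Real.sqrt_pos.2 (det_pos hd.riem hx)
  have he : eDot g EE x (wv g φ f x)
      = bil (g x) (wv g φ f x) (WithLp.toLp 2 (EE x)) / volDensity g x := by
    rw [bil_apply]; rfl
  have hγ := hd.gm_pos hx
  rw [eSq, eSq, he, hv, hv, hdet hd.riemb, hdet hd.riem, hd.volDensity_gb hx, hd.bil_gb hx,
    hd.one_sub_pp hx]
  field_simp

theorem eSq_nonneg (hG : IsRiemannianOn G U) (hx : x ∈ U) (EE : VectorField n) :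
    0 ≤ eSq G EE x := by
  have hv : vecNormSq G EE x
      = bil (G x) (WithLp.toLp 2 (EE x)) (WithLp.toLp 2 (EE x)) := by rw [bil_apply]; rfl
  rw [eSq, hv]
  exact div_nonneg (bil_self_nonneg hG hx _) (det_pos hG hx).le

theorem eSq_gb_le (hd : Jd g φ f U) (hx : x ∈ U) (EE : VectorField n) :
    eSq (gb g φ f) EE x ≤ eSq g EE x := by
  have hv : vecNormSq g EE x
      = bil (g x) (WithLp.toLp 2 (EE x)) (WithLp.toLp 2 (EE x)) := by rw [bil_apply]; rfl
  have he : eDot g EE x (wv g φ f x)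
      = bil (g x) (wv g φ f x) (WithLp.toLp 2 (EE x)) / volDensity g x := by
    rw [bil_apply]; rfl
  have hdet : (g x).det = volDensity g x ^ 2 := (Real.sq_sqrt (det_pos hd.riem hx).le).symm
  have hvol : 0 < volDensity g x := Real.sqrt_pos.2 (det_pos hd.riem hx)
  have h1 := bil_sq_le hd.riem hx (wv g φ f x) (WithLp.toLp 2 (EE x))
  rw [hd.bil_wv_wv hx] at h1
  have h2 : eDot g EE x (wv g φ f x) ^ 2 ≤ pp g φ f x * eSq g EE x := by
    rw [he, eSq, hv, hdet, div_pow, ← mul_div_assoc]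
    gcongr
  rw [eSq_gb hd hx]; linarith

/-! ### the second derivative test -/

theorem hess_nonneg_of_min (G : MetricField n) (hu : ContDiffAt ℝ 2 u x) (h : IsLocalMin u x)
    (Y : E n) : 0 ≤ hess G u x Y Y := by
  rw [hess_apply, h.fderiv_eq_zero]
  simpa using Crest.Agent.R226.EucMin77.hess_nonneg_of_isLocalMin hu h Y

theorem hess_sub (G : MetricField n) (hu : ContDiffAt ℝ 2 u x) (hv : ContDiffAt ℝ 2 v x)
    (Y Z : E n) : hess G (fun y => u y - v y) x Y Z = hess G u x Y Z - hess G v x Y Z := by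
  have h1 := hess_add (g := G) hu (hv.const_smul (-1 : ℝ)) Y Z
  have h2 := hess_const_mul (g := G) (-1) hv Y Z
  simp only [smul_eq_mul] at h1
  rw [h2] at h1
  rw [show (fun y => u y - v y) = fun y => u y + -1 * v y from funext fun y => by ring, h1]
  ring

/-- at a local maximum of `u - v`: `du = dv` and `Hess u ≤ Hess v`. -/
theorem touch_of_max (hu : ContDiffAt ℝ 2 u x) (hv : ContDiffAt ℝ 2 v x)
    (h : IsLocalMax (fun y => u y - v y) x) :
    fderiv ℝ u x = fderiv ℝ v x ∧ ∀ (G : MetricField n) Y, hess G u x Y Y ≤ hess G v x Y Y := by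
  constructor
  · have := h.fderiv_eq_zero
    rw [fderiv_fun_sub (hu.differentiableAt (by simp)) (hv.differentiableAt (by simp))] at this
    exact sub_eq_zero.1 this
  · intro G Y
    have h1 : IsLocalMin (fun y => v y - u y) x := by
      filter_upwards [h] with y hy using by linarith
    have := hess_nonneg_of_min G (hv.sub hu) h1 Y
    rw [hess_sub G hv hu] at this
    linarith

theorem hess_nonpos_of_max (G : MetricField n) (hu : ContDiffAt ℝ 2 u x) (h : IsLocalMax u x)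
    (Y : E n) : hess G u x Y Y ≤ 0 := by
  have h1 : IsLocalMin (fun y => -1 * u y) x := by
    filter_upwards [h] with y hy using by linarith
  have := hess_nonneg_of_min G (contDiffAt_const.mul hu) h1 Y
  rw [hess_const_mul (-1) hu] at this
  linarith

/-- `tr_G Hess_g u ≤ tr_G Hess_g v` at a local maximum of `u - v`. -/
theorem traceK_hessM_le_of_max (hG : IsRiemannianOn G U) (hx : x ∈ U) (g : MetricField n)
    (hu : ContDiffAt ℝ 2 u x) (hv : ContDiffAt ℝ 2 v x) (h : IsLocalMax (fun y => u y - v y) x) :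
    traceK G (hessM g u) x ≤ traceK G (hessM g v) x :=
  traceK_mono hG hx fun Y => by
    rw [bil_hessM, bil_hessM]; exact (touch_of_max hu hv h).2 g Y

theorem lap_le_of_max (hG : IsRiemannianOn G U) (hx : x ∈ U) (hu : ContDiffAt ℝ 2 u x)
    (hv : ContDiffAt ℝ 2 v x) (h : IsLocalMax (fun y => u y - v y) x) :
    laplaceBeltrami G u x ≤ laplaceBeltrami G v x := by
  rw [lap_eq_traceK hG hx hu, lap_eq_traceK hG hx hv]
  exact traceK_hessM_le_of_max hG hx G hu hv h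

theorem lap_nonpos_of_max (hG : IsRiemannianOn G U) (hx : x ∈ U) (hu : ContDiffAt ℝ 2 u x)
    (h : IsLocalMax u x) : laplaceBeltrami G u x ≤ 0 := by
  rw [lap_eq_traceK hG hx hu]
  simpa using traceK_le (T := hessM G u) hG hx (c := 0) fun Y => by
    rw [bil_hessM, zero_mul]; exact hess_nonpos_of_max G hu h Y

theorem lap_nonneg_of_min (hG : IsRiemannianOn G U) (hx : x ∈ U) (hu : ContDiffAt ℝ 2 u x)
    (h : IsLocalMin u x) : 0 ≤ laplaceBeltrami G u x := by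
  rw [lap_eq_traceK hG hx hu]
  simpa using le_traceK (T := hessM G u) hG hx (c := 0) fun Y => by
    rw [bil_hessM, zero_mul]; exact hess_nonneg_of_min G hu h Y

theorem grad_eq_zero (G : MetricField n) (h : fderiv ℝ u x = 0) : grad G u x = 0 := by
  rw [grad_eq_sharp, h, map_zero]

theorem divg_smul_grad_nonpos (hG : IsRiemannianOn G U) (hx : x ∈ U) {σ : E n → ℝ}
    (hσ : DifferentiableAt ℝ σ x) (h0 : 0 ≤ σ x) (hu : ContDiffAt ℝ 2 u x) (h : IsLocalMax u x) :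
    divg G (fun y => σ y • grad G u y) x ≤ 0 := by
  rw [divg_smul hG hx hσ (differentiableAt_grad hG hx hu), divg_grad,
    grad_eq_zero G h.fderiv_eq_zero, map_zero, add_zero]
  exact mul_nonpos_of_nonneg_of_nonpos h0 (lap_nonpos_of_max hG hx hu h)

/-! ### perturbed maximum principles -/

/-- On a closed set `A`, a function that is bounded above and positive somewhere has, after
subtracting `ε bp` (`bp → ∞`), a maximum point with value at least `m > 0`, `m` independent of `ε`. -/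
theorem closed_max {A : Set (E n)} (hA : IsClosed A) {F bp : E n → ℝ} (hF : ContinuousOn F A)
    (hb : ∃ Z, ∀ x ∈ A, F x ≤ Z) (hbp : Continuous bp) (h0 : ∀ x, 0 ≤ bp x)
    (ht : Tendsto bp (cocompact (E n)) atTop) {x0 : E n} (hx0 : x0 ∈ A) (hp : 0 < F x0) :
    ∃ m > (0 : ℝ), ∀ ε0 > (0 : ℝ), ∃ ε : ℝ, 0 < ε ∧ ε ≤ ε0 ∧ ∃ x1 ∈ A,
      IsMaxOn (fun y => F y - ε * bp y) A x1 ∧ m ≤ F x1 - ε * bp x1 := by
  obtain ⟨Z, hZ⟩ := hb
  refine ⟨F x0 / 2, by positivity, fun ε0 hε0 => ?_⟩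
  have hb0 := h0 x0
  set ε := min ε0 (F x0 / (2 * (bp x0 + 1))) with hε
  have hε1 : 0 < ε := lt_min hε0 (by positivity)
  have hε2 : ε * bp x0 ≤ F x0 / 2 := by
    have : ε ≤ F x0 / (2 * (bp x0 + 1)) := min_le_right _ _
    rw [le_div_iff₀ (by positivity)] at this
    nlinarith
  have hev : ∀ᶠ y in cocompact (E n) ⊓ 𝓟 A, F y - ε * bp y ≤ F x0 - ε * bp x0 := by
    rw [eventually_inf_principal]
    filter_upwards [ht.eventually_ge_atTop ((Z - F x0) / ε + bp x0)] with y hy hyA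
    have h1 := hZ y hyA
    have h2 : ε * ((Z - F x0) / ε + bp x0) ≤ ε * bp y := by gcongr
    rw [mul_add, mul_div_cancel₀ _ hε1.ne'] at h2
    linarith
  obtain ⟨x1, hx1, hmax⟩ := (hF.sub (continuous_const.mul hbp).continuousOn).exists_isMaxOn' hA
    hx0 hev
  refine ⟨ε, hε1, min_le_left _ _, x1, hx1, hmax, ?_⟩
  have : F x0 - ε * bp x0 ≤ F x1 - ε * bp x1 := hmax hx0
  linarith

/-- Exterior version: `F ≤ 0` on the sphere, so the maximum point is interior. -/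
theorem ext_max {ρ : ℝ} {F bp : E n → ℝ} (hF : ContinuousOn F {x | ρ ≤ ‖x‖})
    (hb : ∃ Z, ∀ x, ρ ≤ ‖x‖ → F x ≤ Z) (hs : ∀ x, ‖x‖ = ρ → F x ≤ 0) (hbp : Continuous bp)
    (h0 : ∀ x, 0 ≤ bp x) (ht : Tendsto bp (cocompact (E n)) atTop) {x0 : E n} (hx0 : ρ ≤ ‖x0‖)
    (hp : 0 < F x0) :
    ∃ m > (0 : ℝ), ∀ ε0 > (0 : ℝ), ∃ ε : ℝ, 0 < ε ∧ ε ≤ ε0 ∧ ∃ x1, ρ < ‖x1‖ ∧
      IsLocalMax (fun y => F y - ε * bp y) x1 ∧ m ≤ F x1 - ε * bp x1 := by
  obtain ⟨m, hm, h⟩ := closed_max (isClosed_le continuous_const continuous_norm) hF hb hbp h0 ht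
    hx0 hp
  refine ⟨m, hm, fun ε0 hε0 => ?_⟩
  obtain ⟨ε, h1, h2, x1, hx1, hmax, hv⟩ := h ε0 hε0
  have hlt : ρ < ‖x1‖ := by
    refine lt_of_le_of_ne hx1 fun he => ?_
    have := hs x1 he.symm
    have := mul_nonneg h1.le (h0 x1)
    linarith
  refine ⟨ε, h1, h2, x1, hlt, hmax.isLocalMax ?_, hv⟩
  exact mem_of_superset ((isOpen_lt continuous_const continuous_norm).mem_nhds hlt)
    fun y hy => (le_of_lt hy : ρ ≤ ‖y‖)

/-- Global version. -/
theorem glob_max {F bp : E n → ℝ} (hF : Continuous F) (hb : ∃ Z, ∀ x, F x ≤ Z)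
    (hbp : Continuous bp) (h0 : ∀ x, 0 ≤ bp x) (ht : Tendsto bp (cocompact (E n)) atTop)
    {x0 : E n} (hp : 0 < F x0) :
    ∃ m > (0 : ℝ), ∀ ε0 > (0 : ℝ), ∃ ε : ℝ, 0 < ε ∧ ε ≤ ε0 ∧ ∃ x1,
      IsLocalMax (fun y => F y - ε * bp y) x1 ∧ m ≤ F x1 - ε * bp x1 := by
  obtain ⟨Z, hZ⟩ := hb
  obtain ⟨m, hm, h⟩ := closed_max isClosed_univ hF.continuousOn ⟨Z, fun x _ => hZ x⟩ hbp h0 ht
    (mem_univ x0) hp
  refine ⟨m, hm, fun ε0 hε0 => ?_⟩
  obtain ⟨ε, h1, h2, x1, -, hmax, hv⟩ := h ε0 hε0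
  exact ⟨ε, h1, h2, x1, hmax.isLocalMax univ_mem, hv⟩

end Crest.Agent.N346.Bd

end
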