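import Crest.Agent.N346.Bd.WDefs

/-! Row 346, Part 1 (helper34): the a priori sup bounds along the homotopy (`P1.APStmt`). -/

set_option autoImplicit false

open MeasureTheory Filter Set
open scoped ContDiff Topology
open Crest.GeometryTopology.CoordMetric Crest.MathPhysics.ExteriorData
open Crest.Agent.R202.Tens Crest.Agent.R247.Bo84 Crest.Agent.N346.Id Crest.Agent.N346.P1

noncomputable section

namespace Crest.Agent.N346.Bd

variable {n : ℕ}

namespace Ap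

section
variable {P0 L τ : ℝ} {g K : MetricField n} {EE : VectorField n} {a1 a2 f φ : E n → ℝ} {x : E n}

theorem Th_crit (hd : Jd g φ f univ) (hdf : fderiv ℝ f x = 0) : Th g φ f K x
    = φ x / gm g φ f x * traceK (gb g φ f) (hessM g f) x - traceK g K x := by
  have hw : wv g φ f x = 0 := by simp [wv, grad_eq_zero _ hdf]
  have t2 := hd.H0_eq (mem_univ x)
  have t3 := H0_eq_Th hd (mem_univ x) K
  rw [hw] at t3
  simp only [aa, hw, map_zero, mul_zero, add_zero, sub_zero] at t2 t3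
  linarith

/-- the maximum principle for the Jang equation. -/
theorem f_bound (h : BG P0 g K EE a1 a2) (hd : Jd g φ f univ) (hf : ContDiff ℝ ∞ f) (hτ : 0 < τ)
    (hJ : ∀ x, Th g φ f K x = τ * f x) (hL : 0 < L) (hp : An.Per L f) (x : E n) :
    |τ * f x| ≤ P0 := by
  have hq : ∀ y, 0 < φ y / gm g φ f y := fun y =>
    div_pos (hd.φ_pos y (mem_univ _)) (hd.gm_pos (mem_univ _))
  have f2 : ∀ y, ContDiffAt ℝ 2 f y := fun y => hf.contDiffAt.of_le (by norm_cast)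
  rw [abs_le]
  constructor
  · obtain ⟨y, hy⟩ := (hp.comp fun s => -s).exists_max hL hf.continuous.neg
    have hm : IsLocalMin f y := Eventually.of_forall fun w => by linarith [hy w]
    have t1 : 0 ≤ traceK (gb g φ f) (hessM g f) y := by
      simpa using le_traceK (T := hessM g f) hd.riemb (mem_univ y) (c := 0) fun Y => by
        rw [bil_hessM, zero_mul]; exact hess_nonneg_of_min _ (f2 y) hm Y
    have t2 := Th_crit (K := K) hd hm.fderiv_eq_zero
    rw [hJ] at t2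
    have t3 := mul_nonneg (hq y).le t1
    have t4 := (abs_le.1 (h.trK_le y)).2
    have t5 := mul_le_mul_of_nonneg_left (show f y ≤ f x by linarith [hy x]) hτ.le
    linarith
  · obtain ⟨y, hy⟩ := hp.exists_max hL hf.continuous
    have hm : IsLocalMax f y := Eventually.of_forall hy
    have t1 : traceK (gb g φ f) (hessM g f) y ≤ 0 := by
      simpa using traceK_le (T := hessM g f) hd.riemb (mem_univ y) (c := 0) fun Y => by
        rw [bil_hessM, zero_mul]; exact hess_nonpos_of_max _ (f2 y) hm Y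
    have t2 := Th_crit (K := K) hd hm.fderiv_eq_zero
    rw [hJ] at t2
    have t3 := mul_le_mul_of_nonneg_left t1 (hq y).le
    have t4 := (abs_le.1 (h.trK_le y)).1
    have t5 := mul_le_mul_of_nonneg_left (hy x) hτ.le
    linarith

/-- `R̄ ≤ 3P + 9P²` where `φ` is locally constant. -/
theorem R_le (h : BG P0 g K EE a1 a2) (hd : Jd g φ f univ) {d : ℝ} (hc : φ =ᶠ[𝓝 x] fun _ => d)
    (hT : |Th g φ f K x| ≤ P0) : scalarCurv (gb g φ f) x ≤ 3 * P0 + 9 * P0 ^ 2 := by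
  have hP : 0 ≤ P0 := by linarith [h.P_ge]
  have hw : bil (g x) (wv g φ f x) (wv g φ f x) ≤ 1 := by
    rw [hd.bil_wv_wv (mem_univ x)]; exact (hd.pp_lt_one (mem_univ x)).le
  have h1 := (abs_le.1 (h.R_le x)).2
  have h2 := (abs_le.1 ((h.Ric_le x (wv g φ f x)).trans (mul_le_of_le_one_right hP hw))).1
  have h3 := normSqK_nonneg hd.riemb (mem_univ x) (hd.symT_hh.symm x (mem_univ x))
  have h4 := abs_le.1 (h.abs_Kww_le hw)
  have h5 := abs_le.1 (h.trK_le x)
  have h6 := abs_le.1 hT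
  have h7 : H0 g φ f x ^ 2 ≤ (3 * P0) ^ 2 := by
    rw [H0_eq_Th hd (mem_univ x) K]
    exact sq_le_sq' (by linarith) (by linarith)
  rw [id_G_const hd (mem_univ x) hc]
  linarith

theorem gm_mul_pp (hd : Jd g φ f univ) (x : E n) : gm g φ f x - 1 ≤ gm g φ f x * pp g φ f x := by
  have h1 := hd.gm_sq_mul (mem_univ x)
  have h2 := hd.one_le_gm (mem_univ x)
  have h3 := hd.pp_lt_one (mem_univ x)
  nlinarith [mul_nonneg (mul_nonneg (by linarith : 0 ≤ gm g φ f x) (sub_nonneg.2 h2))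
    (sub_nonneg.2 h3.le)]

theorem norm_df_le (h : BG P0 g K EE a1 a2) (hd : Jd g φ f univ) {δ : ℝ} (hδ : 0 < δ)
    (hφ : δ ≤ φ x) : ‖fderiv ℝ f x‖ ≤ P0 * gm g φ f x / δ := by
  have hP := h.P_ge
  have h1 := norm_sq_le_gam h.riem (mem_univ x) (by linarith) (h.g_hi x) f
  have h2 := hd.gm_sq (mem_univ x)
  have h3 := gam_self_nonneg h.riem (mem_univ x) f
  have h4 := hd.gm_pos (mem_univ x)
  have h5 : δ ^ 2 * gam g f f x ≤ gm g φ f x ^ 2 := by
    have : δ ^ 2 * gam g f f x ≤ φ x ^ 2 * gam g f f x := by gcongr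
    rw [h2, Id.sq]; linarith
  rw [le_div_iff₀ hδ]
  refine (abs_le_of_sq_le_sq' ?_ (by positivity)).2
  have h6 := mul_le_mul_of_nonneg_left h1 (sq_nonneg δ)
  have h7 := mul_le_mul_of_nonneg_left h5 (by linarith : 0 ≤ P0)
  have h8 : P0 * gm g φ f x ^ 2 ≤ P0 ^ 2 * gm g φ f x ^ 2 := by gcongr; nlinarith
  nlinarith

end

section
variable {P : Par} {c : Coef n} {t lam L P0 d : ℝ} {B : ℕ → ℝ} {f z : E n → ℝ} {x : E n}

theorem a1_mem (c : Coef n) : c.a1 ∈ c.comps := by simp [Coef.comps]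
theorem a2_mem (c : Coef n) : c.a2 ∈ c.comps := by simp [Coef.comps]
theorem cw_mem (c : Coef n) : c.cw ∈ c.comps := by simp [Coef.comps]
theorem mw_mem (c : Coef n) : c.mw ∈ c.comps := by simp [Coef.comps]

theorem le_B0 {u : E n → ℝ} (h : Bdd B u) (x : E n) : u x ≤ B 0 := by
  have := h.2 0 x
  simp only [norm_iteratedFDeriv_zero, Real.norm_eq_abs] at this
  exact (le_abs_self _).trans this

theorem jd (hc : c.Unif lam B) {g : MetricField n} (hg : IsRiemannianOn g univ) (h0 : 0 < d)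
    (h1 : d ≤ 1) (hf : ContDiff ℝ ∞ f) (hz : ContDiff ℝ ∞ z) :
    Jd g (phd P d c.a1 c.a2 f z) f univ := by
  refine ⟨hg, ?_, hf.contDiffOn, fun x _ => ?_⟩
  · refine (contDiff_const.add ((contDiff_const.mul ?_).mul ((contDiff_Ph _).comp hz))).contDiffOn
    exact (hc.bdd _ (a1_mem c)).1.mul (contDiff_const.sub ((hc.bdd _ (a2_mem c)).1.mul
      (contDiff_const.sub ((contDiff_cut _ _).comp (contDiff_const.mul hf)))))
  · have h2 := (chi_mem P (hc.a1_mem x) (hc.a2_mem x) (P.τ * f x)).1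
    have h3 := (Ph_mem P (z x)).1
    exact add_pos_of_pos_of_nonneg h0 (mul_nonneg (mul_nonneg (sub_nonneg.2 h1) h2) h3)

theorem per_WW (hp : ∀ u ∈ c.comps, P1.Per L u) (hf : P1.Per L f) (hz : P1.Per L z) :
    An.Per L (WW P d (c.gt t) c.a1 c.a2 f z) := by
  intro x j
  have hg : c.g (x + EuclideanSpace.single j L) = c.g x := by
    ext k l; exact hp _ (Or.inl ⟨k, l, rfl⟩) j x
  have hd : ∀ i, pderiv i f (x + EuclideanSpace.single j L) = pderiv i f x := fun i =>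
    (per_iff.1 hf).pderiv i x j
  simp only [WW, phd, chd, Id.sq, gam, inverseField, Coef.gt, hg, hd, hf j x, hz j x,
    hp _ (a1_mem c) j x, hp _ (a2_mem c) j x]

theorem TT_nonneg (hc : c.Unif lam B) (he : 0 < P.e)
    (hd : Jd (c.gt t) (phi P c t f z) f univ) (x : E n) : 0 ≤ TT P c t f z x := by
  have h1 := hd.pp_nonneg (mem_univ x)
  have h2 := hc.mw_nonneg x
  have h3 := eSq_nonneg hd.riemb (mem_univ x) c.EE
  have h4 : 0 < P.τ := pow_pos he 3
  rw [TT, gbar]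
  positivity

theorem GG_le (hc : c.Unif lam B) (ht : t ∈ Icc (0 : ℝ) 1) (he : 0 < P.e) (hθ : 0 < P.θ)
    (hz3 : 0 ≤ P.z3) (hd : Jd (c.gt t) (phi P c t f z) f univ) (hx : z x ≤ -P.θ - 2) :
    GG P c t f z x ≤ -P.M := by
  have h1 := mul_nonneg ht.1 (TT_nonneg hc he hd x)
  have h2 := mul_nonneg ht.1 (hc.cw_nonneg x)
  have h3 : 0 ≤ -z x := by linarith
  have h4 := mul_nonneg ht.1 (mul_nonneg (hc.an_mem x).1 h3)
  have h5 := mul_nonneg (sub_nonneg.2 ht.2) h3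
  rw [GG, sz_one hθ (by linarith), vt_low (by linarith) hx]
  linarith

theorem le_GG (hc : c.Unif lam B) (ht : t ∈ Icc (0 : ℝ) 1) (he : 0 < P.e) (he1 : P.e ≤ 1)
    (h : BG P0 (c.gt t) (c.Kt t) c.EE c.a1 c.a2) (hd : Jd (c.gt t) (phi P c t f z) f univ)
    (hf : |P.τ * f x| ≤ P0) (hx : -3 ≤ z x) :
    -(P0 ^ 2 + 2 * P0 + 3 * |B 0| + 7) + P.vt (z x) ≤ GG P c t f z x := by
  have hP := h.P_ge
  have hB := le_abs_self (B 0)
  have h1 : TT P c t f z x ≤ P0 ^ 2 + 1 + 2 * |B 0| + 2 * P0 := by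
    have k1 : (P.τ * f x) ^ 2 ≤ P0 ^ 2 := sq_le_sq' (abs_le.1 hf).1 (abs_le.1 hf).2
    have k2 : P.τ * pp (c.gt t) (phi P c t f z) f x ≤ 1 :=
      mul_le_one₀ (pow_le_one₀ he.le he1) (hd.pp_nonneg (mem_univ x)) (hd.pp_lt_one (mem_univ x)).le
    have k3 := le_B0 (hc.bdd _ (mw_mem c)) x
    have k4 := (eSq_gb_le hd (mem_univ x) c.EE).trans (h.E_le x)
    rw [TT, gbar]
    linarith
  have h2 : P.sz (z x) * c.cw x ≤ |B 0| :=
    (mul_le_of_le_one_left (hc.cw_nonneg x) (sz_mem P _).2).trans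
      ((le_B0 (hc.bdd _ (cw_mem c)) x).trans hB)
  have h3 : 0 ≤ (1 - P.sz (z x)) * ((P.e ^ 6)⁻¹ * P.dd (c.b1 x) (c.b2 x) (P.τ * f x)) :=
    mul_nonneg (sub_nonneg.2 (sz_mem P _).2)
      (mul_nonneg (by positivity) (dd_mem P (hc.b1_mem x) (hc.b2_mem x) _).1)
  have h4 : ∀ s ∈ Icc (0 : ℝ) 1, -3 ≤ s * z x := fun s hs => by
    nlinarith [mul_nonneg hs.1 (show 0 ≤ z x + 3 by linarith), hs.2]
  have h5 := h4 _ (hc.an_mem x)
  have h6 := h4 _ (one_sub_mem ht)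
  have h7 : -(P0 ^ 2 + 2 * P0 + 3 * |B 0| + 4) ≤ -TT P c t f z x - P.sz (z x) * c.cw x
      + (1 - P.sz (z x)) * ((P.e ^ 6)⁻¹ * P.dd (c.b1 x) (c.b2 x) (P.τ * f x)) + c.an x * z x := by
    linarith
  have h8 := mul_le_mul_of_nonneg_left h7 ht.1
  have h9 := mul_le_of_le_one_left (by positivity : 0 ≤ P0 ^ 2 + 2 * P0 + 3 * |B 0| + 4) ht.2
  rw [GG]
  linarith

/-- the minimum principle for `z`. -/
theorem z_low (hc : c.Unif lam B) (ht : t ∈ Icc (0 : ℝ) 1) (he : 0 < P.e) (hθ : 0 < P.θ)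
    (hz3 : 0 ≤ P.z3) (h : BG P0 (c.gt t) (c.Kt t) c.EE c.a1 c.a2)
    (hd : Jd (c.gt t) (phi P c t f z) f univ) (hS : Sys P c t f z) (hf : ∀ x, |P.τ * f x| ≤ P0)
    (hM : 3 * P0 + 9 * P0 ^ 2 < P.M) (hL : 0 < L) (hp : An.Per L z) (x : E n) :
    -P.θ - 2 ≤ z x := by
  obtain ⟨y, hy⟩ := (hp.comp fun s => -s).exists_max hL hS.z_smooth.continuous.neg
  have hm : IsLocalMin z y := Eventually.of_forall fun w => by linarith [hy w]
  by_contra hx
  have h1 : z y < -P.θ - 2 := by linarith [hy x, not_le.1 hx]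
  have h2 : phi P c t f z =ᶠ[𝓝 y] fun _ => 1 - t * (1 - P.δ) := by
    filter_upwards [(hS.z_smooth.continuous.tendsto y).eventually (gt_mem_nhds h1)] with w hw
    rw [phi_eq_phd, phd, Ph_zero hθ (by linarith)]; ring
  have h3 := R_le h hd h2 (by rw [hS.jang]; exact hf y)
  have h4 := GG_le hc ht he hθ hz3 hd h1.le
  have h5 := lap_nonneg_of_min hd.riemb (mem_univ y)
    (hS.z_smooth.contDiffAt.of_le (by norm_cast)) hm
  have h6 := hS.conf y
  rw [gam_eq_fderiv_grad, hm.fderiv_eq_zero, gbar] at h6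
  simp only [zero_apply, mul_zero, add_zero] at h6
  linarith

end

end Ap

open Ap in
theorem ap : BGStmt → WStmt → P1.APStmt := by
  intro hBG hW n hn θ t0 t1 lam B hOK
  obtain ⟨P0, hP0⟩ := hBG n lam 0 B
  have hθ : 0 < θ := hOK.θ_pos
  have hθ1 : θ ≤ 1 := hOK.θ_le
  have ht1 : 0 < t1 := by linarith [show 0 < t0 from hOK.t0_pos, show 4 * t0 ≤ t1 from hOK.t01]
  obtain ⟨N, e1, he1, hW⟩ := hW n hn θ t1 P0 hθ ht1
  set C1 := P0 ^ 2 + 2 * P0 + 3 * |B 0| + 7 with hC1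
  set C := |C1| + |3 * P0 + 9 * P0 ^ 2| + 2 with hC
  have hC0 : 0 < C := by positivity
  refine ⟨N + 1, min e1 C⁻¹, lt_min he1 (inv_pos.2 hC0), fun e he hle M hM z3 hz3 => ?_⟩
  have hX : C ≤ e⁻¹ := (le_inv_comm₀ hC0 he).2 (hle.trans (min_le_right _ _))
  have hX1 : 1 ≤ e⁻¹ := by
    linarith [abs_nonneg C1, abs_nonneg (3 * P0 + 9 * P0 ^ 2)]
  have he1' : e ≤ 1 := (one_le_inv₀ he).1 hX1
  have hXN : 1 ≤ e⁻¹ ^ N := one_le_pow₀ hX1
  have hM' : e⁻¹ ^ N * e⁻¹ ≤ M := by rw [← pow_succ, inv_pow]; exact hM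
  have hM1 : e⁻¹ ≤ M := le_trans (le_mul_of_one_le_left (by positivity) hXN) hM'
  set C4 := ((C1 + M + e⁻¹ ^ N) / e ^ 3 + 1) * Real.exp (2 * (z3 + 1)) with hC4
  refine ⟨max (P0 / e ^ 3) (max (max 3 (C4 / e ^ 2)) (P0 * (C4 / e ^ 2 * Real.exp 6) / e ^ 2)),
    fun c hc t ht L f z hL hpc hpf hpz hS => ?_⟩
  set P : Par := ⟨θ, t0, t1, e, M, z3⟩ with hP
  obtain ⟨h, -⟩ := hP0 c hc t ht
  have he2 : e ^ 2 ≤ 1 := pow_le_one₀ he.le he1'
  have d0 : e ^ 2 ≤ 1 - t * (1 - P.δ) := by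
    have := mul_le_of_le_one_left (sub_nonneg.2 he2) ht.2
    change e ^ 2 ≤ 1 - t * (1 - e ^ 2)
    linarith
  have d1 : 1 - t * (1 - P.δ) ≤ 1 := sub_le_self _ (mul_nonneg ht.1 (sub_nonneg.2 he2))
  have hφ := phi_eq_phd P c t f z
  have hd : Jd (c.gt t) (phi P c t f z) f univ :=
    hφ ▸ jd hc h.riem (lt_of_lt_of_le (by positivity) d0) d1 hS.f_smooth hS.z_smooth
  have hτ : 0 < P.τ := pow_pos he 3
  have hf := f_bound h hd hS.f_smooth hτ hS.jang hL (per_iff.1 hpf)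
  have hz := z_low (P := P) hc ht he hθ hz3 h hd hS hf (by
    change _ < M
    linarith [abs_nonneg C1, le_abs_self (3 * P0 + 9 * P0 ^ 2)]) hL (per_iff.1 hpz)
  have hz' : ∀ x, -3 ≤ z x := fun x => by
    have := hz x
    change -θ - 2 ≤ z x at this
    linarith
  obtain ⟨-, hWs, hσ, hW⟩ := hW P rfl rfl he (hle.trans (min_le_left _ _)) _ d0 d1 (c.gt t) (c.Kt t)
    c.EE c.a1 c.a2 f z h hS.f_smooth hS.z_smooth (hφ ▸ hS.jang) hf
  obtain ⟨y, hy⟩ := (per_WW (P := P) (d := 1 - t * (1 - P.δ)) (t := t) hpc hpf hpz).exists_max hL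
    hWs.continuous
  have hm : IsLocalMax _ y := Eventually.of_forall hy
  have hP2 := h.P_ge
  have hC1' : 0 ≤ C1 := by positivity
  have hM0 : 0 ≤ M := by linarith
  have hW0 : WW P (1 - t * (1 - P.δ)) (c.gt t) c.a1 c.a2 f z y ≤ C4 ^ 2 := by
    obtain ⟨-, -, w1, w2⟩ := hW y
    have k1 := divg_smul_grad_nonpos (hφ ▸ hd).riemb (mem_univ y)
      (hσ.differentiable (by simp) y) (by rw [sg]; positivity)
      (hWs.contDiffAt.of_le (by norm_cast)) hm
    rw [gam_eq_fderiv_grad _ (WW _ _ _ _ _ _ _), hm.fderiv_eq_zero] at w2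
    have k2 := hS.conf y
    rw [gbar] at k2
    rw [← hφ] at w1 w2 k1
    have k3 := le_GG (P := P) hc ht he he1' h hd (hf y) (hz' y)
    have k4 := gm_mul_pp hd y
    have k5 := hd.one_le_gm (mem_univ y)
    have k6 : P.τ * (gm (c.gt t) (phi P c t f z) f y - 1) - C1 + P.vt (z y) - e⁻¹ ^ N ≤ 0 := by
      have := mul_le_mul_of_nonneg_left k4 hτ.le
      simp only [zero_apply, mul_zero, add_zero, mul_one] at w2
      change _ - e⁻¹ ^ N ≤ _ at w2
      linarith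
    have k7 := mul_nonneg hτ.le (sub_nonneg.2 k5)
    have k8 : z y ≤ z3 + 1 := by
      by_contra hh
      rw [vt_high (P := P) (by change -θ - 2 ≤ z3; linarith) (not_le.1 hh).le] at k6
      change _ + M - _ ≤ _ at k6
      have := mul_le_mul_of_nonneg_right hXN (sub_nonneg.2 hX1)
      linarith [le_abs_self C1, abs_nonneg (3 * P0 + 9 * P0 ^ 2)]
    have k9 : gm (c.gt t) (phi P c t f z) f y ≤ (C1 + M + e⁻¹ ^ N) / e ^ 3 + 1 := by
      have := vt_ge (P := P) hM0 (z y)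
      change -M ≤ _ at this
      rw [← sub_le_iff_le_add, le_div_iff₀ (by positivity)]
      change e ^ 3 * _ - _ + _ - _ ≤ _ at k6
      linarith
    refine w1.trans ?_
    rw [hC4]
    gcongr
  have hC4' : 0 ≤ C4 := by positivity
  intro x
  obtain ⟨w0, w1, -⟩ := hW x
  rw [← hφ] at w0 w1
  have k0 := hd.one_le_gm (mem_univ x)
  have k1 : gm (c.gt t) (phi P c t f z) f x * Real.exp (2 * z x) ≤ C4 / e ^ 2 := by
    rw [le_div_iff₀ (by positivity)]
    refine (abs_le_of_sq_le_sq' ?_ hC4').2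
    change e ^ 4 * _ ≤ _ at w1
    calc _ = e ^ 4 * (gm (c.gt t) (phi P c t f z) f x * Real.exp (2 * z x)) ^ 2 := by ring
      _ ≤ _ := w1.trans ((hy x).trans hW0)
  have k2 : Real.exp (2 * z x) ≤ C4 / e ^ 2 :=
    (le_mul_of_one_le_left (Real.exp_pos _).le k0).trans k1
  have k3 : gm (c.gt t) (phi P c t f z) f x ≤ C4 / e ^ 2 * Real.exp 6 := by
    have : 1 ≤ Real.exp (2 * z x) * Real.exp 6 := by
      rw [← Real.exp_add]; exact Real.one_le_exp (by linarith [hz' x])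
    calc _ ≤ gm (c.gt t) (phi P c t f z) f x * (Real.exp (2 * z x) * Real.exp 6) :=
          le_mul_of_one_le_right (by linarith) this
      _ ≤ _ := by rw [← mul_assoc]; gcongr
  refine ⟨le_max_of_le_left ?_, le_max_of_le_right (le_max_of_le_left (abs_le.2 ⟨?_, ?_⟩)),
    le_max_of_le_right (le_max_of_le_right ?_)⟩
  · have := hf x
    rw [abs_mul, abs_of_pos hτ] at this
    rw [le_div_iff₀ (by positivity), mul_comm]
    exact this
  · linarith [hz' x, le_max_left 3 (C4 / e ^ 2)]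
  · have := Real.add_one_le_exp (2 * z x)
    have := Real.exp_pos (2 * z x)
    linarith [le_max_right 3 (C4 / e ^ 2), le_max_left 3 (C4 / e ^ 2)]
  · refine (norm_df_le h hd (pow_pos he 2) w0.1).trans ?_
    gcongr

end Crest.Agent.N346.Bd

end
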