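import Crest.Agent.N346.Bd.Defs
import Crest.Agent.N346.Br.Adm

/-!
Row 346, Bd-BG (helper16): coordinate bounds give bounded geometry.
-/

set_option autoImplicit false

open MeasureTheory Filter Set
open scoped ContDiff Topology
open Crest.GeometryTopology.CoordMetric Crest.MathPhysics.ExteriorData
open Crest.Agent.R202.Tens Crest.Agent.R247.Bo84 Crest.Agent.N346.Id Crest.Agent.N346.P1
open Crest.Agent.N346.An (UB UC UPos)
open Crest.Agent.N346.Br (GU Ix)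

noncomputable section

namespace Crest.Agent.N346.Bd.BGx

variable {n : ℕ} {ι : Type} {g K : ι → MetricField n}

theorem uc_bil (h : ∀ i j, UC fun a x => K a x i j) : UC fun a x => bil (K a x) :=
  UB.sum _ fun i _ => UB.sum _ fun j _ => (h i j).smul (UB.const' _)

theorem uc_Gam (h : GU g) : UC fun a x => Gam (g a) x :=
  UB.sum _ fun i _ => UB.sum _ fun j _ => UB.sum _ fun k _ => (h.uc_chr k i j).smul (UB.const' _)

theorem bil_bd (h : ∀ i j, UC fun a x => K a x i j) :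
    ∃ C, 0 ≤ C ∧ ∀ a x Y Z, |bil (K a x) Y Z| ≤ C * ‖Y‖ * ‖Z‖ := by
  obtain ⟨C, h0, hC⟩ := (uc_bil h).bdd 0
  exact ⟨C, h0, fun a x Y Z => ((bil (K a x)).le_opNorm₂ Y Z).trans
    (by gcongr; exact hC a x le_rfl)⟩

theorem Gam_bd (h : GU g) : ∃ C, 0 ≤ C ∧ ∀ a x Y Z, ‖Gam (g a) x Y Z‖ ≤ C * ‖Y‖ * ‖Z‖ := by
  obtain ⟨C, h0, hC⟩ := (uc_Gam h).bdd 0
  exact ⟨C, h0, fun a x Y Z => ((Gam (g a) x).le_opNorm₂ Y Z).trans
    (by gcongr; exact hC a x le_rfl)⟩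

theorem norm_sq_le (h : GU g) : ∃ L, 0 < L ∧ ∀ a x Y, ‖Y‖ ^ 2 ≤ L * bil (g a x) Y Y := by
  obtain ⟨lam, h0, h1⟩ := h.lo
  refine ⟨lam⁻¹, by positivity, fun a x Y => ?_⟩
  rw [le_inv_mul_iff₀ h0, bil_apply]
  exact h1 a x Y

theorem norm_le (h : GU g) : ∃ L, 0 < L ∧ ∀ a x Y, bil (g a x) Y Y ≤ 1 → ‖Y‖ ≤ L := by
  obtain ⟨L, h0, h1⟩ := norm_sq_le h
  refine ⟨1 + L, by positivity, fun a x Y hY => ?_⟩
  nlinarith [h1 a x Y, mul_le_mul_of_nonneg_left hY h0.le, norm_nonneg Y, sq_nonneg (‖Y‖ - 1)]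

theorem ev_abs {u : ι → E n → ℝ} (h : UC u) : ∀ᶠ P in atTop, ∀ a x, |u a x| ≤ P := by
  obtain ⟨C, -, hC⟩ := h.bdd 0
  filter_upwards [eventually_ge_atTop C] with P hP a x using (hC a x le_rfl).trans hP

theorem ev_quad (h : GU g) {q : ι → E n → E n → ℝ} {C : ℝ} (hC : 0 ≤ C)
    (hq : ∀ a x Y, |q a x Y| ≤ C * ‖Y‖ * ‖Y‖) :
    ∀ᶠ P in atTop, ∀ a x Y, |q a x Y| ≤ P * bil (g a x) Y Y := by
  obtain ⟨L, h0, h1⟩ := norm_sq_le h
  filter_upwards [eventually_ge_atTop (C * L)] with P hP a x Y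
  have h2 := bil_self_nonneg (h.riem a) (mem_univ x) Y
  calc |q a x Y| ≤ C * ‖Y‖ ^ 2 := by rw [pow_two, ← mul_assoc]; exact hq a x Y
    _ ≤ C * (L * bil (g a x) Y Y) := mul_le_mul_of_nonneg_left (h1 a x Y) hC
    _ ≤ _ := by rw [← mul_assoc]; exact mul_le_mul_of_nonneg_right hP h2

theorem ev_b2 (h : GU g) (Cu : ℝ) : ∀ᶠ P in atTop, ∀ a (u : E n → ℝ), ContDiff ℝ ∞ u →
    (∀ x, ‖fderiv ℝ u x‖ ≤ Cu) → (∀ x, ‖fderiv ℝ (fderiv ℝ u) x‖ ≤ Cu) → B2 P (g a) u := by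
  obtain ⟨lo, hi, hlo, hlh, hE⟩ := h.inv_bounds
  obtain ⟨C, hC0, hC⟩ := Gam_bd h
  obtain ⟨L, h0, h1⟩ := norm_sq_le h
  filter_upwards [eventually_ge_atTop (hi * Cu ^ 2), eventually_ge_atTop ((Cu + Cu * C) * L)]
    with P hP hP' a u hu d1 d2
  have hCu : 0 ≤ Cu := (norm_nonneg _).trans (d1 0)
  refine ⟨hu, fun x => ?_, fun x Y => ?_⟩
  · have h2 := ((hE a x).2 fun i => pderiv i u x).2
    simp only [pow_two, Bs.sum_pd_sq] at h2
    refine le_trans h2 (le_trans (mul_le_mul_of_nonneg_left ?_ (hlo.le.trans hlh)) hP)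
    rw [← pow_two]
    exact pow_le_pow_left₀ (norm_nonneg _) (d1 x) 2
  · have h2 := bil_self_nonneg (h.riem a) (mem_univ x) Y
    have h3 : |fderiv ℝ (fderiv ℝ u) x Y Y| ≤ Cu * ‖Y‖ * ‖Y‖ :=
      ((fderiv ℝ (fderiv ℝ u) x).le_opNorm₂ Y Y).trans (by gcongr; exact d2 x)
    have h4 : |fderiv ℝ u x (Gam (g a) x Y Y)| ≤ Cu * (C * ‖Y‖ * ‖Y‖) :=
      ((fderiv ℝ u x).le_opNorm _).trans (mul_le_mul (d1 x) (hC a x Y Y) (norm_nonneg _) hCu)
    calc |hess (g a) u x Y Y| ≤ Cu * ‖Y‖ * ‖Y‖ + Cu * (C * ‖Y‖ * ‖Y‖) := by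
          rw [hess_apply]; exact (abs_sub _ _).trans (add_le_add h3 h4)
      _ = (Cu + Cu * C) * ‖Y‖ ^ 2 := by ring
      _ ≤ (Cu + Cu * C) * (L * bil (g a x) Y Y) :=
          mul_le_mul_of_nonneg_left (h1 a x Y) (by positivity)
      _ ≤ _ := by rw [← mul_assoc]; exact mul_le_mul_of_nonneg_right hP' h2

theorem ev_b2_uc (h : GU g) {u : ι → E n → ℝ} (hu : UC u) :
    ∀ᶠ P in atTop, ∀ a, B2 P (g a) (u a) := by
  obtain ⟨C1, p1, h1⟩ := hu.bdd1 0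
  obtain ⟨C2, p2, h2⟩ := hu.fd.bdd1 0
  filter_upwards [ev_b2 h (C1 + C2)] with P hP a
  exact hP a _ (hu.1 a) (fun x => (h1 a x le_rfl).trans (by linarith))
    fun x => (h2 a x le_rfl).trans (by linarith)

theorem uc_normSqK (h : GU g) (hK : ∀ i j, UC fun a x => K a x i j) :
    UC fun a => normSqK (g a) (K a) :=
  UB.sum _ fun i _ => UB.sum _ fun j _ => UB.sum _ fun k _ => UB.sum _ fun l _ =>
    (((h.uc_inv i k).mul (h.uc_inv j l)).mul (hK i j)).mul (hK k l)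

theorem uc_energy (h : GU g) (hK : ∀ i j, UC fun a x => K a x i j) :
    UC fun a => energyDensity (g a) (K a) :=
  (((h.uc_scal.add ((h.uc_traceK hK).pow 2)).sub (uc_normSqK h hK)).mul (UB.const' 2⁻¹)).congr
    fun _ _ => div_eq_mul_inv _ _

theorem uc_mom (h : GU g) (hK : ∀ i j, UC fun a x => K a x i j) (i : Fin n) :
    UC fun a x => momentumDensity (g a) (K a) x i :=
  (UB.sum _ fun j _ => UB.sum _ fun k _ => (h.uc_inv j k).mul
    ((((hK i j).pd k).sub (UB.sum _ fun l _ => (h.uc_chr l k i).mul (hK l j))).sub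
      (UB.sum _ fun l _ => (h.uc_chr l k j).mul (hK i l)))).sub ((h.uc_traceK hK).pd i)

theorem uc_eSq (h : GU g) {EE : ι → VectorField n} (hE : ∀ i, UC fun a x => EE a x i) :
    UC fun a => eSq (g a) (EE a) :=
  (UB.sum _ fun i _ => UB.sum _ fun j _ => ((h.uc i j).mul (hE i)).mul (hE j)).div
    h.uc_det h.upos_det

theorem ev_cK (h : GU g) (hK : ∀ i j, UC fun a x => K a x i j) :
    ∀ᶠ P in atTop, ∀ a x W, bil (g a x) W W ≤ 1 → |cK (g a) (K a) x W| ≤ P := by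
  obtain ⟨L, h0, h1⟩ := norm_le h
  obtain ⟨C, hC0, hC⟩ := Gam_bd h
  obtain ⟨D, hD0, hD⟩ := bil_bd hK
  choose F hF0 hF using fun i j => (hK i j).bdd1 0
  filter_upwards [eventually_ge_atTop
    ((∑ i, ∑ j, F i j * L * L * L) + 2 * (D * (C * L * L) * L))] with P hP a x W hW
  have hL := h1 a x W hW
  have hd := fun i j => (((hK i j).1 a).differentiable (by simp) x).hasFDerivAt
  have e : fderiv ℝ (fun y => bil (K a y) W W) x W
      = ∑ i, ∑ j, fderiv ℝ (fun y => K a y i j) x W * W i * W j := by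
    have := (HasFDerivAt.fun_sum (u := Finset.univ) fun i _ =>
      HasFDerivAt.fun_sum (u := Finset.univ) fun j _ =>
        ((hd i j).mul_const (W i)).mul_const (W j)).fderiv
    simp only [bil_apply]
    rw [this]
    simp only [ContinuousLinearMap.sum_apply, ContinuousLinearMap.smul_apply, smul_eq_mul]
    exact Finset.sum_congr rfl fun i _ => Finset.sum_congr rfl fun j _ => by ring
  have h2 : |∑ i, ∑ j, fderiv ℝ (fun y => K a y i j) x W * W i * W j|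
      ≤ ∑ i, ∑ j, F i j * L * L * L := by
    refine (Finset.abs_sum_le_sum_abs _ _).trans (Finset.sum_le_sum fun i _ =>
      (Finset.abs_sum_le_sum_abs _ _).trans (Finset.sum_le_sum fun j _ => ?_))
    have q1 : |fderiv ℝ (fun y => K a y i j) x W| ≤ F i j * L :=
      ((fderiv ℝ (fun y => K a y i j) x).le_opNorm W).trans
        (mul_le_mul (hF i j a x le_rfl) hL (norm_nonneg _) (hF0 i j))
    have q2 : ∀ i, |W i| ≤ L := fun i => (PiLp.norm_apply_le W i).trans hL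
    have := hF0 i j
    rw [abs_mul, abs_mul]
    exact mul_le_mul (mul_le_mul q1 (q2 i) (abs_nonneg _) (by positivity)) (q2 j) (abs_nonneg _)
      (by positivity)
  have h3 : |bil (K a x) (Gam (g a) x W W) W| ≤ D * (C * L * L) * L := by
    refine (hD a x _ _).trans ?_
    have : ‖Gam (g a) x W W‖ ≤ C * L * L := (hC a x W W).trans (by gcongr)
    gcongr
  rw [cK, e]
  refine (abs_sub _ _).trans ?_
  rw [abs_mul, abs_two]
  linarith

theorem ev_J (h : GU g) (hK : ∀ i j, UC fun a x => K a x i j) :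
    ∀ᶠ P in atTop, ∀ a x W, bil (g a x) W W ≤ 1 → |Jw (g a) (K a) x W| ≤ P := by
  obtain ⟨L, h0, h1⟩ := norm_le h
  obtain ⟨C, hC0, hC⟩ := (UB.pi (w := fun a x i => momentumDensity (g a) (K a) x i)
    (uc_mom h hK)).bdd 0
  filter_upwards [eventually_ge_atTop (∑ _i : Fin n, C * L)] with P hP a x W hW
  refine ((Finset.abs_sum_le_sum_abs _ _).trans (Finset.sum_le_sum fun i _ => ?_)).trans hP
  rw [abs_mul]
  exact mul_le_mul ((norm_le_pi_norm (fun i => momentumDensity (g a) (K a) x i) i).trans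
    (hC a x le_rfl)) ((PiLp.norm_apply_le W i).trans (h1 a x W hW)) (abs_nonneg _) hC0

theorem ev_bg (h : GU g) (hK : ∀ i j, UC fun a x => K a x i j)
    (hKs : ∀ a x i j, K a x i j = K a x j i) {EE : ι → VectorField n}
    (hE : ∀ i, UC fun a x => EE a x i) {a1 a2 : ι → E n → ℝ} (h1 : UC a1) (h2 : UC a2)
    (m1 : ∀ a x, a1 a x ∈ Icc (0 : ℝ) 1) (m2 : ∀ a x, a2 a x ∈ Icc (0 : ℝ) 1) :
    ∀ᶠ P in atTop, ∀ a, BG P (g a) (K a) (EE a) (a1 a) (a2 a) := by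
  obtain ⟨L, hL0, hL⟩ := norm_sq_le h
  obtain ⟨L', hL0', hL'⟩ := norm_le h
  obtain ⟨Cg, hg0, hg⟩ := bil_bd h.uc
  obtain ⟨CR, hR0, hR⟩ := bil_bd (K := fun a => ricM (g a)) h.uc_ric
  obtain ⟨D, hD0, hD⟩ := bil_bd hK
  obtain ⟨c, hc0, hc⟩ := h.det_lo
  obtain ⟨F, hF0, hF⟩ := (h.uc_traceK hK).bdd1 0
  filter_upwards [eventually_ge_atTop 2, ev_b2_uc h h1, ev_b2_uc h (h1.mul h2),
    ev_abs (uc_eSq h hE), eventually_ge_atTop L, eventually_ge_atTop Cg,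
    eventually_ge_atTop (√c)⁻¹, ev_abs h.uc_vol, ev_abs h.uc_scal,
    ev_quad h (q := fun a x Y => bil (ricM (g a) x) Y Y) hR0 fun a x Y => hR a x Y Y,
    eventually_ge_atTop (D * L), ev_abs (h.uc_traceK hK), eventually_ge_atTop (F * L'),
    ev_cK h hK, ev_abs (uc_energy h hK), ev_J h hK]
    with P p1 p2 p3 p4 p5 p6 p7 p8 p9 p10 p11 p12 p13 p14 p15 p16 a
  have hn := fun x Y => bil_self_nonneg (h.riem a) (mem_univ x) Y
  refine ⟨p1, h.riem a, ⟨fun i j => ((hK i j).1 a).contDiffOn, fun x _ => hKs a x⟩, m1 a, m2 a,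
    p2 a, p3 a, fun x => (le_abs_self _).trans (p4 a x),
    fun x Y => (hL a x Y).trans (mul_le_mul_of_nonneg_right p5 (hn x Y)), fun x Y => ?_,
    fun x => ?_, fun x => (le_abs_self _).trans (p8 a x), p9 a, p10 a, fun x Y Z => ?_, p12 a,
    fun x W hW => ?_, p14 a, p15 a, p16 a⟩
  · refine (le_abs_self _).trans ((hg a x Y Y).trans ?_)
    rw [mul_assoc, ← pow_two]
    exact mul_le_mul_of_nonneg_right p6 (sq_nonneg _)
  · exact (inv_le_of_inv_le₀ (Real.sqrt_pos.2 hc0) p7).trans (Real.sqrt_le_sqrt (hc a x))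
  · calc bil (K a x) Y Z ^ 2 ≤ (D * ‖Y‖ * ‖Z‖) ^ 2 := sq_le_sq' (abs_le.1 (hD a x Y Z)).1
          (abs_le.1 (hD a x Y Z)).2
      _ = D ^ 2 * (‖Y‖ ^ 2 * ‖Z‖ ^ 2) := by ring
      _ ≤ D ^ 2 * (L * bil (g a x) Y Y * (L * bil (g a x) Z Z)) := by
          gcongr
          · exact mul_nonneg hL0.le (hn x Y)
          · exact hL a x Y
          · exact hL a x Z
      _ = (D * L) ^ 2 * (bil (g a x) Y Y * bil (g a x) Z Z) := by ring
      _ ≤ _ := mul_le_mul_of_nonneg_right (pow_le_pow_left₀ (by positivity) p11 2)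
          (mul_nonneg (hn x Y) (hn x Z))
  · exact ((fderiv ℝ (traceK (g a) (K a)) x).le_opNorm W).trans
      ((mul_le_mul (hF a x le_rfl) (hL' a x W hW) (norm_nonneg _) hF0).trans p13)

theorem gu_gt (n : ℕ) (lam : ℝ) (B : ℕ → ℝ) : GU fun a : Ix n lam B => a.1.1.gt a.1.2 := by
  refine ⟨fun a => Br.riem_gt a.2.1 a.2.2, fun i j =>
    ((((UB.const' 1).sub Br.ub_t).mul (UB.const' ((1 : Matrix (Fin n) (Fin n) ℝ) i j))).add
      (Br.ub_t.mul (Br.uc_comp (u := fun c x => c.g x i j) fun c => Or.inl ⟨i, j, rfl⟩))).congr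
      fun _ _ => rfl, max lam 0 + if 0 < lam then 0 else 1, by split_ifs <;> positivity,
      fun a x v => ?_⟩
  rw [if_pos a.2.1.lam_pos, max_eq_left a.2.1.lam_pos.le, add_zero, Bs.norm_sq_eq]
  exact Br.gt_lo a.2.1 a.2.2 x v

end Crest.Agent.N346.Bd.BGx

namespace Crest.Agent.N346.Bd
open BGx

theorem bg : BGStmt := by
  intro n lam Cu B
  have h := ev_bg (gu_gt n lam B) (K := fun a => a.1.1.Kt a.1.2) (EE := fun a => a.1.1.EE)
    (a1 := fun a => a.1.1.a1) (a2 := fun a => a.1.1.a2)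
    (fun i j => (Br.ub_t.mul (Br.uc_comp (u := fun c x => c.K x i j)
      fun c => Or.inr (Or.inl ⟨i, j, rfl⟩))).congr fun _ _ => rfl)
    (fun a x i j => by
      show a.1.2 * a.1.1.K x i j = a.1.2 * a.1.1.K x j i
      rw [a.2.1.K_symm])
    (fun i => Br.uc_comp (u := fun c x => c.EE x i) fun c => Or.inr (Or.inr (Or.inl ⟨i, rfl⟩)))
    (Br.uc_comp fun c => by simp [P1.Coef.comps]) (Br.uc_comp fun c => by simp [P1.Coef.comps])
    (fun a => a.2.1.a1_mem) fun a => a.2.1.a2_mem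
  obtain ⟨P, h1, h2⟩ := (h.and (ev_b2 (gu_gt n lam B) Cu)).exists
  exact ⟨P, fun c hc t ht => ⟨h1 ⟨(c, t), hc, ht⟩, h2 ⟨(c, t), hc, ht⟩⟩⟩

end Crest.Agent.N346.Bd

end
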