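import Crest.Agent.N346.Bd.Defs
import Mathlib.Analysis.FunctionalSpaces.SobolevInequality

/-!
Row 346, Part 1 (helper98): the abstract degenerate De Giorgi – Stampacchia lemma.
-/

set_option autoImplicit false

open MeasureTheory Filter Set
open scoped ContDiff Topology
open Crest.GeometryTopology.CoordMetric Crest.MathPhysics.ExteriorData
open Crest.Agent.R202.Tens Crest.Agent.R247.Bo84 Crest.Agent.N346.Id Crest.Agent.N346.P1

noncomputable section

namespace Crest.Agent.N346.Bd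

namespace DG

theorem hasDerivAt_q2 (t : ℝ) : HasDerivAt (fun s : ℝ => max s 0 ^ 2) (2 * max t 0) t := by
  rcases lt_trichotomy t 0 with h | h | h
  · rw [max_eq_right h.le, mul_zero]
    refine (hasDerivAt_const t (0 : ℝ)).congr_of_eventuallyEq ?_
    filter_upwards [Iio_mem_nhds h] with s hs
    rw [max_eq_right (le_of_lt hs)]; norm_num
  · subst h
    rw [hasDerivAt_iff_isLittleO_nhds_zero]
    refine Asymptotics.IsBigO.trans_isLittleO (g := fun h : ℝ => h ^ 2) ?_
      (Asymptotics.isLittleO_pow_id (by norm_num))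
    refine Asymptotics.IsBigO.of_bound 1 (Eventually.of_forall fun s => ?_)
    rcases le_total s 0 with hs | hs
    · simp [max_eq_right hs]
      positivity
    · simp [max_eq_left hs]
  · rw [max_eq_left h.le]
    have : HasDerivAt (fun s : ℝ => s ^ 2) (2 * t) t := by simpa using hasDerivAt_pow 2 t
    refine this.congr_of_eventuallyEq ?_
    filter_upwards [Ioi_mem_nhds h] with s hs
    rw [max_eq_left (le_of_lt hs)]

theorem q3_eq (s : ℝ) : max s 0 ^ 3 = max s 0 ^ 2 * s := by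
  rcases le_total s 0 with hs | hs
  · simp [max_eq_right hs]
  · rw [max_eq_left hs]; ring

theorem hasDerivAt_q3 (t : ℝ) : HasDerivAt (fun s : ℝ => max s 0 ^ 3) (3 * max t 0 ^ 2) t := by
  have h := (hasDerivAt_q2 t).mul (hasDerivAt_id t)
  have e : (fun s : ℝ => max s 0 ^ 3) = (fun s : ℝ => max s 0 ^ 2) * id := by
    funext s; simp [q3_eq]
  rw [e]
  refine h.congr_deriv ?_
  rcases le_total t 0 with hs | hs
  · simp [max_eq_right hs]
  · rw [max_eq_left hs, id]; ring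

theorem contDiff_q2 : ContDiff ℝ 1 fun s : ℝ => max s 0 ^ 2 := by
  rw [contDiff_one_iff_deriv]
  refine ⟨fun t => (hasDerivAt_q2 t).differentiableAt, ?_⟩
  have : deriv (fun s : ℝ => max s 0 ^ 2) = fun t => 2 * max t 0 :=
    funext fun t => (hasDerivAt_q2 t).deriv
  rw [this]; fun_prop

theorem contDiff_q3 : ContDiff ℝ 1 fun s : ℝ => max s 0 ^ 3 := by
  simp only [q3_eq]
  exact contDiff_q2.mul contDiff_id

/-- the iteration -/
theorem iter {a : ℕ → ℝ} {m : ℕ} (hm : m ≠ 0) {D c : ℝ} (hD0 : 0 ≤ D) (hc : 0 < c)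
    (hca : ∀ j, c ≤ a j) (hrec : ∀ j, a (j + 1) ^ m ≤ D * (8 ^ j * a j) ^ (m + 1))
    (hD : D * 8 ^ ((m + 1) * m) * a 0 ≤ 1) : False := by
  have ha : ∀ j, 0 ≤ a j := fun j => hc.le.trans (hca j)
  have key : ∀ j, (8 ^ (m + 1)) ^ j * a j ≤ a 0 := by
    intro j
    induction j with
    | zero => simp
    | succ j ih =>
      refine le_of_pow_le_pow_left₀ hm (ha 0) ?_
      have h0 : 0 ≤ ((8 : ℝ) ^ (m + 1)) ^ j * a j := mul_nonneg (by positivity) (ha j)
      calc (((8 : ℝ) ^ (m + 1)) ^ (j + 1) * a (j + 1)) ^ m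
          = (((8 : ℝ) ^ (m + 1)) ^ (j + 1)) ^ m * a (j + 1) ^ m := mul_pow _ _ _
        _ ≤ (((8 : ℝ) ^ (m + 1)) ^ (j + 1)) ^ m * (D * (8 ^ j * a j) ^ (m + 1)) :=
          mul_le_mul_of_nonneg_left (hrec j) (by positivity)
        _ = D * 8 ^ ((m + 1) * m) * (((8 : ℝ) ^ (m + 1)) ^ j * a j) ^ (m + 1) := by
          simp only [mul_pow, ← pow_mul]; ring
        _ ≤ D * 8 ^ ((m + 1) * m) * a 0 ^ (m + 1) :=
          mul_le_mul_of_nonneg_left (pow_le_pow_left₀ h0 ih _) (by positivity)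
        _ = (D * 8 ^ ((m + 1) * m) * a 0) * a 0 ^ m := by ring
        _ ≤ 1 * a 0 ^ m := mul_le_mul_of_nonneg_right hD (pow_nonneg (ha 0) _)
        _ = a 0 ^ m := one_mul _
  obtain ⟨j, hj⟩ := pow_unbounded_of_one_lt (a 0 / c)
    (one_lt_pow₀ (by norm_num : (1 : ℝ) < 8) (Nat.succ_ne_zero m))
  rw [div_lt_iff₀ hc] at hj
  have := mul_le_mul_of_nonneg_left (hca j) (by positivity : (0 : ℝ) ≤ (8 ^ (m + 1)) ^ j)
  exact absurd (key j) (not_le.2 (hj.trans_le this))

/-- Sobolev inequality in the form used -/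
theorem sob (m : ℕ) (hm : m ≠ 0) : ∃ C : ℝ, 0 ≤ C ∧ ∀ (u : E (m + 1) → ℝ) (s : Set (E (m + 1)))
    (c X : ℝ), ContDiff ℝ 1 u → HasCompactSupport u → MeasurableSet s → volume s ≠ ⊤ → 0 ≤ c →
    (∀ x ∈ s, c ≤ u x) → ∫ x, ‖fderiv ℝ u x‖ ≤ X →
    c ^ (m + 1) * volume.real s ^ m ≤ C * X ^ (m + 1) := by
  have hm' : (0 : ℝ) < m := by positivity
  set p : ℝ := (m + 1) / m with hp
  have hp0 : 0 ≤ p := by positivity
  have hpm : p * m = ((m + 1 : ℕ) : ℝ) := by rw [hp]; push_cast; field_simp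
  have hc : Real.HolderConjugate (Module.finrank ℝ (E (m + 1))) p := by
    rw [finrank_euclideanSpace_fin]
    refine ⟨?_, by positivity, by positivity⟩
    rw [hp]; push_cast; field_simp; ring
  set C := lintegralPowLePowLIntegralFDerivConst (volume : Measure (E (m + 1))) p
  refine ⟨(C : ℝ) ^ m, by positivity, fun u s c X hu hcu hs hfin hc0 hcu' hX => ?_⟩
  have hint : Integrable (fderiv ℝ u) :=
    (hu.continuous_fderiv one_ne_zero).integrable_of_hasCompactSupport (hcu.fderiv ℝ)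
  have hX0 : 0 ≤ X := (integral_nonneg fun _ => norm_nonneg _).trans hX
  have h1 : ENNReal.ofReal (c ^ p) * volume s ≤ ENNReal.ofReal (C * X ^ p) := by
    calc ENNReal.ofReal (c ^ p) * volume s = ∫⁻ _ in s, ENNReal.ofReal (c ^ p) :=
          (setLIntegral_const _ _).symm
      _ ≤ ∫⁻ x in s, ‖u x‖ₑ ^ p := by
          refine setLIntegral_mono' hs fun x hx => ?_
          rw [← ENNReal.ofReal_rpow_of_nonneg hc0 hp0, ← ofReal_norm]
          exact ENNReal.rpow_le_rpow (ENNReal.ofReal_le_ofReal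
            ((hcu' x hx).trans (le_abs_self _))) hp0
      _ ≤ ∫⁻ x, ‖u x‖ₑ ^ p := setLIntegral_le_lintegral _ _
      _ ≤ C * (∫⁻ x, ‖fderiv ℝ u x‖ₑ) ^ p := lintegral_pow_le_pow_lintegral_fderiv _ hu hcu hc
      _ ≤ C * ENNReal.ofReal X ^ p := by
          rw [← ofReal_integral_norm_eq_lintegral_enorm hint]
          gcongr
      _ = ENNReal.ofReal (C * X ^ p) := by
          rw [ENNReal.ofReal_mul (NNReal.coe_nonneg C), ENNReal.ofReal_rpow_of_nonneg hX0 hp0,
            ENNReal.ofReal_coe_nnreal]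
  have h2 : c ^ p * volume.real s ≤ C * X ^ p := by
    have := ENNReal.toReal_mono ENNReal.ofReal_ne_top h1
    rwa [ENNReal.toReal_mul, ENNReal.toReal_ofReal (by positivity),
      ENNReal.toReal_ofReal (by positivity)] at this
  have h3 := pow_le_pow_left₀ (by positivity) h2 m
  rwa [mul_pow, mul_pow, ← Real.rpow_natCast (c ^ p), ← Real.rpow_natCast (X ^ p),
    ← Real.rpow_mul hc0, ← Real.rpow_mul hX0, hpm, Real.rpow_natCast, Real.rpow_natCast] at h3

/-- the pointwise inequality -/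
theorem ptw {P z d g a w : ℝ} (hP : 2 ≤ P) (hz0 : 0 ≤ z) (hz1 : z ≤ 1) (hg : 0 ≤ g)
    (ha : 0 ≤ a) (h : d ^ 2 ≤ P * g * a) (hw : g / P - P ≤ w) :
    3 * z ^ 2 * d ≤ 2 * P ^ 2 * (z ^ 2 * w + 2 * z * a) + 2 * P ^ 3 * z ^ 2 := by
  have hP0 : 0 < P := by linarith
  have h1 : z ^ 2 * d ≤ (z * a + P * z ^ 2 * g) / 2 := by
    refine le_of_pow_le_pow_left₀ two_ne_zero (by positivity) ?_
    have e1 : (z ^ 2 * d) ^ 2 ≤ z ^ 4 * (P * g * a) := by
      rw [mul_pow, ← pow_mul]; exact mul_le_mul_of_nonneg_left h (by positivity)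
    have e2 : z ^ 4 * (P * g * a) ≤ (z * a) * (P * z ^ 2 * g) := by
      have : z * ((z * a) * (P * z ^ 2 * g)) ≤ 1 * ((z * a) * (P * z ^ 2 * g)) :=
        mul_le_mul_of_nonneg_right hz1 (by positivity)
      nlinarith
    nlinarith [sq_nonneg (z * a - P * z ^ 2 * g)]
  have h2 : P * g ≤ P ^ 2 * w + P ^ 3 := by
    have := mul_le_mul_of_nonneg_left hw (by positivity : 0 ≤ P ^ 2)
    have e : P ^ 2 * (g / P - P) = P * g - P ^ 3 := by field_simp
    linarith
  have h3 := mul_le_mul_of_nonneg_left h2 (by positivity : 0 ≤ z ^ 2)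
  have h4 : 0 ≤ z * a := by positivity
  have h5 : 0 ≤ P * z ^ 2 * g := by positivity
  have h6 : 1 * (z * a) ≤ P ^ 2 * (z * a) := mul_le_mul_of_nonneg_right (by nlinarith) h4
  nlinarith

variable {n : ℕ}

/-- the energy estimate -/
theorem energy {P k : ℝ} (hP : 2 ≤ P) {ψ γ : E n → ℝ} {V : E n → E n} (hψ : ContDiff ℝ 1 ψ)
    (hV : ContDiff ℝ 1 V) (h1 : ∀ x, ψ x ≤ 1) (hb : Bornology.IsBounded {x | 1 / 4 ≤ ψ x})
    (h : ∀ x, 1 / 4 < ψ x → 0 ≤ γ x ∧ ‖fderiv ℝ ψ x‖ ^ 2 ≤ P * γ x * fderiv ℝ ψ x (V x) ∧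
      γ x / P - P ≤ divE (fun y i => V y i) x) (hk : 1 / 4 ≤ k) :
    ContDiff ℝ 1 (fun x => max (ψ x - k) 0 ^ 3) ∧ HasCompactSupport (fun x => max (ψ x - k) 0 ^ 3) ∧
    ∫ x, ‖fderiv ℝ (fun x => max (ψ x - k) 0 ^ 3) x‖ ≤ 2 * P ^ 3 * volume.real {x | k < ψ x} := by
  have hK : IsCompact {x | 1 / 4 ≤ ψ x} :=
    Metric.isCompact_of_isClosed_isBounded (isClosed_le continuous_const hψ.continuous) hb
  have hz : ∀ x, x ∉ {x | 1 / 4 ≤ ψ x} → max (ψ x - k) 0 = 0 := fun x hx =>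
    max_eq_right (by simp only [mem_ofPred_eq, not_le] at hx; linarith)
  have hψk : ContDiff ℝ 1 fun x => ψ x - k := hψ.sub contDiff_const
  have c2 : ContDiff ℝ 1 fun x => max (ψ x - k) 0 ^ 2 := contDiff_q2.comp hψk
  have c3 : ContDiff ℝ 1 fun x => max (ψ x - k) 0 ^ 3 := contDiff_q3.comp hψk
  have s1 : HasCompactSupport fun x => max (ψ x - k) 0 := .intro hK hz
  have s2 : HasCompactSupport fun x => max (ψ x - k) 0 ^ 2 :=
    .intro hK fun x hx => by rw [hz x hx]; norm_num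
  have s3 : HasCompactSupport fun x => max (ψ x - k) 0 ^ 3 :=
    .intro hK fun x hx => by rw [hz x hx]; norm_num
  refine ⟨c3, s3, ?_⟩
  have hd : ∀ x, HasFDerivAt (fun x => ψ x - k) (fderiv ℝ ψ x) x := fun x =>
    (hψ.differentiable one_ne_zero x).hasFDerivAt.sub_const k
  have d2 : ∀ x, fderiv ℝ (fun x => max (ψ x - k) 0 ^ 2) x
      = (2 * max (ψ x - k) 0) • fderiv ℝ ψ x := fun x => by
    have := ((hasDerivAt_q2 (ψ x - k)).comp_hasFDerivAt x (hd x)).fderiv
    exact this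
  have d3 : ∀ x, fderiv ℝ (fun x => max (ψ x - k) 0 ^ 3) x
      = (3 * max (ψ x - k) 0 ^ 2) • fderiv ℝ ψ x := fun x => by
    have := ((hasDerivAt_q3 (ψ x - k)).comp_hasFDerivAt x (hd x)).fderiv
    exact this
  have hVi : ∀ i, ContDiff ℝ 1 fun x => (fun y i => V y i : VectorField n) x i := fun i =>
    (EuclideanSpace.proj i : E n →L[ℝ] ℝ).contDiff.comp hV
  have hibp := Bs.ibp_divE c2 s2 hVi
  have e1 : ∀ x, ∑ i, pderiv i (fun x => max (ψ x - k) 0 ^ 2) x * V x i
      = 2 * max (ψ x - k) 0 * fderiv ℝ ψ x (V x) := fun x => by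
    rw [← Bs.fderiv_eq_sum, d2]; simp
  simp only [e1] at hibp
  have cz : Continuous fun x => max (ψ x - k) 0 := hψk.continuous.max continuous_const
  have cdiv : Continuous (divE (fun y i => V y i : VectorField n)) := by
    unfold divE
    exact continuous_finsetSum _ fun i _ => Bs.continuous_pd (hVi i) i
  have i1 : Integrable fun x => max (ψ x - k) 0 ^ 2 * divE (fun y i => V y i : VectorField n) x :=
    (c2.continuous.mul cdiv).integrable_of_hasCompactSupport s2.mul_right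
  have i2 : Integrable fun x => 2 * max (ψ x - k) 0 * fderiv ℝ ψ x (V x) :=
    ((continuous_const.mul cz).mul ((hψ.continuous_fderiv one_ne_zero).clm_apply
      hV.continuous)).integrable_of_hasCompactSupport s1.mul_left.mul_right
  have i12 : Integrable fun x => max (ψ x - k) 0 ^ 2 * divE (fun y i => V y i : VectorField n) x
      + 2 * max (ψ x - k) 0 * fderiv ℝ ψ x (V x) := i1.add i2
  have i3 : Integrable fun x => max (ψ x - k) 0 ^ 2 :=
    c2.continuous.integrable_of_hasCompactSupport s2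
  have hopen : MeasurableSet {x | k < ψ x} :=
    (isOpen_lt continuous_const hψ.continuous).measurableSet
  have hfin : volume {x | k < ψ x} ≠ ⊤ :=
    ((measure_mono fun x (hx : k < ψ x) => show 1 / 4 ≤ ψ x by linarith).trans_lt
      hK.measure_lt_top).ne
  have hz1 : ∀ x, max (ψ x - k) 0 ≤ 1 := fun x => max_le (by linarith [h1 x]) zero_le_one
  have hI : ∫ x, max (ψ x - k) 0 ^ 2 ≤ volume.real {x | k < ψ x} := by
    rw [← integral_indicator_one hopen]
    refine integral_mono i3 ((integrable_indicator_iff hopen).2 (integrableOn_const hfin))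
      fun x => ?_
    by_cases hx : x ∈ {x | k < ψ x}
    · rw [indicator_of_mem hx]
      exact pow_le_one₀ (le_max_right _ _) (hz1 x)
    · rw [indicator_of_notMem hx]
      have : max (ψ x - k) 0 = 0 :=
        max_eq_right (by simp only [mem_ofPred_eq, not_lt] at hx; linarith)
      simp [this]
  calc ∫ x, ‖fderiv ℝ (fun x => max (ψ x - k) 0 ^ 3) x‖
      ≤ ∫ x, (2 * P ^ 2 * (max (ψ x - k) 0 ^ 2 * divE (fun y i => V y i : VectorField n) x
          + 2 * max (ψ x - k) 0 * fderiv ℝ ψ x (V x)) + 2 * P ^ 3 * max (ψ x - k) 0 ^ 2) := by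
        refine integral_mono ((c3.continuous_fderiv one_ne_zero).integrable_of_hasCompactSupport
          (s3.fderiv ℝ)).norm (((i1.add i2).const_mul _).add (i3.const_mul _)) fun x => ?_
        simp only [d3, norm_smul, Real.norm_eq_abs]
        rw [abs_of_nonneg (by positivity)]
        by_cases hx : k < ψ x
        · obtain ⟨a1, a2, a3⟩ := h x (hk.trans_lt hx)
          refine ptw hP (le_max_right _ _) (hz1 x) a1 ?_ a2 a3
          rcases a1.eq_or_lt with a0 | a0
          · rw [← a0, mul_zero, zero_mul] at a2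
            have : fderiv ℝ ψ x = 0 := by
              rw [← norm_eq_zero]; exact pow_eq_zero_iff (two_ne_zero) |>.1 (le_antisymm a2 (sq_nonneg _))
            simp [this]
          · exact nonneg_of_mul_nonneg_right ((sq_nonneg _).trans a2) (mul_pos (by linarith) a0)
        · have : max (ψ x - k) 0 = 0 := max_eq_right (by linarith [not_lt.1 hx])
          simp [this]
    _ = 2 * P ^ 3 * ∫ x, max (ψ x - k) 0 ^ 2 := by
        rw [integral_add (i12.const_mul _) (i3.const_mul _), integral_const_mul,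
          integral_const_mul, integral_add i1 i2, hibp]
        ring
    _ ≤ _ := mul_le_mul_of_nonneg_left hI (by positivity)

end DG

open DG in
theorem dg : DGStmt := by
  intro n hn
  obtain ⟨m, rfl⟩ : ∃ m, n = m + 1 := ⟨n - 1, by omega⟩
  have hm : m ≠ 0 := by omega
  obtain ⟨C, hC0, hC⟩ := sob m hm
  obtain ⟨N0, hN0⟩ := pow_unbounded_of_one_lt (C * 1024 ^ (m + 1) * 8 ^ ((m + 1) * m))
    (by norm_num : (1 : ℝ) < 2)
  refine ⟨N0 + 3 * (m + 1), fun P hP ψ γ V hψ hV _ h1 h2 hb h => ?_⟩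
  by_contra hlt
  rw [not_le] at hlt
  have hP0 : 0 < P := by linarith
  have hK : IsCompact {x | 1 / 4 ≤ ψ x} :=
    Metric.isCompact_of_isClosed_isBounded (isClosed_le continuous_const hψ.continuous) hb
  have hfin : ∀ k : ℝ, 1 / 4 ≤ k → volume {x | k < ψ x} ≠ ⊤ := fun k hk =>
    ((measure_mono fun x (hx : k < ψ x) => show 1 / 4 ≤ ψ x by linarith).trans_lt
      hK.measure_lt_top).ne
  set kk : ℕ → ℝ := fun j => 1 / 2 - (1 / 2) ^ j / 4 with hkk
  have hk1 : ∀ j, 1 / 4 ≤ kk j := fun j => by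
    have : ((1 : ℝ) / 2) ^ j ≤ 1 := pow_le_one₀ (by norm_num) (by norm_num)
    simp only [hkk]; linarith
  have hk2 : ∀ j, kk j ≤ 1 / 2 := fun j => by
    have : 0 ≤ ((1 : ℝ) / 2) ^ j := by positivity
    simp only [hkk]; linarith
  have hpos : 0 < volume.real {x | 1 / 2 < ψ x} := by
    obtain ⟨x0, hx0⟩ := h2
    exact ENNReal.toReal_pos ((isOpen_lt continuous_const hψ.continuous).measure_pos volume
      ⟨x0, show 1 / 2 < ψ x0 by rw [hx0]; norm_num⟩).ne' (hfin _ (by norm_num))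
  refine iter (a := fun j => volume.real {x | kk j < ψ x}) hm
    (D := C * (1024 * P ^ 3) ^ (m + 1)) (by positivity) hpos (fun j => ?_) (fun j => ?_) ?_
  · exact measureReal_mono (fun x (hx : 1 / 2 < ψ x) => show kk j < ψ x from (hk2 j).trans_lt hx)
      (hfin _ (hk1 j))
  · obtain ⟨c3, s3, hE⟩ := energy hP hψ hV h1 hb h (hk1 j)
    have := hC _ {x | kk (j + 1) < ψ x} (((1 / 2) ^ j / 8) ^ 3) _ c3 s3
      (isOpen_lt continuous_const hψ.continuous).measurableSet (hfin _ (hk1 _)) (by positivity)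
      (fun x (hx : kk (j + 1) < ψ x) => pow_le_pow_left₀ (by positivity)
        (le_max_of_le_left (by simp only [hkk, pow_succ] at hx ⊢; linarith)) 3) hE
    have e : ((8 : ℝ) ^ j * 512) ^ (m + 1) * (((1 / 2) ^ j / 8) ^ 3) ^ (m + 1) = 1 := by
      rw [← mul_pow, show (8 : ℝ) ^ j * 512 * ((1 / 2) ^ j / 8) ^ 3 = (8 * (1 / 2) ^ 3) ^ j by
        rw [mul_pow, ← pow_mul, mul_comm 3 j, pow_mul]; ring]
      norm_num
    calc volume.real {x | kk (j + 1) < ψ x} ^ m
        = ((8 : ℝ) ^ j * 512) ^ (m + 1) * ((((1 / 2) ^ j / 8) ^ 3) ^ (m + 1)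
            * volume.real {x | kk (j + 1) < ψ x} ^ m) := by rw [← mul_assoc, e, one_mul]
      _ ≤ ((8 : ℝ) ^ j * 512) ^ (m + 1)
            * (C * (2 * P ^ 3 * volume.real {x | kk j < ψ x}) ^ (m + 1)) :=
          mul_le_mul_of_nonneg_left this (by positivity)
      _ = _ := by
          rw [mul_left_comm, ← mul_pow, mul_assoc C, ← mul_pow]
          congr 2; ring
  · have e0 : kk 0 = 1 / 4 := by simp only [hkk]; norm_num
    simp only [e0]
    have h3 : C * (1024 * P ^ 3) ^ (m + 1) * 8 ^ ((m + 1) * m) ≤ P ^ (N0 + 3 * (m + 1)) := by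
      have : (2 : ℝ) ^ N0 ≤ P ^ N0 := pow_le_pow_left₀ (by norm_num) hP _
      calc C * (1024 * P ^ 3) ^ (m + 1) * 8 ^ ((m + 1) * m)
          = C * 1024 ^ (m + 1) * 8 ^ ((m + 1) * m) * P ^ (3 * (m + 1)) := by
            rw [mul_pow, ← pow_mul]; ring
        _ ≤ P ^ N0 * P ^ (3 * (m + 1)) :=
            mul_le_mul_of_nonneg_right (hN0.le.trans this) (by positivity)
        _ = _ := (pow_add _ _ _).symm
    calc _ ≤ P ^ (N0 + 3 * (m + 1)) * (P ^ (N0 + 3 * (m + 1)))⁻¹ :=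
          mul_le_mul h3 hlt.le measureReal_nonneg (by positivity)
      _ = 1 := mul_inv_cancel₀ (by positivity)

end Crest.Agent.N346.Bd

end
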