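import Crest.Agent.N346.Bd.Defs

/-!
Row 346, Bd-Far: the far-field geometry of good data, `far : FarStmt`.
-/

set_option autoImplicit false

open MeasureTheory Filter Set
open scoped ContDiff Topology RealInnerProductSpace
open Crest.GeometryTopology.CoordMetric Crest.MathPhysics.ExteriorData
open Crest.Agent.R202.Tens Crest.Agent.R247.Bo84 Crest.Agent.N346.Id Crest.Agent.N346.P1

noncomputable section

namespace Crest.Agent.N346.Bd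

namespace Rad

variable {n : ℕ} {x : E n}

/-! ### flat calculus of `‖x‖ ^ p` -/

theorem hasFDerivAt_nrp (hx : x ≠ 0) (p : ℝ) :
    HasFDerivAt (fun y : E n => ‖y‖ ^ p) ((p * ‖x‖ ^ (p - 2)) • innerSL ℝ x) x := by
  have hr : 0 < ‖x‖ := norm_pos_iff.2 hx
  have h := (hasStrictFDerivAt_norm_sq x).hasFDerivAt.rpow_const (p := p / 2)
    (Or.inl (by positivity))
  have e : ∀ (y : E n) (q : ℝ), (‖y‖ ^ 2) ^ (q / 2) = ‖y‖ ^ q := fun y q => by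
    rw [← Real.rpow_natCast, ← Real.rpow_mul (norm_nonneg _)]
    congr 1
    push_cast
    ring
  simp only [e, show p / 2 - 1 = (p - 2) / 2 by ring] at h
  refine h.congr_fderiv ?_
  rw [two_smul, smul_add, ← add_smul]
  congr 1
  ring

theorem contDiffAt_nrp (hx : x ≠ 0) (p : ℝ) : ContDiffAt ℝ ∞ (fun y : E n => ‖y‖ ^ p) x :=
  (contDiffAt_norm ℝ hx).rpow_const_of_ne (norm_ne_zero_iff.2 hx)

theorem fderiv_nrp (hx : x ≠ 0) (p : ℝ) (Y : E n) :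
    fderiv ℝ (fun y : E n => ‖y‖ ^ p) x Y = p * ‖x‖ ^ (p - 2) * ⟪x, Y⟫ := by
  rw [(hasFDerivAt_nrp hx p).fderiv]
  simp

theorem norm_fderiv_nrp (hx : x ≠ 0) (p : ℝ) :
    ‖fderiv ℝ (fun y : E n => ‖y‖ ^ p) x‖ = |p| * ‖x‖ ^ (p - 1) := by
  have hr : 0 < ‖x‖ := norm_pos_iff.2 hx
  rw [(hasFDerivAt_nrp hx p).fderiv, norm_smul, innerSL_apply_norm, norm_mul, Real.norm_eq_abs,
    Real.norm_of_nonneg (Real.rpow_nonneg hr.le _), mul_assoc, ← Real.rpow_add_one hr.ne']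
  congr 2
  ring

theorem fderiv2_nrp (hx : x ≠ 0) (p : ℝ) (Y Z : E n) :
    fderiv ℝ (fderiv ℝ fun y : E n => ‖y‖ ^ p) x Y Z
      = p * ‖x‖ ^ (p - 2) * ⟪Y, Z⟫ + p * (p - 2) * ‖x‖ ^ (p - 2 - 2) * (⟪x, Y⟫ * ⟪x, Z⟫) := by
  have e : (fderiv ℝ fun y : E n => ‖y‖ ^ p) =ᶠ[𝓝 x]
      fun y => (p * ‖y‖ ^ (p - 2)) • innerSL ℝ y := by
    filter_upwards [eventually_ne_nhds hx] with y hy using (hasFDerivAt_nrp hy p).fderiv
  have h := ((hasFDerivAt_nrp hx (p - 2)).const_mul p).fun_smul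
    (innerSL ℝ : E n →L[ℝ] E n →L[ℝ] ℝ).hasFDerivAt
  have e2 : ∀ A B : E n, (innerSL ℝ : E n →L[ℝ] E n →L[ℝ] ℝ) A B = ⟪A, B⟫ := fun _ _ => rfl
  rw [e.fderiv_eq, h.fderiv]
  simp [e2]
  ring

theorem lap_nrp (hx : x ≠ 0) (p : ℝ) :
    lap (fun y : E n => ‖y‖ ^ p) x = p * (n + p - 2) * ‖x‖ ^ (p - 2) := by
  have hr : 0 < ‖x‖ := norm_pos_iff.2 hx
  have h2 : ContDiffAt ℝ 2 (fun y : E n => ‖y‖ ^ p) x :=
    (contDiffAt_nrp hx p).of_le (by norm_cast)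
  have e : ‖x‖ ^ (p - 2 - 2) * ‖x‖ ^ 2 = ‖x‖ ^ (p - 2) := by
    rw [← Real.rpow_natCast, ← Real.rpow_add hr]
    congr 1
    push_cast
    ring
  simp only [lap, ← fderiv_fderiv_ee h2, fderiv2_nrp hx, Finset.sum_add_distrib,
    ← Finset.mul_sum]
  simp only [EuclideanSpace.inner_single_right, conj_trivial, one_mul, mul_one,
    ← Bs.norm_sq_eq, PiLp.single_eq_same, Finset.sum_const, Finset.card_univ, Fintype.card_fin,
    nsmul_eq_mul]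
  rw [mul_assoc (p * (p - 2)), e]
  ring

theorem norm_eq_nrp : (fun y : E n => ‖y‖) = fun y => ‖y‖ ^ (1 : ℝ) := by simp

theorem norm_fderiv_norm (hx : x ≠ 0) : ‖fderiv ℝ (fun y : E n => ‖y‖) x‖ = 1 := by
  rw [norm_eq_nrp, norm_fderiv_nrp hx]
  simp

theorem abs_fderiv2_norm (hx : x ≠ 0) (Y : E n) :
    |fderiv ℝ (fderiv ℝ fun y : E n => ‖y‖) x Y Y| ≤ ‖x‖⁻¹ * ‖Y‖ ^ 2 := by
  have hr : 0 < ‖x‖ := norm_pos_iff.2 hx
  rw [norm_eq_nrp, fderiv2_nrp hx, real_inner_self_eq_norm_sq,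
    show (1 : ℝ) - 2 - 2 = -(3 : ℕ) by norm_num, show (1 : ℝ) - 2 = -1 by norm_num,
    Real.rpow_neg_one, Real.rpow_neg hr.le, Real.rpow_natCast]
  have h1 : ⟪x, Y⟫ * ⟪x, Y⟫ ≤ ‖x‖ ^ 2 * ‖Y‖ ^ 2 := by
    have := abs_real_inner_le_norm x Y
    rw [← abs_mul_abs_self, ← mul_pow, pow_two]
    exact mul_le_mul this this (abs_nonneg _) (by positivity)
  have h2 : (‖x‖ ^ 3)⁻¹ * (⟪x, Y⟫ * ⟪x, Y⟫) ≤ ‖x‖⁻¹ * ‖Y‖ ^ 2 :=
    (mul_le_mul_of_nonneg_left h1 (by positivity)).trans_eq (by field_simp)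
  have h3 : 0 ≤ (‖x‖ ^ 3)⁻¹ * (⟪x, Y⟫ * ⟪x, Y⟫) :=
    mul_nonneg (by positivity) (mul_self_nonneg _)
  rw [abs_le]
  constructor <;> linarith

/-! ### the flat metric -/

theorem bil_one (Y Z : E n) : bil (1 : Matrix (Fin n) (Fin n) ℝ) Y Z = ⟪Y, Z⟫ := by
  rw [bil_eq_mat, mat_one]
  simp [PiLp.inner_apply, mul_comm]

theorem gam_one_self (u : E n → ℝ) (x : E n) :
    gam (fun _ => (1 : Matrix (Fin n) (Fin n) ℝ)) u u x = ‖fderiv ℝ u x‖ ^ 2 := by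
  rw [← Bs.sum_pd_sq]
  simp [gam, inverseField, Matrix.one_apply]

theorem abs_gam_one (u v : E n → ℝ) (x : E n) :
    |gam (fun _ => (1 : Matrix (Fin n) (Fin n) ℝ)) u v x|
      ≤ ‖fderiv ℝ u x‖ * ‖fderiv ℝ v x‖ := by
  refine abs_le_of_sq_le_sq' ?_ (by positivity) |> abs_le.2
  rw [mul_pow, ← gam_one_self, ← gam_one_self]
  exact gam_sq_le (riem_const Matrix.PosDef.one) (mem_univ x) u v

end Rad

open Rad in
theorem far : FarStmt := by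
  intro n hn m A Q g K EE ψ s R0 C c0 e0 θ0 r1 hG
  have hn3 : (3 : ℝ) ≤ n := by exact_mod_cast hn
  have hC := hG.C_ge
  have hC0 : 0 < C := by linarith
  have hconf : Conf (fun _ => (1 : Matrix (Fin n) (Fin n) ℝ)) g ψ {x : E n | R0 < ‖x‖} :=
    ⟨⟨isOpen_lt continuous_const continuous_norm, fun _ _ => contDiffOn_const,
      fun _ _ => Matrix.PosDef.one⟩, hG.ψ_smooth.contDiffOn, fun y hy => hG.g_far y (le_of_lt hy)⟩
  obtain ⟨q, hq⟩ : ∃ q, q = Real.exp (2 * C) := ⟨_, rfl⟩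
  have hq1 : 1 ≤ q := hq ▸ Real.one_le_exp (by linarith)
  obtain ⟨N, hN⟩ : ∃ N : ℝ, N = n * n * (C * C) := ⟨_, rfl⟩
  have hCC : C ≤ C * C := by nlinarith
  have hN1 : n * (C * C) ≤ N := by rw [hN]; gcongr; nlinarith
  have hN2 : C * C ≤ N := le_trans (by nlinarith) hN1
  have hψ2 : ∀ x, ContDiffAt ℝ 2 ψ x := fun x => (hG.ψ_smooth.of_le (by norm_cast)).contDiffAt
  -- pointwise facts
  have H : ∀ x : E n, R0 + 8 * C ≤ ‖x‖ → x ∈ {x : E n | R0 < ‖x‖} ∧ x ≠ 0 ∧ 1 ≤ ‖x‖ ∧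
      Real.exp (-(2 * ψ x)) ≤ q ∧ q⁻¹ ≤ Real.exp (-(2 * ψ x)) ∧
      ‖fderiv ℝ ψ x‖ ≤ C * ‖x‖ ^ (1 - (n : ℝ)) ∧
      ‖fderiv ℝ (fderiv ℝ ψ) x‖ ≤ C * ‖x‖ ^ (-(n : ℝ)) ∧
      |lap ψ x| ≤ C * ‖x‖ ^ (-(n : ℝ) - e0) ∧
      ‖fderiv ℝ ψ x‖ ^ 2 ≤ C * C * ‖x‖ ^ (-(n : ℝ) - e0) ∧
      ‖x‖ ^ (-(n : ℝ) - e0) ≤ ‖x‖ ^ (-(n : ℝ)) ∧
      ∀ Y, ‖Y‖ ^ 2 ≤ q * bil (g x) Y Y := by
    intro x hx
    have h1 : 1 ≤ ‖x‖ := by linarith [hG.R0_ge]
    have hr : 0 < ‖x‖ := by linarith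
    have hU : x ∈ {x : E n | R0 < ‖x‖} := by
      show R0 < ‖x‖
      linarith
    have dec : ∀ p : ℝ, p ≤ 0 → (1 + ‖x‖) ^ p ≤ ‖x‖ ^ p := fun p hp =>
      Real.rpow_le_rpow_of_nonpos hr (by linarith) hp
    have a0 : |ψ x| ≤ C := by
      have := hG.ψ_decay 0 (by norm_num) x
      rw [norm_iteratedFDeriv_zero] at this
      exact this.trans (mul_le_of_le_one_right hC0.le
        (Real.rpow_le_one_of_one_le_of_nonpos (by linarith) (by push_cast; linarith)))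
    have a1 : ‖fderiv ℝ ψ x‖ ≤ C * ‖x‖ ^ (1 - (n : ℝ)) := by
      have := hG.ψ_decay 1 (by norm_num) x
      rw [norm_iteratedFDeriv_one, show 2 - (n : ℝ) - (1 : ℕ) = 1 - n by push_cast; ring] at this
      exact this.trans (mul_le_mul_of_nonneg_left (dec _ (by linarith)) hC0.le)
    have a2 : ‖fderiv ℝ (fderiv ℝ ψ) x‖ ≤ C * ‖x‖ ^ (-(n : ℝ)) := by
      have := hG.ψ_decay 2 le_rfl x
      rw [← norm_iteratedFDeriv_fderiv, norm_iteratedFDeriv_one,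
        show 2 - (n : ℝ) - (2 : ℕ) = -n by push_cast; ring] at this
      exact this.trans (mul_le_mul_of_nonneg_left (dec _ (by linarith)) hC0.le)
    have a3 : Real.exp (-(2 * ψ x)) ≤ q := hq ▸ Real.exp_le_exp.2 (by linarith [(abs_le.1 a0).1])
    refine ⟨hU, norm_pos_iff.1 hr, h1, a3, ?_, a1, a2, (hG.ψ_lap x).trans
      (mul_le_mul_of_nonneg_left (dec _ (by linarith [hG.e0_pos])) hC0.le), ?_,
      Real.rpow_le_rpow_of_exponent_le h1 (by linarith [hG.e0_pos]), fun Y => ?_⟩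
    · rw [hq, ← Real.exp_neg]
      exact Real.exp_le_exp.2 (by linarith [(abs_le.1 a0).2])
    · refine (pow_le_pow_left₀ (norm_nonneg _) a1 2).trans ?_
      rw [mul_pow, pow_two, pow_two, ← Real.rpow_add hr]
      exact mul_le_mul_of_nonneg_left
        (Real.rpow_le_rpow_of_exponent_le h1 (by linarith [hG.e0_lt])) (by positivity)
    · rw [hconf.bil_eq hU, bil_one, real_inner_self_eq_norm_sq, ← mul_assoc]
      refine le_mul_of_one_le_left (sq_nonneg _) ?_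
      have := mul_le_mul_of_nonneg_right a3 (Real.exp_pos (2 * ψ x)).le
      rwa [← Real.exp_add, neg_add_cancel, Real.exp_zero] at this
  have hN0 : 1 ≤ N := by nlinarith
  refine ⟨q * (11 * N), R0 + 8 * C, by positivity, fun x hx => ?_, fun x Y hx => ?_,
    fun x hx => ?_, fun x Y hx => ?_, fun x hx => ?_⟩
  · obtain ⟨hU, -, h1, a3, -, -, -, a7, a8, -, -⟩ := H x hx
    rw [hconf.scalar_eq hU, scalarCurv_const, lap_one (hψ2 x), gam_one_self, abs_mul,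
      abs_of_pos (Real.exp_pos _), mul_assoc q]
    refine mul_le_mul a3 ?_ (abs_nonneg _) (by linarith)
    have hw : 0 ≤ ‖x‖ ^ (-(n : ℝ) - e0) := Real.rpow_nonneg (norm_nonneg _) _
    generalize ‖x‖ ^ (-(n : ℝ) - e0) = w at *
    have b1 : |2 * (n - 1 : ℝ) * lap ψ x| ≤ 2 * N * w := by
      rw [abs_mul, abs_of_nonneg (by linarith)]
      calc _ ≤ 2 * n * (C * C * w) := by gcongr; linarith; exact a7.trans (by gcongr)
        _ = 2 * (n * (C * C)) * w := by ring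
        _ ≤ _ := by gcongr
    have b2 : (n - 1 : ℝ) * (n - 2) * ‖fderiv ℝ ψ x‖ ^ 2 ≤ N * w := by
      calc _ ≤ n * n * (C * C * w) := by gcongr <;> linarith
        _ = _ := by rw [hN]; ring
    have b3 : 0 ≤ (n - 1 : ℝ) * (n - 2) * ‖fderiv ℝ ψ x‖ ^ 2 :=
      mul_nonneg (mul_nonneg (by linarith) (by linarith)) (sq_nonneg _)
    have b4 : 0 ≤ N * w := by positivity
    rw [abs_le] at b1 ⊢
    constructor <;> linarith [b1.1, b1.2]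
  · obtain ⟨hU, -, h1, -, -, -, a6, a7, a8, a9, a10⟩ := H x hx
    rw [hconf.ric_eq hU, bil_ricM_const, lap_one (hψ2 x), gam_one_self, hess_const, bil_one,
      real_inner_self_eq_norm_sq]
    have hw : 0 ≤ ‖x‖ ^ (-(n : ℝ)) := Real.rpow_nonneg (norm_nonneg _) _
    have a7' : |lap ψ x| ≤ N * ‖x‖ ^ (-(n : ℝ)) := a7.trans (by gcongr; linarith)
    have a8' : ‖fderiv ℝ ψ x‖ ^ 2 ≤ C * C * ‖x‖ ^ (-(n : ℝ)) := a8.trans (by gcongr)
    generalize ‖x‖ ^ (-(n : ℝ)) = w at *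
    have c1 : |fderiv ℝ (fderiv ℝ ψ) x Y Y| ≤ C * C * w * ‖Y‖ ^ 2 := by
      calc _ ≤ ‖fderiv ℝ (fderiv ℝ ψ) x‖ * ‖Y‖ * ‖Y‖ := (fderiv ℝ (fderiv ℝ ψ) x).le_opNorm₂ Y Y
        _ ≤ C * C * w * ‖Y‖ * ‖Y‖ := by gcongr; exact a6.trans (by gcongr)
        _ = _ := by ring
    have c2 : |fderiv ℝ ψ x Y * fderiv ℝ ψ x Y| ≤ C * C * w * ‖Y‖ ^ 2 := by
      have := (fderiv ℝ ψ x).le_opNorm Y
      calc _ = ‖fderiv ℝ ψ x Y‖ ^ 2 := by rw [abs_mul, pow_two]; rfl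
        _ ≤ (‖fderiv ℝ ψ x‖ * ‖Y‖) ^ 2 := by gcongr
        _ ≤ _ := by rw [mul_pow]; gcongr
    have c3 : |(n - 2 : ℝ) * (fderiv ℝ (fderiv ℝ ψ) x Y Y - fderiv ℝ ψ x Y * fderiv ℝ ψ x Y)|
        ≤ 2 * (N * w * ‖Y‖ ^ 2) := by
      rw [abs_mul, abs_of_nonneg (by linarith)]
      calc _ ≤ n * (2 * (C * C * w * ‖Y‖ ^ 2)) := by
            gcongr
            · linarith
            · exact (abs_sub _ _).trans (by linarith)
        _ = 2 * (n * (C * C) * w * ‖Y‖ ^ 2) := by ring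
        _ ≤ _ := by gcongr
    have c4 : |(lap ψ x + (n - 2 : ℝ) * ‖fderiv ℝ ψ x‖ ^ 2) * ‖Y‖ ^ 2|
        ≤ 2 * (N * w) * ‖Y‖ ^ 2 := by
      rw [abs_mul, abs_of_nonneg (sq_nonneg ‖Y‖)]
      refine mul_le_mul_of_nonneg_right ((abs_add_le _ _).trans ?_) (sq_nonneg _)
      have : (n - 2 : ℝ) * ‖fderiv ℝ ψ x‖ ^ 2 ≤ N * w := by
        calc _ ≤ n * (C * C * w) := by gcongr; linarith
          _ = n * (C * C) * w := by ring
          _ ≤ _ := by gcongr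
      rw [abs_of_nonneg (a := (n - 2 : ℝ) * _) (mul_nonneg (by linarith) (sq_nonneg _))]
      linarith
    have c5 : 0 ≤ N * w * ‖Y‖ ^ 2 := by positivity
    calc _ ≤ 11 * N * w * ‖Y‖ ^ 2 := by
          rw [abs_le] at c3 c4 ⊢
          constructor <;> linarith [c3.1, c3.2, c4.1, c4.2]
      _ ≤ 11 * N * w * (q * bil (g x) Y Y) := by gcongr; exact a10 Y
      _ = _ := by ring
  · obtain ⟨hU, hx0, -, a3, -⟩ := H x hx
    rw [hconf.gam_eq hU, gam_one_self, norm_fderiv_norm hx0]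
    nlinarith
  · obtain ⟨hU, hx0, h1, -, -, a5, -, -, -, -, a10⟩ := H x hx
    rw [hconf.hess_eq hU, hess_const, bil_one, real_inner_self_eq_norm_sq]
    have a5' : ‖fderiv ℝ ψ x‖ ≤ N * ‖x‖⁻¹ := a5.trans (by
      rw [← Real.rpow_neg_one]
      gcongr
      · linarith
      · linarith)
    have hw : 0 < ‖x‖⁻¹ := by positivity
    have d1 := abs_fderiv2_norm hx0 Y
    have d2 : |fderiv ℝ ψ x Y * fderiv ℝ (fun y : E n => ‖y‖) x Y| ≤ N * ‖x‖⁻¹ * ‖Y‖ ^ 2 := by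
      have e1 := (fderiv ℝ ψ x).le_opNorm Y
      have e2 := (fderiv ℝ (fun y : E n => ‖y‖) x).le_opNorm Y
      rw [norm_fderiv_norm hx0, one_mul] at e2
      calc _ = ‖fderiv ℝ ψ x Y‖ * ‖fderiv ℝ (fun y : E n => ‖y‖) x Y‖ := abs_mul _ _
        _ ≤ N * ‖x‖⁻¹ * ‖Y‖ * ‖Y‖ := by gcongr; exact e1.trans (by gcongr)
        _ = _ := by ring
    have d3 : |‖Y‖ ^ 2 * gam (fun _ => (1 : Matrix (Fin n) (Fin n) ℝ)) (fun y => ‖y‖) ψ x|
        ≤ N * ‖x‖⁻¹ * ‖Y‖ ^ 2 := by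
      have := abs_gam_one (fun y : E n => ‖y‖) ψ x
      rw [norm_fderiv_norm hx0, one_mul] at this
      rw [abs_mul, abs_of_nonneg (sq_nonneg ‖Y‖), mul_comm]
      gcongr
      exact this.trans a5'
    have d4 : ‖x‖⁻¹ * ‖Y‖ ^ 2 ≤ N * ‖x‖⁻¹ * ‖Y‖ ^ 2 := by
      gcongr
      exact le_mul_of_one_le_left hw.le hN0
    have d5 : 0 ≤ N * ‖x‖⁻¹ * ‖Y‖ ^ 2 := by positivity
    calc _ ≤ 11 * N * ‖x‖⁻¹ * ‖Y‖ ^ 2 := by
          rw [abs_le] at d1 d2 d3 ⊢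
          constructor <;> linarith [d1.1, d1.2, d2.1, d2.2, d3.1, d3.2]
      _ ≤ 11 * N * ‖x‖⁻¹ * (q * bil (g x) Y Y) := by gcongr; exact a10 Y
      _ = _ := by ring
  · obtain ⟨hU, hx0, h1, -, a4, a5, -⟩ := H x hx
    have hr : 0 < ‖x‖ := by linarith
    have h2 : ContDiffAt ℝ 2 (fun y : E n => ‖y‖ ^ (-a0 n)) x :=
      (contDiffAt_nrp hx0 _).of_le (by norm_cast)
    rw [hconf.lap_eq hU h2, lap_one h2, lap_nrp hx0]
    have ha : 3 / 4 ≤ a0 n := by unfold a0; linarith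
    have e1 := abs_gam_one ψ (fun y : E n => ‖y‖ ^ (-a0 n)) x
    rw [norm_fderiv_nrp hx0, abs_neg, abs_of_pos (a := a0 n) (by linarith)] at e1
    have hw : 0 < ‖x‖ ^ (-a0 n - 2) := Real.rpow_pos_of_pos hr _
    have e2 : ‖x‖ ^ (-a0 n - 1) = ‖x‖ ^ (-a0 n - 2) * ‖x‖ := by
      rw [← Real.rpow_add_one hr.ne']; congr 1; ring
    have e3 : ‖fderiv ℝ ψ x‖ * ‖x‖ ≤ 1 / 8 := by
      have : ‖x‖ ^ (1 - (n : ℝ)) ≤ (‖x‖ ^ 2)⁻¹ := by
        rw [← Real.rpow_natCast, ← Real.rpow_neg hr.le]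
        exact Real.rpow_le_rpow_of_exponent_le h1 (by push_cast; linarith)
      calc _ ≤ C * (‖x‖ ^ 2)⁻¹ * ‖x‖ := by gcongr; exact a5.trans (by gcongr)
        _ = C / ‖x‖ := by field_simp
        _ ≤ _ := by rw [div_le_iff₀ hr]; linarith [hG.R0_ge]
    rw [e2] at e1
    generalize ‖x‖ ^ (-a0 n - 2) = w at *
    generalize gam (fun _ => (1 : Matrix (Fin n) (Fin n) ℝ)) ψ (fun y : E n => ‖y‖ ^ (-a0 n)) x
      = G at *
    have e4 : G ≤ a0 n * w * (1 / 8) := by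
      calc G ≤ _ := (le_abs_self _).trans e1
        _ = a0 n * w * (‖fderiv ℝ ψ x‖ * ‖x‖) := by ring
        _ ≤ _ := by gcongr
    have e5 : -a0 n * (n + -a0 n - 2) * w + (n - 2) * G ≤ -((11 * N)⁻¹ * w) := by
      have f1 : (n - 2 : ℝ) * G ≤ (n - 2) * (a0 n * w * (1 / 8)) := by gcongr; linarith
      have f2 : (n + -a0 n - 2 : ℝ) = (n - 2) / 4 := by unfold a0; ring
      have f3 : (11 * N)⁻¹ ≤ 3 / 32 := by
        rw [inv_le_comm₀ (by positivity) (by norm_num)]; linarith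
      have f4 : 3 / 4 * 1 ≤ a0 n * (n - 2) := by gcongr; linarith
      rw [f2]
      nlinarith
    calc _ ≤ Real.exp (-(2 * ψ x)) * -((11 * N)⁻¹ * w) := by gcongr
      _ ≤ q⁻¹ * -((11 * N)⁻¹ * w) :=
        mul_le_mul_of_nonpos_right a4 (neg_nonpos.2 (by positivity))
      _ = _ := by rw [mul_inv q]; ring

end Crest.Agent.N346.Bd

end
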