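import Crest.Agent.N346.Bd.Defs
import Crest.Agent.R238.MaxPOY

/-!
Row 346, Bd-Geo (helper16): every setup has a quantitative geometry.
-/

set_option autoImplicit false

open MeasureTheory Filter Set
open scoped ContDiff Topology
open Crest.GeometryTopology.CoordMetric Crest.MathPhysics.ExteriorData
open Crest.Agent.R202.Tens Crest.Agent.R247.Bo84 Crest.Agent.N346.Id Crest.Agent.N346.P1

noncomputable section

namespace Crest.Agent.N346.Bd.Geox

variable {n : ℕ} {P P' R R' e0 : ℝ} {g K : MetricField n} {EE : VectorField n}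
  {u a1 a2 : E n → ℝ}

theorem b2_mono (hg : IsRiemannianOn g univ) (h : B2 P g u) (hP : P ≤ P') : B2 P' g u :=
  ⟨h.smooth, fun x => (h.d_le x).trans hP, fun x Y => (h.h_le x Y).trans
    (mul_le_mul_of_nonneg_right hP (bil_self_nonneg hg (mem_univ x) Y))⟩

theorem bg_mono (h : BG P g K EE a1 a2) (hP : P ≤ P') : BG P' g K EE a1 a2 := by
  have hn := fun x Y => bil_self_nonneg h.riem (mem_univ x) Y
  have h0 : 0 < P := by linarith [h.P_ge]
  exact ⟨h.P_ge.trans hP, h.riem, h.symK, h.a1_mem, h.a2_mem, b2_mono h.riem h.a1_b2 hP,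
    b2_mono h.riem h.a12_b2 hP, fun x => (h.E_le x).trans hP,
    fun x Y => (h.g_lo x Y).trans (mul_le_mul_of_nonneg_right hP (hn x Y)),
    fun x Y => (h.g_hi x Y).trans (mul_le_mul_of_nonneg_right hP (sq_nonneg _)),
    fun x => (inv_anti₀ h0 hP).trans (h.vol_lo x), fun x => (h.vol_hi x).trans hP,
    fun x => (h.R_le x).trans hP,
    fun x Y => (h.Ric_le x Y).trans (mul_le_mul_of_nonneg_right hP (hn x Y)),
    fun x Y Z => (h.K_le x Y Z).trans (mul_le_mul_of_nonneg_right (pow_le_pow_left₀ h0.le hP 2)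
      (mul_nonneg (hn x Y) (hn x Z))),
    fun x => (h.trK_le x).trans hP, fun x W hW => (h.dtrK_le x W hW).trans hP,
    fun x W hW => (h.cK_le x W hW).trans hP, fun x => (h.mu_le x).trans hP,
    fun x W hW => (h.J_le x W hW).trans hP⟩

theorem far_mono (hg : IsRiemannianOn g univ) (h : Far P R e0 g) (h0 : 0 < P) (hP : P ≤ P')
    (hR : R ≤ R') : Far P' R' e0 g := by
  have hn := fun x Y => bil_self_nonneg hg (mem_univ x) Y
  refine ⟨fun x hx => (h.R_far x (hR.trans hx)).trans (by gcongr),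
    fun x Y hx => (h.Ric_far x Y (hR.trans hx)).trans ?_,
    fun x hx => (h.d_r x (hR.trans hx)).trans hP,
    fun x Y hx => (h.h_r x Y (hR.trans hx)).trans ?_,
    fun x hx => (h.lap_r x (hR.trans hx)).trans (neg_le_neg ?_)⟩
  · exact mul_le_mul_of_nonneg_right (by gcongr) (hn x Y)
  · exact mul_le_mul_of_nonneg_right (by gcongr) (hn x Y)
  · exact mul_le_mul_of_nonneg_right (inv_anti₀ h0 hP) (by positivity)

/-- the proper function `log (1 + |x|²)`. -/
def lg (x : E n) : ℝ := Real.log (1 + ‖x‖ ^ 2)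

theorem lg_smooth : ContDiff ℝ ∞ (lg (n := n)) :=
  (contDiff_const.add (contDiff_norm_sq ℝ)).log fun x => by positivity

theorem lg_d1 {t : ℝ} (ht : 0 ≤ t) : HasDerivAt (fun t => Real.log (1 + t)) (1 + t)⁻¹ t := by
  simpa using ((hasDerivAt_id t).const_add 1).log (by simp only [id]; positivity)

theorem lg_d2 {t : ℝ} (ht : 0 ≤ t) :
    HasDerivAt (fun t : ℝ => (1 + t)⁻¹) (-((1 + t) ^ 2)⁻¹) t := by
  simpa [neg_div] using ((hasDerivAt_id t).const_add 1).fun_inv (by simp only [id]; positivity)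

theorem lg_D1 (x : E n) : ‖fderiv ℝ lg x‖ ≤ 6 := by
  have := congrFun (R238.MaxP.fderiv_radial (E := E n) fun t ht => lg_d1 ht) x
  refine (congrArg norm this).trans_le ?_
  rw [norm_smul, innerSL_apply_norm, Real.norm_eq_abs, abs_of_nonneg (by positivity), mul_assoc,
    ← div_eq_inv_mul, ← mul_div_assoc, div_le_iff₀ (by positivity)]
  nlinarith [sq_nonneg (‖x‖ - 1)]

theorem lg_D2 (x : E n) : ‖fderiv ℝ (fderiv ℝ lg) x‖ ≤ 6 := by
  refine ContinuousLinearMap.opNorm_le_bound₂ _ (by norm_num) fun a b => ?_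
  have := R238.MaxP.fderiv_fderiv_radial (E := E n) (fun t ht => lg_d1 ht) (fun t ht => lg_d2 ht)
    x a b
  refine (congrArg norm this).trans_le ?_
  have h1 := abs_real_inner_le_norm x a
  have h2 := abs_real_inner_le_norm x b
  have h3 := abs_real_inner_le_norm a b
  have h4 : ((1 + ‖x‖ ^ 2) ^ 2)⁻¹ * ‖x‖ ^ 2 ≤ 1 := by
    rw [← div_eq_inv_mul, div_le_one (by positivity)]
    nlinarith [sq_nonneg ‖x‖, sq_nonneg (‖x‖ ^ 2)]
  have h5 : (1 + ‖x‖ ^ 2)⁻¹ ≤ 1 := inv_le_one_of_one_le₀ (by nlinarith [sq_nonneg ‖x‖])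
  rw [Real.norm_eq_abs]
  refine (abs_add_le _ _).trans ?_
  simp only [abs_mul, abs_neg, abs_inv, abs_of_nonneg (show (0 : ℝ) ≤ (1 + ‖x‖ ^ 2) ^ 2 by positivity),
    abs_of_nonneg (show (0 : ℝ) ≤ 1 + ‖x‖ ^ 2 by positivity), abs_two,
    abs_of_nonneg (show (0 : ℝ) ≤ 4 by norm_num)]
  calc _ ≤ 4 * ((1 + ‖x‖ ^ 2) ^ 2)⁻¹ * (‖x‖ * ‖a‖) * (‖x‖ * ‖b‖) + 2 * 1 * (‖a‖ * ‖b‖) := by gcongr
    _ = (4 * (((1 + ‖x‖ ^ 2) ^ 2)⁻¹ * ‖x‖ ^ 2) + 2) * ‖a‖ * ‖b‖ := by ring
    _ ≤ _ := by gcongr; linarith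

theorem lg_top : Tendsto (lg (n := n)) (cocompact (E n)) atTop :=
  Real.tendsto_log_atTop.comp (tendsto_atTop_add_const_left _ _
    ((tendsto_pow_atTop two_ne_zero).comp (tendsto_norm_cocompact_atTop (E := E n))))

theorem w_hi {r a b : ℝ} (hr : 0 ≤ r) (ha : 0 ≤ a) (hab : a ≤ b) :
    (1 + r ^ 2) ^ (-b / 2) ≤ 2 ^ (a / 2) * (1 + r) ^ (-a) := by
  have h1 : (1 + r ^ 2) ^ (-b / 2) ≤ (1 + r ^ 2) ^ (-a / 2) :=
    Real.rpow_le_rpow_of_exponent_le (by nlinarith) (by linarith)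
  have h2 : (1 + r ^ 2) ^ (-a / 2) ≤ ((1 + r) ^ 2 / 2) ^ (-a / 2) :=
    Real.rpow_le_rpow_of_nonpos (by positivity) (by nlinarith [sq_nonneg (r - 1)]) (by linarith)
  refine h1.trans (h2.trans (le_of_eq ?_))
  rw [Real.div_rpow (by positivity) (by norm_num), ← Real.rpow_natCast,
    ← Real.rpow_mul (by positivity), neg_div, Real.rpow_neg (by norm_num : (0 : ℝ) ≤ 2),
    div_inv_eq_mul, mul_comm]
  congr 2
  push_cast
  ring

theorem w_lo {r a b : ℝ} (hr : 0 ≤ r) (hb : 0 ≤ b) (hab : b ≤ a) :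
    (1 + r) ^ (-a) ≤ (1 + r ^ 2) ^ (-b / 2) := by
  have h1 : (1 + r ^ 2) ^ (-a / 2) ≤ (1 + r ^ 2) ^ (-b / 2) :=
    Real.rpow_le_rpow_of_exponent_le (by nlinarith) (by linarith)
  have h2 : ((1 + r) ^ 2) ^ (-a / 2) ≤ (1 + r ^ 2) ^ (-a / 2) :=
    Real.rpow_le_rpow_of_nonpos (by positivity) (by nlinarith) (by linarith)
  refine le_trans (le_of_eq ?_) (h2.trans h1)
  rw [← Real.rpow_natCast, ← Real.rpow_mul (by positivity)]
  congr 1
  push_cast
  ring

end Crest.Agent.N346.Bd.Geox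

namespace Crest.Agent.N346.Bd
open Geox

theorem geo : GeoStmt := by
  intro hU hB hF n hn S hS
  obtain ⟨lam, B, hU⟩ := hU n hn S hS
  obtain ⟨P1, h1⟩ := hB n lam 6 B
  obtain ⟨h1, h2⟩ := h1 _ (hU 1 le_rfl) 1 ⟨zero_le_one, le_rfl⟩
  have eg : (S.coef fun x => 1 - eta 1 x).gt 1 = S.g := by
    funext x; simp [Coef.gt, Setup.coef]
  have eK : (S.coef fun x => 1 - eta 1 x).Kt 1 = S.K := by
    funext x; simp [Coef.Kt, Setup.coef]
  rw [eg, eK] at h1
  have h2 := h2 lg lg_smooth lg_D1 lg_D2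
  rw [eg] at h2
  obtain ⟨P2, R, hP2, h3⟩ := hF n hn _ _ _ _ _ _ _ _ _ _ _ _ _ _ hS.good
  have hC : 0 ≤ S.C0 := by
    have h := hS.C0_big 0 0 (by simp [quadForm])
    have h3 : (3 : ℝ) ≤ n := by exact_mod_cast hn
    have : 0 ≤ S.cw 0 := le_trans (by have : (0 : ℝ) ≤ n - 1 := by linarith
                                      positivity) h
    simpa [Setup.cw] using this
  have hc := hS.c1_pos
  have he := hS.good.e0_pos
  have he' := hS.good.e0_lt
  obtain ⟨P, p1, p2, p3, p4, p5, p6, p7⟩ := ((eventually_ge_atTop P1).and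
    ((eventually_ge_atTop P2).and ((eventually_ge_atTop S.θ⁻¹).and
    ((eventually_ge_atTop S.t0⁻¹).and ((eventually_ge_atTop (S.C0 * 2 ^ ((n : ℝ) / 2))).and
    ((eventually_ge_atTop S.c1⁻¹).and
    (eventually_ge_atTop (S.c1 * 2 ^ ((n : ℝ) / 2))))))))).exists
  have hn0 : (0 : ℝ) ≤ n := by positivity
  refine ⟨P, P1, max R (2 * S.R0), lg, bg_mono h1 p1,
    far_mono h1.riem h3 hP2 p2 (le_max_left _ _), le_max_right _ _, p1, h1.trK_le, p3, p4,
    b2_mono h1.riem h2 p1, fun x => Real.log_nonneg (by nlinarith [sq_nonneg ‖x‖]), lg_top,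
    fun x => mul_nonneg hC (by positivity), fun x => ?_, fun x => ?_, fun x => ?_⟩
  · refine (mul_le_mul_of_nonneg_left (w_hi (norm_nonneg x) hn0 le_rfl) hC).trans ?_
    rw [← mul_assoc]
    exact mul_le_mul_of_nonneg_right p5 (by positivity)
  · exact mul_le_mul (inv_le_of_inv_le₀ hc p6) (w_lo (norm_nonneg x) (by linarith) (by linarith))
      (by positivity) hc.le
  · refine (mul_le_mul_of_nonneg_left (w_hi (norm_nonneg x) hn0 (by linarith)) hc.le).trans ?_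
    rw [← mul_assoc]
    exact mul_le_mul_of_nonneg_right p7 (by positivity)

end Crest.Agent.N346.Bd

end
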