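import Crest.Agent.N346.Bd.Basic

/-!
Row 346, Bd-S1, Bd-S2: the minimum principle for `z` and the inner barrier for `f`.
-/

set_option autoImplicit false

open MeasureTheory Filter Set
open scoped ContDiff Topology
open Crest.GeometryTopology.CoordMetric Crest.MathPhysics.ExteriorData
open Crest.Agent.R202.Tens Crest.Agent.R247.Bo84 Crest.Agent.N346.Id Crest.Agent.N346.P1

noncomputable section

namespace Crest.Agent.N346.Bd

theorem s1 : S1Stmt := by
  intro n hn S hS P T0 R bp hG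
  refine ⟨1, one_pos, fun e he _ M z3 an f z h x0 => ?_⟩
  by_contra hx0
  have hn3 : (3 : ℝ) ≤ n := by exact_mod_cast hn
  have hθ := Setup.OK.θ_pos hS
  have hP : 0 < P := by linarith [hG.P_ge]
  obtain ⟨B0, hB0, hB⟩ := h.exists_bound
  obtain ⟨R', hR'⟩ := h.anch S.θ hθ
  have hzc := h.z_smooth.continuous
  obtain ⟨m, hm, H⟩ := glob_max (F := fun x => -S.θ - z x) (continuous_const.sub hzc)
    ⟨B0, fun x => by linarith [(abs_le.1 (hB x).2.1).1]⟩ hG.bp_b2.smooth.continuous hG.bp_nonneg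
    hG.bp_top (x0 := x0) (by linarith [not_le.1 hx0])
  obtain ⟨C1, hC1⟩ : ∃ C1, C1 = n * P + (e ^ 3 * B0 + 2 * P) * P := ⟨_, rfl⟩
  have hC0 : 0 < C1 := by rw [hC1]; positivity
  obtain ⟨μ, hμ⟩ : ∃ μ, μ = P⁻¹ * (1 + |R'|) ^ (-(2 * n : ℝ)) := ⟨_, rfl⟩
  have hμ0 : 0 < μ := by rw [hμ]; positivity
  obtain ⟨ε, hε, hε0, x, hmax, hx⟩ := H (min μ (S.θ / 2) / (2 * C1))
    (div_pos (lt_min hμ0 (by linarith)) (by linarith))
  have hεC : 2 * (ε * C1) ≤ min μ (S.θ / 2) := by
    rw [le_div_iff₀ (by linarith)] at hε0; linarith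
  have hzx : z x < -S.θ := by linarith [mul_nonneg hε.le (hG.bp_nonneg x)]
  have hd := h.jd
  have hU := mem_univ x
  have hph : ph S e f z =ᶠ[𝓝 x] fun _ => e ^ 2 := ph_low hS hzc (by linarith)
  have hb2 : ContDiffAt ℝ 2 bp x := hG.bp_b2.smooth.contDiffAt.of_le (by norm_cast)
  have a1 : 0 ≤ laplaceBeltrami (gB S e f z) z x + ε * laplaceBeltrami (gB S e f z) bp x := by
    rw [← lap_const_mul hd.riemb hU ε hb2, ← lap_add hd.riemb hU (h.cz2 x)
      (contDiffAt_const.mul hb2)]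
    refine lap_nonneg_of_min hd.riemb hU ((h.cz2 x).add (contDiffAt_const.mul hb2)) ?_
    filter_upwards [hmax] with y hy using by linarith
  have hw : bil (S.g x) (wv S.g (ph S e f z) f x) (wv S.g (ph S e f z) f x) ≤ 1 := by
    rw [hd.bil_wv_wv hU]; exact (hd.pp_lt_one hU).le
  have a2 := H0_eq_Th hd hU S.K
  rw [h.J] at a2
  have a3 := hS.C0_big x (wv S.g (ph S e f z) f x) (by rw [bil_apply] at hw; exact hw)
  have a4 : |traceK S.g S.K x
      - bil (S.K x) (wv S.g (ph S e f z) f x) (wv S.g (ph S e f z) f x)| ≤ 2 * P :=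
    (abs_sub _ _).trans (by linarith [hG.trK_le x, hG.toBG.abs_Kww_le hw])
  have a5 : |e ^ 3 * f x| ≤ e ^ 3 * B0 := by
    rw [abs_mul, abs_of_pos (pow_pos he 3)]
    gcongr
    exact (hB x).1
  have a6 : |laplaceBeltrami (gB S e f z) bp x| ≤ C1 := by
    refine (abs_lap_gb_le hd hU (fderiv_of_const hph) hb2 hP.le hP.le (hG.bp_b2.h_le x)
      ((hG.bp_b2.d_le x).trans (by nlinarith [hG.P_ge]))).trans ?_
    rw [hC1, a2]
    gcongr
    exact (abs_add_le _ _).trans (add_le_add a5 a4)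
  have a7 := h.U x
  have a8 := id_G_const hd hU hph
  have a9 := H0_sq_le hd hU
  have b1 := mul_nonneg ((by norm_num : (0 : ℝ) ≤ 1 / 2).trans (al_ge hn))
    (gam_self_nonneg hd.riemb hU z)
  have b2 := mul_nonneg (pow_pos he 3).le (hd.pp_nonneg hU)
  have b3 := eSq_nonneg hd.riemb hU (S.coef 0).EE
  have b4 := h.vt_nonpos (x := x) (by linarith)
  rw [rhs, sz_one (P := S.par e 0 0) hθ hzx.le] at a7
  rw [a2] at a8 a9
  generalize traceK S.g S.K x
    - bil (S.K x) (wv S.g (ph S e f z) f x) (wv S.g (ph S e f z) f x) = k at *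
  generalize e ^ 3 * f x = t at *
  generalize normSqK (gb S.g (ph S e f z) f) (hh S.g (ph S e f z) f) x = N at *
  have b5 : (t + k) ^ 2 - N - t ^ 2 ≤ (n - 1) * k ^ 2 := by
    refine le_of_mul_le_mul_left ?_ (show (0 : ℝ) < n by linarith)
    nlinarith [sq_nonneg (t - (n - 1) * k)]
  have b6 : ε * laplaceBeltrami (gB S e f z) bp x ≤ ε * C1 :=
    mul_le_mul_of_nonneg_left ((le_abs_self _).trans a6) hε.le
  have b7 : 2 * S.mw x - an x * z x ≤ min μ (S.θ / 2) := by
    linarith [le_abs_self (scalarCurv S.g x), neg_abs_le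
      (bil (ricM S.g x) (wv S.g (ph S e f z) f x) (wv S.g (ph S e f z) f x))]
  rcases le_total R' ‖x‖ with hr | hr
  · rw [hR' x hr (by rw [abs_of_neg (by linarith)]; linarith)] at b7
    linarith [min_le_right μ (S.θ / 2), Setup.OK.mw_pos hS x]
  · have c1 : μ ≤ S.mw x := by
      refine le_trans ?_ (hG.mw_lo x)
      rw [hμ]
      refine mul_le_mul_of_nonneg_left (Real.rpow_le_rpow_of_nonpos (by positivity) ?_
        (by linarith)) (by positivity)
      linarith [le_abs_self R']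
    have c2 : an x * z x ≤ 0 := mul_nonpos_of_nonneg_of_nonpos (h.an_mem x).1 (by linarith)
    linarith [min_le_left μ (S.θ / 2)]

section S2

variable {n : ℕ} {S : Setup n} {e M z3 ρ : ℝ} {an f z : E n → ℝ} {x : E n}

/-- touching from above by the inner barrier -/
theorem touch (hS : S.OK) (he : 0 < e) (he1 : e ≤ 1) (h : Sl S e M z3 an f z)
    (hρ : ρ ∈ Icc (3 / 16 : ℝ) S.ra) (hx : S.s x < ρ)
    (hmax : IsLocalMax (fun y => e ^ 2 * f y - S.y ρ y) x) (hph : ph S e f z x = e ^ 2) :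
    e ^ 3 * f x ≤ -2 * S.t1 := by
  have hd := h.jd
  have hU := mem_univ x
  have hV : IsOpen {x | S.s x < ρ} := isOpen_lt hS.good.s_smooth.continuous continuous_const
  have hd' : Jd S.g (fun _ => 1) (S.y ρ) {x | S.s x < ρ} :=
    ⟨⟨hV, fun i j => (hS.good.riem.contDiffOn i j).mono (subset_univ _),
      fun y _ => hS.good.riem.posDef y trivial⟩, contDiffOn_const, hS.y_smooth ρ hρ,
      fun _ _ => one_pos⟩
  have hx' : x ∈ {x | S.s x < ρ} := hx
  have hcrit : fderiv ℝ (ph S e f z) x = 0 := by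
    refine IsLocalMin.fderiv_eq_zero (Eventually.of_forall fun y => ?_)
    rw [hph]
    exact (ph_mem S (pow_le_one₀ he.le he1) f z y).1
  have hf2 := hd.cf2 hU
  have hy2 := hd'.cf2 hx'
  have t1 := (touch_of_max (contDiffAt_const.mul hf2) hy2 hmax).1
  have t2 : ∀ i, pderiv i (S.y ρ) x = e ^ 2 * pderiv i f x := fun i => by
    rw [← Bs.pd_const_mul, pderiv, pderiv, t1]
  have e1 : gb S.g (fun _ => 1) (S.y ρ) x = gb S.g (ph S e f z) f x := by
    ext i j
    simp only [gb, XX, Matrix.add_apply, Matrix.of_apply, hph, t2]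
    ring
  have e2 : gm S.g (fun _ => 1) (S.y ρ) x = gm S.g (ph S e f z) f x := by
    simp only [gm, Id.sq, gam, hph, t2, Finset.mul_sum]
    congr 2
    exact Finset.sum_congr rfl fun i _ => Finset.sum_congr rfl fun j _ => by ring
  have e3 : ∀ T, traceK (gb S.g (fun _ => 1) (S.y ρ)) T x
      = traceK (gb S.g (ph S e f z) f) T x := fun T => by
    simp only [traceK, inverseField, e1]
  have e4 : traceK (gb S.g (ph S e f z) f) (hessM S.g fun y => e ^ 2 * f y) x
      = e ^ 2 * traceK (gb S.g (ph S e f z) f) (hessM S.g f) x := by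
    simp only [traceK, hessM, Matrix.of_apply, hess_const_mul _ hf2, Finset.mul_sum]
    exact Finset.sum_congr rfl fun i _ => Finset.sum_congr rfl fun j _ => by ring
  have t3 := traceK_hessM_le_of_max hd.riemb hU S.g (contDiffAt_const.mul hf2) hy2 hmax
  have t4 := hS.y_super ρ hρ x hx
  have t5 := h.J x
  rw [Jd.Th_eq, H0_of_crit hd' hx' (by simp), e2, e3, e3] at t4
  rw [Jd.Th_eq, H0_of_crit hd hU hcrit, hph] at t5
  rw [e4] at t3
  have t6 := mul_le_mul_of_nonneg_left t3 (one_div_pos.2 (hd.gm_pos hU)).le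
  have t7 : e ^ 2 / gm S.g (ph S e f z) f x * traceK (gb S.g (ph S e f z) f) (hessM S.g f) x
      = 1 / gm S.g (ph S e f z) f x
        * (e ^ 2 * traceK (gb S.g (ph S e f z) f) (hessM S.g f) x) := by ring
  linarith

/-- the maximum over `{s ≤ ρ}` is attained inside -/
theorem max_inside (hS : S.OK) (h : Sl S e M z3 an f z) (hρ : ρ ∈ Icc (3 / 16 : ℝ) S.ra)
    (hx : S.s x ≤ ρ) (hmax : IsMaxOn (fun y => e ^ 2 * f y - S.y ρ y) {y | S.s y ≤ ρ} x) :
    S.s x < ρ := by
  refine hx.lt_of_ne fun hxe => ?_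
  obtain ⟨B0, -, hB⟩ := h.exists_bound
  obtain ⟨x', hx', H⟩ := hS.y_steep ρ hρ x hxe (e ^ 2 * B0)
  have h1 : ‖f x' - f x‖ ≤ B0 * ‖x' - x‖ :=
    convex_univ.norm_image_sub_le_of_norm_fderiv_le (fun y _ => Bs.smooth_diff h.f_smooth y)
      (fun y _ => (hB y).2.2.1) (mem_univ x) (mem_univ x')
  have h2 := mul_le_mul_of_nonneg_left (abs_le.1 h1).1 (sq_nonneg e)
  have h3 : e ^ 2 * f x' - S.y ρ x' ≤ e ^ 2 * f x - S.y ρ x := hmax (le_of_lt hx')
  linarith

end S2

theorem s2 : S2Stmt := by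
  intro n hn S hS P T0 R bp _
  have ht1 : 0 < S.t1 := by
    have h1 : 0 < S.t0 := hS.par_ok.t0_pos
    have h2 : 4 * S.t0 ≤ S.t1 := hS.par_ok.t01
    linarith
  refine ⟨min 1 (S.t1 / (|S.Cy| + 1)), lt_min one_pos (by positivity),
    fun e he he' M z3 an f z h => ?_⟩
  have he1 : e ≤ 1 := he'.trans (min_le_left _ _)
  have heC : e * S.Cy < S.t1 := by
    have := he'.trans (min_le_right _ _)
    rw [le_div_iff₀ (by positivity)] at this
    nlinarith [le_abs_self S.Cy]
  have hsc := hS.good.s_smooth.continuous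
  have hfc := h.f_smooth.continuous
  have hra := hS.ra_gt
  -- the compact parameter domain
  set D : Set (ℝ × E n) := {p | p.1 ∈ Icc (3 / 16 : ℝ) S.ra ∧ S.s p.2 ≤ p.1} with hD
  have hball : ∀ x, S.s x ≤ S.ra → x ∈ Metric.closedBall (0 : E n) S.R0 := fun x hx => by
    rw [mem_closedBall_zero_iff]
    by_contra hc
    linarith [hS.good.s_far x (not_le.1 hc).le, hS.rab, hS.rb_lt]
  have hDc : IsClosed D := (isClosed_Icc.preimage continuous_fst).inter
    (isClosed_le (hsc.comp continuous_snd) continuous_fst)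
  have hDK : IsCompact D := (isCompact_Icc.prod (isCompact_closedBall (0 : E n) S.R0)).of_isClosed_subset
    hDc fun p hp => ⟨hp.1, hball _ (hp.2.trans hp.1.2)⟩
  have hGc : ContinuousOn (fun p : ℝ × E n => e * (e ^ 2 * f p.2 - S.y p.1 p.2)) D :=
    continuousOn_const.mul
      ((continuous_const.mul (hfc.comp continuous_snd)).continuousOn.sub hS.y_cont)
  have key : ∀ p ∈ D, e * (e ^ 2 * f p.2 - S.y p.1 p.2) < -S.t1 := by
    by_contra hc
    push Not at hc
    have hBK : IsCompact (D ∩ (fun p : ℝ × E n => e * (e ^ 2 * f p.2 - S.y p.1 p.2)) ⁻¹'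
        Ici (-S.t1)) := hDK.of_isClosed_subset
      (hGc.preimage_isClosed_of_isClosed hDc isClosed_Ici) inter_subset_left
    obtain ⟨⟨ρ, x1⟩, ⟨⟨hρ, hx1⟩, hG1⟩, hmin⟩ := hBK.exists_isMinOn hc continuous_fst.continuousOn
    have hG1' : -S.t1 ≤ e * (e ^ 2 * f x1 - S.y ρ x1) := hG1
    have hAc : IsCompact {y | S.s y ≤ ρ} := (isCompact_closedBall (0 : E n) S.R0).of_isClosed_subset
      (isClosed_le hsc continuous_const) fun y hy => hball y (le_trans hy hρ.2)
    have hyc : ContinuousOn (S.y ρ) {y | S.s y ≤ ρ} :=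
      hS.y_cont.comp (f := fun y => (ρ, y)) (by fun_prop) fun y hy => ⟨hρ, hy⟩
    obtain ⟨x, hx, hmax⟩ := hAc.exists_isMaxOn (f := fun y => e ^ 2 * f y - S.y ρ y) ⟨x1, hx1⟩
      ((continuous_const.mul hfc).continuousOn.sub hyc)
    have hin := max_inside hS h hρ hx hmax
    have hloc : IsLocalMax (fun y => e ^ 2 * f y - S.y ρ y) x :=
      hmax.isLocalMax (mem_of_superset ((isOpen_lt hsc continuous_const).mem_nhds hin)
        fun y (hy : S.s y < ρ) => hy.le)
    have hy := hS.y_mem ρ hρ x hx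
    have hchi : (S.par e 0 0).chi ((S.coef 0).a1 x) ((S.coef 0).a2 x) (e ^ 3 * f x) = 0 := by
      rcases hρ.1.eq_or_lt with h0 | h0
      · have : (S.coef 0).a1 x = 0 := cut_zero (by norm_num) (by
          have : (3 / 16 : ℝ) = ρ := h0
          linarith)
        rw [Par.chi, this, zero_mul]
      · have hev : ∀ᶠ r in 𝓝[<] ρ, (r, x) ∈ D ∧ r < ρ := by
          filter_upwards [Ioo_mem_nhdsLT (max_lt h0 hin)] with r hr
          exact ⟨⟨⟨(le_max_left _ _).trans hr.1.le, hr.2.le.trans hρ.2⟩,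
            (le_max_right _ _).trans hr.1.le⟩, hr.2⟩
        have htd : Tendsto (fun r : ℝ => (r, x)) (𝓝[<] ρ) (𝓝[D] (ρ, x)) :=
          tendsto_nhdsWithin_iff.2 ⟨((by fun_prop : Continuous fun r : ℝ => (r, x)).tendsto ρ).mono_left
            nhdsWithin_le_nhds, hev.mono fun r hr => hr.1⟩
        have hle : e * (e ^ 2 * f x - S.y ρ x) ≤ -S.t1 := by
          refine le_of_tendsto ((hGc (ρ, x) ⟨hρ, hx⟩).tendsto.comp htd) ?_
          filter_upwards [hev] with r hr
          by_contra hc'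
          exact absurd (hmin ⟨hr.1, (not_le.1 hc').le⟩) (not_le.2 hr.2)
        have h1 : (S.coef 0).a2 x = 1 := by
          have : cut S.ra S.rb (S.s x) = 0 := cut_zero hS.rab (le_trans hx hρ.2)
          simp [Setup.coef, this]
        have h2 : cut (-S.t1) (-S.t1 / 2) (e ^ 3 * f x) = 0 :=
          cut_zero (by linarith) (by nlinarith [hy.2])
        simp [Par.chi, Setup.par, h1, h2]
    have h3 := touch hS he he1 h hρ hin hloc (by rw [ph_eq, hchi]; ring)
    have h4 : e ^ 2 * f x1 - S.y ρ x1 ≤ e ^ 2 * f x - S.y ρ x := hmax hx1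
    nlinarith [mul_le_mul_of_nonneg_left h4 he.le, mul_le_mul_of_nonneg_left hy.1 he.le]
  intro x hx
  have h1 : e * (e ^ 2 * f x - S.y S.ra x) < -S.t1 := key (S.ra, x) ⟨⟨by linarith, le_rfl⟩, hx⟩
  have h2 := (hS.y_mem S.ra ⟨by linarith, le_rfl⟩ x hx).2
  nlinarith

end Crest.Agent.N346.Bd

end
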