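import Crest.Agent.N346.Bd.S3a

/-! Row 346, Part 1, leaf S3 (helper47): the outer barrier for `z`. -/

set_option autoImplicit false

open MeasureTheory Filter Set
open scoped ContDiff Topology
open Crest.GeometryTopology.CoordMetric Crest.MathPhysics.ExteriorData
open Crest.Agent.R202.Tens Crest.Agent.R247.Bo84 Crest.Agent.N346.Id Crest.Agent.N346.P1

noncomputable section

namespace Crest.Agent.N346.Bd

namespace S3

variable {n : ℕ} {S : Setup n} {e : ℝ} {f z : E n → ℝ} {x : E n}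

theorem ph_far (hS : S.OK) (e : ℝ) (f z : E n → ℝ) (hx : S.R0 ≤ ‖x‖) :
    ph S e f z x = e ^ 2 + (1 - e ^ 2) * cut (-S.θ / 2) (-S.θ / 4) (z x) := by
  have hs := hS.good.s_far x hx
  have h1 : cut (1 / 4) (1 / 2) (S.s x) = 1 := cut_of_ge (by norm_num) (by linarith)
  have h2 : cut S.ra S.rb (S.s x) = 1 := cut_of_ge hS.rab (by linarith [hS.rb_lt])
  simp only [ph, phi, Par.phiF, Par.chi, Par.δ, Par.Ph, Setup.par, Setup.coef, h1, h2]
  ring

theorem rhs_le (hS : S.OK) {M z3 : ℝ} {an : E n → ℝ} (h : Sl S e M z3 an f z)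
    (hcw : 0 ≤ S.cw x) (hmw : 0 ≤ S.mw x) (hx : 2 * S.R0 ≤ ‖x‖) (hz : z x ≤ 0) :
    rhs S e M z3 an f z x ≤ -(e ^ 3 * f x) ^ 2 - e ^ 3 * pp' S e f z x + an x * z x := by
  have hR0 := hS.good.R0_ge
  have hs := hS.good.s_far x (by linarith)
  have h1 : (S.coef 0).b1 x = 1 := cut_of_ge hS.ra_gt (by linarith [hS.rb_lt, hS.rab])
  have h2 : (S.coef 0).b2 x = 0 := Bs.eta_eq_zero (by linarith) hx
  have h3 : 0 ≤ (S.par e 0 0).sz (z x) := sub_nonneg.2 (Real.smoothTransition.le_one _)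
  have h4 : (S.par e M z3).vt (z x) ≤ 0 := by
    have k1 : cut z3 (z3 + 1) (z x) = 0 := cut_of_le (by linarith) (hz.trans h.z3_nonneg)
    have k2 : 0 ≤ 1 - cut (-S.θ - 2) (-S.θ - 1) (z x) :=
      sub_nonneg.2 (Real.smoothTransition.le_one _)
    have := mul_nonneg h.M_nonneg k2
    simp only [Par.vt, Setup.par, k1]
    linarith
  have h5 := eSq_nonneg h.jd.riemb (mem_univ x) (S.coef 0).EE
  have h6 := mul_nonneg h3 hcw
  rw [rhs, h1, h2, Par.dd]
  simp only [mul_zero, sub_zero, mul_one, sub_self]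
  linarith

theorem small {N P cH cG C1 e : ℝ} (hN : 0 ≤ N) (hP : 0 ≤ P) (hH : 0 ≤ cH) (hG : 0 ≤ cG)
    (hC : 0 ≤ C1) (he : 0 < e) (he1 : e ≤ 1)
    (h : e * (2 * cH + 2 * P + 2 * C1 * ((N + 1) * cH + cG)
      + cG * ((2 * N + 1) * C1 ^ 2 + 2 * N)) ≤ 1) :
    2 * (cH * e ^ 8) + 2 * (P * e ^ 8) + 2 * (C1 / e ^ 2) * ((N + 1) * (cH * e ^ 8) + cG * e ^ 8)
      + cG * e ^ 8 * ((2 * N + 1) * (C1 / e ^ 2) ^ 2 + 2 * N) ≤ e ^ 3 := by
  have h4 : e ^ 4 ≤ 1 := pow_le_one₀ he.le he1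
  have h2 : e ^ 2 ≤ 1 := pow_le_one₀ he.le he1
  calc _ = e ^ 4 * (2 * cH * e ^ 4 + 2 * P * e ^ 4 + 2 * C1 * ((N + 1) * cH + cG) * e ^ 2
        + cG * ((2 * N + 1) * C1 ^ 2 + 2 * N * e ^ 4)) := by field_simp
    _ ≤ e ^ 4 * (2 * cH * 1 + 2 * P * 1 + 2 * C1 * ((N + 1) * cH + cG) * 1
        + cG * ((2 * N + 1) * C1 ^ 2 + 2 * N * 1)) := by gcongr
    _ = e ^ 3 * (e * (2 * cH + 2 * P + 2 * C1 * ((N + 1) * cH + cG)
        + cG * ((2 * N + 1) * C1 ^ 2 + 2 * N))) := by ring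
    _ ≤ e ^ 3 * 1 := by gcongr
    _ = _ := mul_one _

end S3

set_option maxHeartbeats 1600000 in
open S3 in
theorem s3 : S3Stmt := by
  intro n hn S hS P T0 R bp hG
  have hn' : (3 : ℝ) ≤ n := by exact_mod_cast hn
  have hθ : 0 < S.θ := hS.par_ok.θ_pos
  have hθ1 : S.θ ≤ 1 := hS.par_ok.θ_le
  have hP : 2 ≤ P := hG.P_ge
  have hR0 := hS.good.R0_ge
  have hRR := hG.R_ge
  have hg := hG.riem
  obtain ⟨C1, hC1⟩ := exists_cut_bound (a := -S.θ / 2) (b := -S.θ / 4) (by linarith)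
  have hC0 : 0 ≤ C1 := (hC1 0).1.trans (hC1 0).2.1
  set a := a0 n with ha
  have ha1 : 3 / 4 ≤ a := by rw [ha, a0]; linarith
  have ha2 : a + 2 ≤ n := by rw [ha, a0]; linarith
  set cH := a * (a + 2) * P + P with hcH
  set cG := 2 * (a ^ 2 * P) + 2 * P with hcG
  have hH0 : 0 ≤ cH := by positivity
  have hG0 : 0 ≤ cG := by positivity
  set CW := 2 * cH + 2 * P + 2 * C1 * ((n + 1) * cH + cG)
    + cG * ((2 * n + 1) * C1 ^ 2 + 2 * n) with hCW
  have hW0 : 0 ≤ CW := by positivity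
  have hD : 0 < CW + P + R := by linarith
  refine ⟨(CW + P + R)⁻¹, by positivity, fun e he he1 M z3 an f z hSl hlo x0 hx0 => ?_⟩
  have hX : CW + P + R ≤ e⁻¹ := (le_inv_comm₀ he hD).1 he1
  have hX1 : 1 ≤ e⁻¹ := by linarith
  have he2 : e ≤ 1 := by rwa [one_le_inv₀ he] at hX1
  have heW : e * CW ≤ 1 := by
    have : CW ≤ e⁻¹ := by linarith
    calc e * CW ≤ e * e⁻¹ := by gcongr
      _ = 1 := mul_inv_cancel₀ he.ne'
  set R1 := e⁻¹ ^ 4 with hR1
  have hXR : e⁻¹ ≤ R1 := le_self_pow₀ hX1 (by norm_num)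
  have hR11 : 1 ≤ R1 := hX1.trans hXR
  have hR1R : R ≤ R1 := by linarith
  have hR18 : (R1 ^ 2)⁻¹ = e ^ 8 := by rw [hR1, ← pow_mul, inv_pow, inv_inv]
  set c := -(S.θ * R1 ^ a) with hc
  have hβ : ∀ y : E n, R1 ≤ ‖y‖ → -(S.θ * (R1 / ‖y‖) ^ a) = c * ‖y‖ ^ (-a) := fun y hy => by
    rw [Real.div_rpow (by linarith) (norm_nonneg _), Real.rpow_neg (norm_nonneg _), hc]
    ring
  have hβ1 : ∀ y : E n, R1 ≤ ‖y‖ → |c| * ‖y‖ ^ (-a) ≤ 1 := fun y hy => by
    have h1 : (R1 / ‖y‖) ^ a ≤ 1 :=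
      Real.rpow_le_one (by positivity) ((div_le_one (by linarith)).2 hy) (by linarith)
    have h2 := hβ y hy
    have h3 : S.θ * (R1 / ‖y‖) ^ a ≤ 1 := mul_le_one₀ hθ1 (by positivity) h1
    rw [hc] at h2
    rw [hc, abs_neg, abs_of_pos (by positivity)]
    linarith
  have hβ0 : ∀ y : E n, c * ‖y‖ ^ (-a) ≤ 0 := fun y =>
    mul_nonpos_of_nonpos_of_nonneg (neg_nonpos.2 (by positivity)) (by positivity)
  obtain ⟨B, -, hzB⟩ := hSl.bdd
  have hzs : ContDiff ℝ ∞ z := hzB.1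
  by_contra hneg
  rw [not_le, hβ x0 hx0] at hneg
  obtain ⟨m, hm, hmax⟩ := ext_max (ρ := R1) (F := fun y => c * ‖y‖ ^ (-a) - z y) (bp := bp)
    ((continuousOn_const.mul (continuous_norm.continuousOn.rpow_const fun y hy =>
      Or.inl (ne_of_gt (lt_of_lt_of_le (by linarith) (show R1 ≤ ‖y‖ from hy))))).sub
      hzs.continuous.continuousOn)
    ⟨S.θ, fun y _ => by linarith [hβ0 y, hlo y]⟩
    (fun y hy => by
      rw [← hβ y hy.ge, hy, div_self (by linarith), Real.one_rpow]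
      linarith [hlo y])
    hG.bp_b2.smooth.continuous hG.bp_nonneg hG.bp_top hx0 (sub_pos.2 hneg)
  obtain ⟨R', hR'⟩ := hSl.anch m hm
  set κ := min m (max R' 1 ^ (-(n : ℝ))) with hκ
  have hκ0 : 0 < κ := lt_min hm (by positivity)
  obtain ⟨ε, hε, hε0, x, hx, hloc, hval⟩ := hmax (min (e ^ 8) (κ / (2 * (n * P) + 1)))
    (by positivity)
  have hε1 : ε ≤ e ^ 8 := hε0.trans (min_le_left _ _)
  have hε2 : ε * (2 * (n * P) + 1) ≤ κ :=
    (le_div_iff₀ (by positivity)).1 (hε0.trans (min_le_right _ _))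
  have hε3 : ε ≤ 1 := hε1.trans (pow_le_one₀ he.le he2)
  have hxu := mem_univ x
  have hr : 0 < ‖x‖ := by linarith
  have hr1 : 1 ≤ ‖x‖ := by linarith
  have hRx : R ≤ ‖x‖ := by linarith
  have hr8 : (‖x‖ ^ 2)⁻¹ ≤ e ^ 8 := by rw [← hR18]; gcongr
  have hbp2 : ContDiffAt ℝ 2 bp x := (hG.bp_b2.smooth.of_le (by norm_cast)).contDiffAt
  have hbpd : DifferentiableAt ℝ bp x := hbp2.differentiableAt (by norm_num)
  have hz2 : ContDiffAt ℝ 2 z x := (hzs.of_le (by norm_cast)).contDiffAt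
  obtain ⟨r1, r2, r3⟩ := radial (c := c) (by linarith : 0 ≤ a) hr (hβ1 x hx.le) hg (hG.d_r x hRx)
    fun Y => hG.h_r x Y hRx
  have hεb : ContDiffAt ℝ 2 (fun y => ε * bp y) x := contDiffAt_const.mul hbp2
  have hzm : z x ≤ -m := by
    have := hβ0 x
    have := mul_nonneg hε.le (hG.bp_nonneg x)
    linarith
  have hδ1 : 0 ≤ 1 - e ^ 2 := sub_nonneg.2 (pow_le_one₀ he.le he2)
  have hδ2 : 1 - e ^ 2 ≤ 1 := sub_le_self _ (sq_nonneg e)
  have hcs := contDiff_cut (-S.θ / 2) (-S.θ / 4)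
  have d1 : deriv (fun s => e ^ 2 + (1 - e ^ 2) * cut (-S.θ / 2) (-S.θ / 4) s)
      = fun s => (1 - e ^ 2) * deriv (cut (-S.θ / 2) (-S.θ / 4)) s := by
    funext s
    rw [deriv_const_add, deriv_const_mul_field]
  have key := core (x := x) (by omega) hSl.jd (be := fun y => c * ‖y‖ ^ (-a) - ε * bp y)
    (Φ := fun s => e ^ 2 + (1 - e ^ 2) * cut (-S.θ / 2) (-S.θ / 4) s) hz2 (r1.sub hεb)
    (contDiffAt_const.add (contDiffAt_const.mul (hcs.of_le (by norm_cast)).contDiffAt))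
    (by
      filter_upwards [(isOpen_lt continuous_const continuous_norm).mem_nhds hx] with y hy
      exact ph_far hS e f z (by linarith [show R1 < ‖y‖ from hy]))
    (by
      filter_upwards [hloc] with y hy
      linarith)
    (C1 := C1) (δ := e ^ 2) (Hb := cH * e ^ 8) (G := cG * e ^ 8) (Rc := P * e ^ 8) (by positivity)
    (by
      rw [ph_far hS e f z (by linarith)]
      exact le_add_of_nonneg_right (mul_nonneg hδ1 (Real.smoothTransition.nonneg _)))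
    (by rw [d1]; exact mul_nonneg hδ1 (hC1 _).1)
    (by rw [d1]; exact (mul_le_of_le_one_left (hC1 _).1 hδ2).trans (hC1 _).2.1)
    (by
      rw [d1, deriv_const_mul_field, abs_mul, abs_of_nonneg hδ1]
      exact (mul_le_of_le_one_left (abs_nonneg _) hδ2).trans (hC1 _).2.2)
    (by positivity)
    (fun Y => by
      have hY := bil_self_nonneg hg hxu Y
      rw [hess_sub _ r1 hεb, hess_const_mul ε hbp2]
      refine (abs_sub _ _).trans ?_
      rw [abs_mul, abs_of_pos hε]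
      calc _ ≤ a * (a + 2) * P * (‖x‖ ^ 2)⁻¹ * bil (S.g x) Y Y + ε * (P * bil (S.g x) Y Y) :=
            add_le_add (r3 Y) (mul_le_mul_of_nonneg_left (hG.bp_b2.h_le x Y) hε.le)
        _ ≤ a * (a + 2) * P * e ^ 8 * bil (S.g x) Y Y + e ^ 8 * (P * bil (S.g x) Y Y) := by gcongr
        _ = _ := by rw [hcH]; ring)
    (by
      refine (gam_sub_le hg (r1.differentiableAt (by norm_num))
        (hεb.differentiableAt (by norm_num))).trans ?_
      rw [gam_const_mul_left ε hbpd, gam_const_mul_right ε hbpd]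
      have h0 := gam_self_nonneg hg hxu bp
      calc _ ≤ 2 * (a ^ 2 * P * (‖x‖ ^ 2)⁻¹) + 2 * (1 * (e ^ 8 * P)) := by
            gcongr
            · exact r2
            · exact hG.bp_b2.d_le x
        _ ≤ 2 * (a ^ 2 * P * e ^ 8) + 2 * (1 * (e ^ 8 * P)) := by gcongr
        _ = _ := by rw [hcG]; ring)
    (fun Y => by
      have hY := bil_self_nonneg hg hxu Y
      refine (hG.Ric_far x Y hRx).trans ?_
      gcongr
      refine le_trans ?_ hr8
      rw [← Real.rpow_two, ← Real.rpow_neg hr.le]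
      exact Real.rpow_le_rpow_of_exponent_le hr1 (by linarith))
  have hp0 := hSl.jd.pp_nonneg hxu
  have k1 := mul_le_mul_of_nonneg_left (small (N := n) (by positivity) (by linarith) hH0 hG0 hC0 he he2
    heW) hp0
  have k2 := rhs_le hS hSl (hG.cw_nonneg x) (le_trans (by positivity) (hG.mw_lo x)) (by linarith)
    (by linarith)
  have k3 := hSl.U x
  have k4 : 0 ≤ al n * gam (gB S e f z) z z x :=
    mul_nonneg (div_nonneg (by linarith) (by linarith)) (gam_self_nonneg hSl.jd.riemb hxu z)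
  have k5 : H0 S.g (ph S e f z) f x = e ^ 3 * f x := by
    rw [H0_eq_Th hSl.jd hxu S.K, hSl.J x, traceK, hS.good.K_far x (by linarith)]
    simp [bil_apply]
  have k6 : scalarCurv S.g x ≤ P * ‖x‖ ^ (-(n : ℝ)) := by
    refine ((le_abs_self _).trans (hG.R_far x hRx)).trans ?_
    have := hS.good.e0_pos
    gcongr P * ?_
    exact Real.rpow_le_rpow_of_exponent_le hr1 (by linarith)
  have k7 : P * ‖x‖ ^ (-(n : ℝ)) - ε * (n * P)
      ≤ laplaceBeltrami S.g (fun y => c * ‖y‖ ^ (-a) - ε * bp y) x := by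
    have hN : ContDiffAt ℝ 2 (fun y : E n => ‖y‖ ^ (-a)) x :=
      (contDiffAt_norm ℝ (norm_pos_iff.1 hr)).rpow_const_of_ne hr.ne'
    rw [lap_sub hg hxu r1 hεb, lap_const_mul hg hxu c hN, lap_const_mul hg hxu ε hbp2]
    have l1 := mul_le_mul_of_nonneg_left
      (abs_le.1 (abs_lap_le hg hxu hbp2 (hG.bp_b2.h_le x))).2 hε.le
    have l2 := mul_le_mul_of_nonneg_left (hG.lap_r x hRx) (show 0 ≤ S.θ * R1 ^ a by positivity)
    have l3 : P ^ 3 ≤ R1 ^ a := by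
      calc P ^ 3 ≤ e⁻¹ ^ 3 := by gcongr; linarith
        _ = e⁻¹ ^ ((3 : ℕ) : ℝ) := (Real.rpow_natCast _ _).symm
        _ ≤ e⁻¹ ^ (((4 : ℕ) : ℝ) * a) :=
            Real.rpow_le_rpow_of_exponent_le hX1 (by push_cast; linarith)
        _ = R1 ^ a := by rw [Real.rpow_mul (by positivity), Real.rpow_natCast]
    have l4 : P⁻¹ ≤ S.θ := (inv_le_comm₀ (by linarith) hθ).2 hG.θ_inv
    have l5 : ‖x‖ ^ (-(n : ℝ)) ≤ ‖x‖ ^ (-a - 2) :=
      Real.rpow_le_rpow_of_exponent_le hr1 (by linarith)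
    have l6 : P * ‖x‖ ^ (-(n : ℝ)) ≤ S.θ * R1 ^ a * (P⁻¹ * ‖x‖ ^ (-a - 2)) := by
      calc _ = P⁻¹ * P ^ 3 * (P⁻¹ * ‖x‖ ^ (-(n : ℝ))) := by field_simp
        _ ≤ _ := by gcongr
    rw [hc]
    linarith
  rw [k5] at key
  have k8 : ‖x‖ ^ (-(n : ℝ)) ≤ P * ‖x‖ ^ (-(n : ℝ)) :=
    le_mul_of_one_le_left (by positivity) (by linarith)
  have k9 : ‖x‖ ^ (-(n : ℝ)) - 2 * (ε * (n * P)) ≤ an x * z x := by linarith
  have k10 : 0 < ‖x‖ ^ (-(n : ℝ)) := by positivity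
  rcases le_total R' ‖x‖ with h | h
  · rw [hR' x h (by rw [abs_of_nonpos (by linarith)]; linarith), one_mul] at k9
    have := min_le_left m (max R' 1 ^ (-(n : ℝ)))
    linarith
  · have l1 : max R' 1 ^ (-(n : ℝ)) ≤ ‖x‖ ^ (-(n : ℝ)) :=
      Real.rpow_le_rpow_of_nonpos hr (h.trans (le_max_left _ _)) (by linarith)
    have l2 := min_le_right m (max R' 1 ^ (-(n : ℝ)))
    have l3 : an x * z x ≤ 0 := mul_nonpos_of_nonneg_of_nonpos (hSl.an_mem x).1 (by linarith)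
    linarith

end Crest.Agent.N346.Bd

end
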