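import Crest.Agent.N346.Bd.FarB

/-! Row 346, Part 1 (helper10): S4 (bound and barrier for `f`) and S5 (barrier for `1/γ`). -/

set_option autoImplicit false

open MeasureTheory Filter Set
open scoped ContDiff Topology
open Crest.GeometryTopology.CoordMetric Crest.MathPhysics.ExteriorData
open Crest.Agent.R202.Tens Crest.Agent.R247.Bo84 Crest.Agent.N346.Id Crest.Agent.N346.P1

noncomputable section

namespace Crest.Agent.N346.Bd

variable {n : ℕ} {S : Setup n} {P T0 R e M z3 : ℝ} {bp an f z : E n → ℝ} {x : E n}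

namespace Fb

theorem traceK_sign {G g : MetricField n} {U : Set (E n)} (hG : IsRiemannianOn G U) (hx : x ∈ U)
    {u : E n → ℝ} (hu : ContDiffAt ℝ 2 u x) (σ : ℝ) :
    traceK G (hessM g fun y => σ * u y) x = σ * traceK G (hessM g u) x := by
  obtain ⟨ξ, hξ⟩ := exists_frame hG hx
  rw [Bd.traceK_frame hG hx hξ, Bd.traceK_frame hG hx hξ, Finset.mul_sum]
  exact Finset.sum_congr rfl fun a _ => by rw [bil_hessM, bil_hessM, hess_const_mul σ hu]

namespace Ctx
variable (c : Ctx S P T0 R e M z3 bp an f z)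
include c

theorem f2 : ContDiffAt ℝ 2 f x := c.f_smooth.contDiffAt.of_le (by norm_cast)

theorem f_barrier (hC : 2 * n * P * e ≤ 1) {σ T : ℝ} (hT : 0 ≤ T)
    (hs : ∀ x, ‖x‖ = 9 * e⁻¹ ^ 4 → σ * (e ^ 3 * f x) ≤ T) {x0 : E n} (hx0 : 9 * e⁻¹ ^ 4 ≤ ‖x0‖) :
    σ * (e ^ 3 * f x0) ≤ T * Real.exp (-e ^ 2 * (‖x0‖ - 9 * e⁻¹ ^ 4)) := by
  have he := c.e_pos
  have hP := c.P_one
  have he3 : 0 < e ^ 3 := by positivity
  set ρ := 9 * e⁻¹ ^ 4 with hρ
  set h : ℝ → ℝ := fun r => T / e ^ 3 * Real.exp (-e ^ 2 * (r - ρ)) with hh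
  have h0 : ∀ r, 0 ≤ h r := fun r => by simp only [hh]; positivity
  have hd : ∀ r, HasDerivAt h (-e ^ 2 * h r) r := fun r => by
    have := ((((hasDerivAt_id r).sub_const ρ).const_mul (-e ^ 2)).exp).const_mul (T / e ^ 3)
    refine this.congr_deriv ?_
    simp only [hh, id]; ring
  by_contra hcon
  push Not at hcon
  obtain ⟨B, hB⟩ := c.f_bdd
  obtain ⟨m, hm, H⟩ := ext_max (ρ := ρ) (F := fun y => σ * f y - h ‖y‖)
    ((continuous_const.mul c.f_smooth.continuous).sub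
      ((show Continuous h by simp only [hh]; fun_prop).comp continuous_norm)).continuousOn
    ⟨|σ| * B, fun y _ => by
      have := mul_le_mul_of_nonneg_left (hB y) (abs_nonneg σ)
      rw [← abs_mul] at this
      linarith [le_abs_self (σ * f y), h0 ‖y‖]⟩
    (fun y hy => by
      have := hs y hy
      simp only [hh, hy, sub_self, mul_zero, Real.exp_zero, mul_one, sub_nonpos]
      rw [le_div_iff₀ he3]; linarith)
    c.geo.bp_b2.smooth.continuous c.geo.bp_nonneg c.geo.bp_top hx0 (by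
      simp only [hh, sub_pos]
      rw [div_mul_eq_mul_div, div_lt_iff₀ he3]; linarith)
  have hn0 : (0 : ℝ) < n := by exact_mod_cast (by linarith [c.hn] : 0 < n)
  obtain ⟨ε, hε, hε0, x1, hx1, hmax, hv⟩ := H (e ^ 3 * m / (2 * (n * P))) (by positivity)
  obtain ⟨r1, r2, -⟩ := c.radial hx1.le (h := h) (h1 := fun r => -e ^ 2 * h r)
    (h2 := -e ^ 2 * (-e ^ 2 * h ‖x1‖)) (by simp only [hh]; fun_prop) (fun r _ => hd r)
    ((hd _).const_mul _)
  have hr : 1 ≤ ‖x1‖ := c.one_le hx1.le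
  have hu : ContDiffAt ℝ 2 (fun y => σ * f y) x1 := contDiffAt_const.mul c.f2
  have hbε : ContDiffAt ℝ 2 (fun y => ε * bp y) x1 := contDiffAt_const.mul c.bp2
  have hm2 : IsLocalMax (fun y => σ * f y - (h ‖y‖ + ε * bp y)) x1 := by
    simpa only [sub_sub] using hmax
  have hH : |-e ^ 2 * h ‖x1‖| * (P / ‖x1‖) + |-e ^ 2 * (-e ^ 2 * h ‖x1‖)| * P
      ≤ 2 * e ^ 4 * P * h ‖x1‖ := by
    have := h0 ‖x1‖
    rw [neg_mul, abs_neg, abs_of_nonneg (by positivity), show -e ^ 2 * -(e ^ 2 * h ‖x1‖)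
      = e ^ 4 * h ‖x1‖ by ring, abs_of_nonneg (by positivity)]
    have a1 : P / ‖x1‖ ≤ P * e ^ 2 := by
      rw [div_le_iff₀ (by linarith), mul_assoc]
      refine le_mul_of_one_le_right (by linarith) ?_
      have a2 : e ^ 2 * ρ ≤ e ^ 2 * ‖x1‖ := by gcongr
      have a3 : e ^ 2 * ρ = 9 * e⁻¹ ^ 2 := by rw [hρ]; field_simp
      nlinarith [c.X_ge]
    have := mul_le_mul_of_nonneg_left a1 (by positivity : 0 ≤ e ^ 2 * h ‖x1‖)
    linarith
  have t1 : traceK (gB S e f z) (hessM S.g fun y => σ * f y) x1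
      ≤ n * (2 * e ^ 4 * P * h ‖x1‖ + ε * P) :=
    traceK_le c.jd.riemb (mem_univ x1) fun Y => by
      rw [bil_hessM]
      have b0 := bil_self_nonneg c.geo.riem (mem_univ x1) Y
      have b1 := (touch_of_max hu (r1.add hbε) hm2).2 S.g Y
      rw [hess_add r1 hbε, hess_const_mul ε c.bp2] at b1
      have b2 := (abs_le.1 (r2 Y)).2.trans (mul_le_mul_of_nonneg_right hH b0)
      have b3 := mul_le_mul_of_nonneg_left (abs_le.1 (c.geo.bp_b2.h_le x1 Y)).2 hε.le
      have := h0 ‖x1‖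
      have b4 := mul_le_mul_of_nonneg_left (c.jd.bil_le_gb (mem_univ x1) Y)
        (by positivity : 0 ≤ 2 * e ^ 4 * P * h ‖x1‖ + ε * P)
      linarith
  rw [traceK_sign c.jd.riemb (mem_univ x1) c.f2] at t1
  have t2 := c.jd.H0_eq (mem_univ x1)
  rw [c.H0_far hx1.le, c.aa_far hx1, c.ph_far hx1.le, mul_zero, add_zero] at t2
  have hγ := c.jd.one_le_gm (mem_univ x1)
  have hh1 := h0 ‖x1‖
  have t3 : σ * (e ^ 3 * f x1) ≤ n * (2 * e ^ 4 * P * h ‖x1‖ + ε * P) := by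
    rw [t2, mul_left_comm]
    refine (mul_le_mul_of_nonneg_left t1 (by positivity)).trans
      (mul_le_of_le_one_left (by positivity) ?_)
    rw [div_le_one (by linarith)]; exact hγ
  have t4 := mul_le_mul_of_nonneg_right hC (by positivity : 0 ≤ e ^ 3 * h ‖x1‖)
  have t5 := mul_le_mul_of_nonneg_left hv he3.le
  have t6 := mul_nonneg he3.le (mul_nonneg hε.le (c.geo.bp_nonneg x1))
  rw [le_div_iff₀ (by positivity)] at hε0
  have t7 := mul_pos he3 hm
  linarith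

theorem f_bound (hC : 2 * n * P * e ≤ 1) {σ : ℝ} (hσ : |σ| = 1) (x0 : E n) :
    σ * (e ^ 3 * f x0) ≤ T0 := by
  have he := c.e_pos
  obtain ⟨B, hB⟩ := c.f_bdd
  have hB0 : 0 ≤ B := (abs_nonneg _).trans (hB 0)
  have h1 : ∀ y, σ * (e ^ 3 * f y) ≤ e ^ 3 * B := fun y => by
    refine (le_abs_self _).trans ?_
    rw [abs_mul, hσ, one_mul, abs_mul, abs_of_nonneg (by positivity)]
    exact mul_le_mul_of_nonneg_left (hB y) (by positivity)
  by_contra hcon
  push Not at hcon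
  have hpos : 0 < σ * (e ^ 3 * f x0) := c.T0_nonneg.trans_lt hcon
  have ht : Tendsto (fun y : E n => e ^ 3 * B * Real.exp (-e ^ 2 * (‖y‖ - 9 * e⁻¹ ^ 4)))
      (cocompact (E n)) (𝓝 (e ^ 3 * B * 0)) := by
    refine Tendsto.const_mul _ (Real.tendsto_exp_atBot.comp ?_)
    exact (tendsto_atTop_add_const_right _ _ tendsto_norm_cocompact_atTop).const_mul_atTop_of_neg
      (by have := pow_pos he 2; linarith)
  rw [mul_zero] at ht
  have hc : Continuous fun y => σ * (e ^ 3 * f y) :=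
    continuous_const.mul (continuous_const.mul c.f_smooth.continuous)
  obtain ⟨x1, hx1⟩ := hc.exists_forall_ge' x0 (by
    filter_upwards [ht.eventually (gt_mem_nhds hpos),
      tendsto_norm_cocompact_atTop.eventually_ge_atTop (9 * e⁻¹ ^ 4)] with y h2 h3
    exact (c.f_barrier hC (by positivity) (fun y _ => h1 y) h3).trans h2.le)
  have hmax : IsLocalMax (fun y => (σ * e ^ 3) * f y) x1 :=
    Eventually.of_forall fun y => by simpa only [mul_assoc] using hx1 y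
  have hσ0 : σ * e ^ 3 ≠ 0 := mul_ne_zero (by rintro rfl; simp at hσ) (by positivity)
  have hdf : fderiv ℝ f x1 = 0 := by
    have := hmax.fderiv_eq_zero
    rw [fderiv_const_mul (c.f_smooth.differentiable (by simp) x1)] at this
    exact (smul_eq_zero.1 this).resolve_left hσ0
  have hw : wv S.g (ph S e f z) f x1 = 0 := by simp [wv, grad_eq_zero _ hdf]
  have t1 : traceK (gB S e f z) (hessM S.g fun y => (σ * e ^ 3) * f y) x1 ≤ 0 := by
    simpa using traceK_le (T := hessM S.g fun y => (σ * e ^ 3) * f y) c.jd.riemb (mem_univ x1)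
      (c := 0) fun Y => by
        rw [bil_hessM, zero_mul]; exact hess_nonpos_of_max _ (contDiffAt_const.mul c.f2) hmax Y
  rw [traceK_sign c.jd.riemb (mem_univ x1) c.f2] at t1
  have t2 := c.jd.H0_eq (mem_univ x1)
  have t3 := H0_eq_Th c.jd (mem_univ x1) S.K
  rw [c.sl.J, hw] at t3
  simp only [aa, hw, map_zero, mul_zero, add_zero, sub_zero] at t2 t3
  have hq : 0 < ph S e f z x1 / gm S.g (ph S e f z) f x1 :=
    div_pos (c.jd.φ_pos x1 (mem_univ _)) (c.jd.gm_pos (mem_univ _))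
  have t4 : σ * traceK (gB S e f z) (hessM S.g f) x1 ≤ 0 := by
    by_contra hh
    have := mul_pos (pow_pos he 3) (not_le.1 hh)
    linarith
  have t5 := mul_le_mul_of_nonneg_left t4 hq.le
  have t6 : -(σ * traceK S.g S.K x1) ≤ T0 := by
    refine (neg_le_abs _).trans ?_
    rw [abs_mul, hσ, one_mul]; exact c.geo.trK_T x1
  have t7 : σ * (e ^ 3 * f x1) = σ * H0 S.g (ph S e f z) f x1 - σ * traceK S.g S.K x1 := by
    rw [t3]; ring
  rw [t2] at t7
  linarith [hx1 x0]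

theorem g_barrier (hC : (n * (4 * n * (4 * n + 2) * P) + P * (4 * n * P)) * e ≤ 1)
    (hP1 : P * e ≤ 1) (hf : FB e T0 f) : GFar S e f z := by
  intro x0 hx0
  have he := c.e_pos
  have hP := c.P_one
  set ρ := 9 * e⁻¹ ^ 4 with hρ
  have hρ0 : 0 < ρ := by positivity
  have hy : ∀ y, Real.exp (-ell S.g (ph S e f z) f y) = (gm' S e f z y)⁻¹ := fun y => by
    rw [Real.exp_neg, ell, Real.exp_log (c.jd.gm_pos (mem_univ y))]
  have hb : ∀ y : E n, ρ ≤ ‖y‖ → (ρ / ‖y‖) ^ (4 * n) = ρ ^ (4 * n) * ‖y‖ ^ (-((4 * n : ℕ) : ℝ)) :=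
    fun y _ => by rw [Real.rpow_neg (norm_nonneg _), Real.rpow_natCast, div_pow, div_eq_mul_inv]
  have cl : ∀ y, ContDiffAt ℝ 2 (ell S.g (ph S e f z) f) y := fun y =>
    (c.jd.c_ell (mem_univ y)).of_le (by norm_cast)
  by_contra hcon
  push Not at hcon
  obtain ⟨m, hm, H⟩ := ext_max (ρ := ρ) (F := fun y => 1 - ρ ^ (4 * n) * ‖y‖ ^ (-((4 * n : ℕ) : ℝ))
      - Real.exp (-ell S.g (ph S e f z) f y))
    (fun y hy => ((continuousAt_const.sub (continuousAt_const.mul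
      (c.radial_pow hy (Nat.cast_nonneg _)).1.continuousAt)).sub
      (cl y).neg.exp.continuousAt).continuousWithinAt)
    ⟨1, fun y _ => by
      have : 0 ≤ ρ ^ (4 * n) * ‖y‖ ^ (-((4 * n : ℕ) : ℝ)) := by positivity
      linarith [Real.exp_pos (-ell S.g (ph S e f z) f y)]⟩
    (fun y hy' => by
      rw [← hb y hy'.ge, hy', div_self hρ0.ne', one_pow]
      linarith [Real.exp_pos (-ell S.g (ph S e f z) f y)])
    c.geo.bp_b2.smooth.continuous c.geo.bp_nonneg c.geo.bp_top hx0 (by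
      rw [← hb x0 hx0, hy]; linarith)
  obtain ⟨ε, hε, hε0, x1, hx1, hmax, hv⟩ := H (e ^ 3 * m / (4 * (n * P + P * P))) (by positivity)
  obtain ⟨r1, r2, r3⟩ := c.radial_pow hx1.le (a := ((4 * n : ℕ) : ℝ)) (Nat.cast_nonneg _)
  have hr : 1 ≤ ‖x1‖ := c.one_le hx1.le
  have hb0 := c.jd.riemb
  have cy : ContDiffAt ℝ 2 (fun y => Real.exp (-ell S.g (ph S e f z) f y)) x1 := (cl x1).neg.exp
  have cb : ContDiffAt ℝ 2 (fun y : E n => ρ ^ (4 * n) * ‖y‖ ^ (-((4 * n : ℕ) : ℝ))) x1 :=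
    contDiffAt_const.mul r1
  have hbε : ContDiffAt ℝ 2 (fun y => ε * bp y) x1 := contDiffAt_const.mul c.bp2
  have t0 := lap_nonpos_of_max hb0 (mem_univ x1) (((contDiffAt_const.sub cb).sub cy).sub hbε) hmax
  rw [lap_sub hb0 (mem_univ x1) ((contDiffAt_const.sub cb).sub cy) hbε,
    lap_sub hb0 (mem_univ x1) (contDiffAt_const.sub cb) cy,
    lap_sub hb0 (mem_univ x1) contDiffAt_const cb, lap_const,
    lap_const_mul hb0 (mem_univ x1) _ r1, lap_const_mul hb0 (mem_univ x1) _ c.bp2] at t0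
  -- the Laplacian of `y`
  have d1 : deriv (fun t : ℝ => Real.exp (-t)) = fun t => -Real.exp (-t) := by
    funext t; simpa using ((hasDerivAt_neg t).exp).deriv
  have d2 : ∀ t : ℝ, deriv (fun t : ℝ => -Real.exp (-t)) t = Real.exp (-t) := fun t => by
    simpa using ((hasDerivAt_neg t).exp.neg).deriv
  have t1 := lap_comp (φ := fun t => Real.exp (-t)) hb0 (mem_univ x1) (by fun_prop) (cl x1)
  rw [d1, d2, c.jd.lap_gb_ell (mem_univ x1) (c.ph_ev hx1), c.dH0 hx1] at t1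
  simp only [hy x1] at t1 hv
  have hγ := c.jd.one_le_gm (mem_univ x1)
  have hγ0 := c.jd.gm_pos (mem_univ x1)
  have hp0 := c.jd.pp_nonneg (mem_univ x1)
  have hp := c.jd.one_sub_pp (mem_univ x1)
  set y := (gm' S e f z x1)⁻¹ with hyd
  have y0 : 0 < y := inv_pos.2 hγ0
  have y1 : y ≤ 1 := inv_le_one_of_one_le₀ hγ
  rw [← inv_pow] at hp
  change 1 - pp' S e f z x1 = y ^ 2 at hp
  have u1 : y * (gm' S e f z x1 * pp' S e f z x1) = pp' S e f z x1 := by
    rw [← mul_assoc, hyd, inv_mul_cancel₀ hγ0.ne', one_mul]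
  have u2 := mul_nonneg y0.le (Bd.normSqK_nonneg hb0 (mem_univ x1)
    (c.jd.symT_hh.symm x1 (mem_univ x1)))
  have er : e ^ 4 * ρ = 9 := by rw [hρ]; field_simp
  have ur : 1 / ‖x1‖ ≤ e ^ 4 / 9 := by
    rw [div_le_div_iff₀ (by linarith) (by norm_num)]
    nlinarith [mul_le_mul_of_nonneg_left hx1.le (pow_pos he 4).le]
  have u3 : ‖x1‖ ^ (-(n : ℝ)) ≤ e ^ 4 / 9 := by
    refine le_trans ?_ ur
    rw [one_div, ← Real.rpow_neg_one]
    refine Real.rpow_le_rpow_of_exponent_le hr (neg_le_neg ?_)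
    exact_mod_cast (by linarith [c.hn] : 1 ≤ n)
  have u4 : -bil (ricM S.g x1) (wv S.g (ph S e f z) f x1) (wv S.g (ph S e f z) f x1)
      ≤ e ^ 3 / 2 * pp' S e f z x1 := by
    have := (neg_le_abs _).trans (c.geo.Ric_far x1 (wv S.g (ph S e f z) f x1) (c.R_le' hx1.le))
    rw [c.jd.bil_wv_wv (mem_univ x1)] at this
    refine this.trans (mul_le_mul_of_nonneg_right ?_ hp0)
    have v1 := mul_le_mul_of_nonneg_left u3 (by linarith : 0 ≤ P)
    have v2 := mul_le_mul_of_nonneg_right hP1 (pow_pos he 3).le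
    have := pow_pos he 3
    linarith
  have u5 := mul_le_mul_of_nonneg_left u4 y0.le
  have u6 := mul_le_mul_of_nonneg_right y1 (by positivity : 0 ≤ e ^ 3 / 2 * pp' S e f z x1)
  have t2 : laplaceBeltrami (gB S e f z) (fun y => Real.exp (-ell S.g (ph S e f z) f y)) x1
      ≤ -(e ^ 3 / 2 * pp' S e f z x1) := by
    have : e ^ 3 * (y * (gm' S e f z x1 * pp' S e f z x1)) = e ^ 3 * pp' S e f z x1 := by rw [u1]
    linarith
  -- the barrier
  set k := ‖x1‖ ^ (-((4 * n : ℕ) : ℝ)) with hk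
  have k0 : 0 ≤ k := by positivity
  have t3 := (le_abs_self _).trans (c.abs_lapb hx1 r1 (by positivity) (by positivity) r2 r3
    ((hf x1).trans c.geo.T0_le))
  have t4 : (n : ℝ) * (((4 * n : ℕ) : ℝ) * (((4 * n : ℕ) : ℝ) + 2) * P * k / ‖x1‖ ^ 2)
      + P * (((4 * n : ℕ) : ℝ) * k / ‖x1‖ * P) ≤ e ^ 3 / 2 * k := by
    push_cast
    have v1 : 1 / ‖x1‖ ^ 2 ≤ 1 / ‖x1‖ :=
      one_div_le_one_div_of_le (by linarith) (by nlinarith)
    have v2 := mul_le_mul_of_nonneg_left (v1.trans ur)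
      (by positivity : 0 ≤ n * (4 * n * (4 * n + 2) * P) * k)
    have v3 := mul_le_mul_of_nonneg_left ur (by positivity : 0 ≤ P * (4 * n * P) * k)
    have v4 := mul_le_mul_of_nonneg_right hC (by positivity : 0 ≤ e ^ 3 * k)
    have v5 : 0 ≤ e ^ 3 * k := by positivity
    calc _ = n * (4 * n * (4 * n + 2) * P) * k * (1 / ‖x1‖ ^ 2)
          + P * (4 * n * P) * k * (1 / ‖x1‖) := by ring
      _ ≤ _ := by linarith
  have t5 := mul_le_mul_of_nonneg_left (t3.trans t4) (by positivity : 0 ≤ ρ ^ (4 * n))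
  have t6 := mul_le_mul_of_nonneg_left ((le_abs_self _).trans (c.abs_lapb_bp hx1 (hf x1))) hε.le
  have t7 : ρ ^ (4 * n) * k + m ≤ pp' S e f z x1 := by
    have := mul_nonneg hε.le (c.geo.bp_nonneg x1)
    have := mul_le_mul_of_nonneg_left y1 y0.le
    linarith
  have t8 := mul_le_mul_of_nonneg_left t7 (by positivity : 0 ≤ e ^ 3 / 2)
  rw [le_div_iff₀ (by positivity)] at hε0
  have t9 := mul_pos (pow_pos he 3) hm
  linarith

end Ctx
end Fb

theorem s4 : S4Stmt := by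
  intro n hn S hS P T0 R bp hG
  obtain ⟨e1, he1, H⟩ := Fb.exists_e1 R (2 * n * P)
  refine ⟨e1, he1, fun e he hle M z3 an f z hsl hz => ?_⟩
  obtain ⟨h1, h2, h3⟩ := H e he hle
  have c : Fb.Ctx S P T0 R e M z3 bp an f z := ⟨hn, hS, hG, hsl, he, h1, h2, hz⟩
  have b1 := fun x => c.f_bound h3 (σ := 1) (by simp) x
  have b2 := fun x => c.f_bound h3 (σ := -1) (by simp) x
  refine ⟨fun x => abs_le.2 ⟨by linarith [b2 x], by linarith [b1 x]⟩, fun x hx => abs_le.2 ⟨?_, ?_⟩⟩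
  · linarith [c.f_barrier h3 c.T0_nonneg (fun y _ => b2 y) hx]
  · linarith [c.f_barrier h3 c.T0_nonneg (fun y _ => b1 y) hx]

theorem s5 : S5Stmt := by
  intro n hn S hS P T0 R bp hG
  obtain ⟨e1, he1, H⟩ := Fb.exists_e1 R (n * (4 * n * (4 * n + 2) * P) + P * (4 * n * P))
  obtain ⟨e2, he2, H2⟩ := Fb.exists_e1 R P
  refine ⟨min e1 e2, lt_min he1 he2, fun e he hle M z3 an f z hsl hz hf => ?_⟩
  obtain ⟨h1, h2, h3⟩ := H e he (hle.trans (min_le_left _ _))
  have c : Fb.Ctx S P T0 R e M z3 bp an f z := ⟨hn, hS, hG, hsl, he, h1, h2, hz⟩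
  exact c.g_barrier h3 (H2 e he (hle.trans (min_le_right _ _))).2.2 hf

end Crest.Agent.N346.Bd

end
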