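import Crest.Agent.N346.Bd.FarB

/-! Row 346, Part 1 (helper10): S6 (upper barrier for `ψ = γ e^{2z}`). -/

set_option autoImplicit false

open MeasureTheory Filter Set
open scoped ContDiff Topology
open Crest.GeometryTopology.CoordMetric Crest.MathPhysics.ExteriorData
open Crest.Agent.R202.Tens Crest.Agent.R247.Bo84 Crest.Agent.N346.Id Crest.Agent.N346.P1

noncomputable section

namespace Crest.Agent.N346.Bd

variable {n : ℕ} {S : Setup n} {P T0 R e M z3 : ℝ} {bp an f z : E n → ℝ} {x : E n}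

namespace Fb

theorem two_gam_le {G : MetricField n} {U : Set (E n)} (hG : IsRiemannianOn G U) (hx : x ∈ U)
    (u v : E n → ℝ) : |2 * gam G u v x| ≤ gam G u u x + gam G v v x := by
  have h1 := gam_sq_le hG hx u v
  have h2 := gam_self_nonneg hG hx u
  have h3 := gam_self_nonneg hG hx v
  refine abs_le.2 (abs_le_of_sq_le_sq' ?_ (by positivity))
  nlinarith [sq_nonneg (gam G u u x - gam G v v x)]

theorem gam_lin {G : MetricField n} {U : Set (E n)} (hG : IsRiemannianOn G U) (hx : x ∈ U)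
    {u v : E n → ℝ} (hu : ContDiffAt ℝ 2 u x) (hv : ContDiffAt ℝ 2 v x) (k : ℝ) :
    gam G (fun y => u y + k * v y) (fun y => u y + k * v y) x
      = gam G u u x + k * (2 * gam G u v x) + k ^ 2 * gam G v v x := by
  have du := hu.differentiableAt (by norm_num)
  have dv := hv.differentiableAt (by norm_num)
  rw [gam_add_left du (dv.const_mul k), gam_const_mul_left k dv, gam_add_right du (dv.const_mul k),
    gam_add_right du (dv.const_mul k), gam_const_mul_right k dv, gam_const_mul_right k dv,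
    gam_comm hG hx v u]
  ring

theorem lap_log {G : MetricField n} {U : Set (E n)} (hG : IsRiemannianOn G U) (hx : x ∈ U)
    {u : E n → ℝ} (hu : ContDiffAt ℝ 2 u x) (h0 : 0 < u x) {k : ℝ} (hk : 0 ≤ k) :
    ContDiffAt ℝ 2 (fun y => Real.log (1 + k * u y)) x ∧
    gam G (fun y => Real.log (1 + k * u y)) (fun y => Real.log (1 + k * u y)) x
      = (k / (1 + k * u x)) ^ 2 * gam G u u x ∧
    laplaceBeltrami G (fun y => Real.log (1 + k * u y)) x
      = k / (1 + k * u x) * laplaceBeltrami G u x - (k / (1 + k * u x)) ^ 2 * gam G u u x := by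
  have hpos : ∀ t : ℝ, 0 < t → 1 + k * t ≠ 0 := fun t ht => by positivity
  have d1 : ∀ t : ℝ, 0 < t → HasDerivAt (fun t => Real.log (1 + k * t)) (k / (1 + k * t)) t :=
    fun t ht => by simpa using (((hasDerivAt_id t).const_mul k).const_add 1).log (hpos t ht)
  have hc : ContDiffAt ℝ 2 (fun t : ℝ => Real.log (1 + k * t)) (u x) :=
    (contDiffAt_const.add (contDiffAt_const.mul contDiffAt_id)).log (hpos _ h0)
  have e1 := (d1 _ h0).deriv
  have e2 : deriv (deriv fun t => Real.log (1 + k * t)) (u x) = -(k / (1 + k * u x)) ^ 2 := by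
    have : deriv (fun t => Real.log (1 + k * t)) =ᶠ[𝓝 (u x)] fun t => k / (1 + k * t) :=
      (lt_mem_nhds h0).mono fun t ht => (d1 t ht).deriv
    rw [this.deriv_eq]
    have h := ((hasDerivAt_const (u x) k).div
      (((hasDerivAt_id (u x)).const_mul k).const_add 1) (hpos _ h0)).deriv
    refine h.trans ?_
    simp only [id]
    field_simp; ring
  have hd := hc.differentiableAt (by norm_num)
  have hd' := hu.differentiableAt (by norm_num)
  refine ⟨hc.comp x hu, ?_, ?_⟩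
  · rw [gam_comp_left hd hd', gam_comp_right hd hd', e1]; ring
  · rw [lap_comp hG hx hc hu, e1, e2]; ring

namespace Ctx
variable (c : Ctx S P T0 R e M z3 bp an f z)
include c

theorem far5 (hx : e⁻¹ ^ 5 ≤ ‖x‖) : 18 * e⁻¹ ^ 4 ≤ ‖x‖ := by
  have := mul_le_mul_of_nonneg_right c.X_ge (pow_pos (inv_pos.2 c.e_pos) 4).le
  linarith [pow_succ' e⁻¹ 4]

theorem far5' (hx : e⁻¹ ^ 5 ≤ ‖x‖) : 9 * e⁻¹ ^ 4 < ‖x‖ := by
  linarith [c.far5 hx, pow_pos (inv_pos.2 c.e_pos) 4]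

theorem kap (hg : GFar S e f z) (hx : e⁻¹ ^ 5 ≤ ‖x‖) :
    pp' S e f z x ≤ 9 * e ∧ gm' S e f z x ≤ 1 + (e⁻¹ ^ 5 / ‖x‖) ^ a0 n := by
  have he := c.e_pos
  have hr : 0 < ‖x‖ := by linarith [c.one_le (c.far5' hx).le]
  have h1 := hg x (c.far5' hx).le
  have e1 : 9 * e⁻¹ ^ 4 / ‖x‖ = 9 * e * (e⁻¹ ^ 5 / ‖x‖) := by field_simp
  set u := e⁻¹ ^ 5 / ‖x‖ with hu
  have u0 : 0 < u := by positivity
  have u1 : u ≤ 1 := (div_le_one hr).2 hx
  have e9 : 9 * e ≤ 1 / 2 := by linarith [c.e_le]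
  have a1 : (9 * e) ^ (4 * n) ≤ 9 * e / 2 := by
    have := pow_le_pow_of_le_one (by positivity : 0 ≤ 9 * e) (by linarith)
      (by linarith [c.hn] : 2 ≤ 4 * n)
    nlinarith
  have a2 : u ^ (4 * n) ≤ u ^ a0 n := by
    rw [← Real.rpow_natCast]
    refine Real.rpow_le_rpow_of_exponent_ge u0 u1 ?_
    have := a0_le c.hn
    have : (0 : ℝ) ≤ n := Nat.cast_nonneg n
    push_cast; linarith
  have a3 : u ^ a0 n ≤ 1 := Real.rpow_le_one u0.le u1 (by linarith [a0_ge c.hn])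
  rw [e1, mul_pow] at h1
  set κ := (9 * e) ^ (4 * n) * u ^ (4 * n) with hκ
  have κ0 : 0 ≤ κ := by positivity
  have κ1 : κ ≤ 9 * e / 2 * u ^ a0 n := mul_le_mul a1 a2 (by positivity) (by positivity)
  have b0 : 0 ≤ u ^ a0 n := by positivity
  have κ2 : κ ≤ 9 * e / 2 := κ1.trans (mul_le_of_le_one_right (by positivity) a3)
  have κ3 : κ ≤ u ^ a0 n / 4 := κ1.trans (by nlinarith)
  have hγ0 := c.jd.gm_pos (mem_univ x)
  have hγ := c.jd.one_le_gm (mem_univ x)
  have hp := c.jd.one_sub_pp (mem_univ x)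
  rw [← inv_pow] at hp
  constructor
  · change pp S.g (ph S e f z) f x ≤ _
    nlinarith [sq_nonneg (1 - (gm S.g (ph S e f z) f x)⁻¹)]
  · have := mul_le_mul_of_nonneg_left h1 hγ0.le
    rw [mul_inv_cancel₀ hγ0.ne'] at this
    change gm S.g (ph S e f z) f x ≤ _
    by_contra hc
    have := mul_lt_mul_of_pos_right (not_le.1 hc) (show 0 < 1 - κ by linarith)
    nlinarith

theorem t_far (hf : FFar e T0 f) (hx : e⁻¹ ^ 5 ≤ ‖x‖) : |e ^ 3 * f x| ≤ 8 * P * e / ‖x‖ := by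
  have he := c.e_pos
  have hr : 0 < ‖x‖ := by linarith [c.one_le (c.far5' hx).le]
  have hP := c.P_one
  refine (hf x (c.far5' hx).le).trans ?_
  set v := e ^ 2 * ‖x‖ / 2 with hv
  have v0 : 0 < v := by positivity
  have a1 : Real.exp (-e ^ 2 * (‖x‖ - 9 * e⁻¹ ^ 4)) ≤ Real.exp (-v) := by
    refine Real.exp_le_exp.2 ?_
    have := mul_le_mul_of_nonneg_left (c.far5 hx) (pow_pos he 2).le
    linarith
  have a2 : Real.exp (-v) ≤ 2 / v ^ 2 := by
    rw [Real.exp_neg, inv_eq_one_div, div_le_div_iff₀ (Real.exp_pos _) (by positivity)]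
    linarith [Real.quadratic_le_exp_of_nonneg v0.le]
  have a3 : 2 / v ^ 2 ≤ 8 * e / ‖x‖ := by
    rw [div_le_div_iff₀ (by positivity) hr]
    have b1 := mul_le_mul_of_nonneg_left hx (pow_pos he 5).le
    rw [← mul_pow, mul_inv_cancel₀ he.ne', one_pow] at b1
    have b2 := mul_le_mul_of_nonneg_right b1 hr.le
    calc _ ≤ 2 * (e ^ 5 * ‖x‖ * ‖x‖) := by linarith
      _ = _ := by rw [hv]; ring
  calc _ ≤ P * (8 * e / ‖x‖) := mul_le_mul c.geo.T0_le (a1.trans (a2.trans a3))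
        (Real.exp_pos _).le (by linarith)
    _ = _ := by ring

theorem lapb_pow (hC : 2 * P * (n * (n + 2) * P * 9 + 8 * P * (n * P)) * e ≤ 1)
    (hf : FFar e T0 f) (hg : GFar S e f z) (hx : e⁻¹ ^ 5 ≤ ‖x‖) :
    laplaceBeltrami (gB S e f z) (fun y => ‖y‖ ^ (-a0 n)) x
      ≤ -(‖x‖ ^ (-a0 n) / ‖x‖ ^ 2 / (2 * P)) := by
  have he := c.e_pos
  have hx' := c.far5' hx
  have hr : 0 < ‖x‖ := by linarith [c.one_le hx'.le]
  have hP := c.P_one
  have ha0 : 0 ≤ a0 n := by linarith [a0_ge c.hn]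
  have ha1 : a0 n ≤ n := by linarith [a0_le c.hn]
  obtain ⟨r1, r2, r3⟩ := c.radial_pow hx'.le ha0
  rw [c.lapb hx' r1, c.jd.traceK_gb (mem_univ x), ← lap_eq_traceK c.geo.riem (mem_univ x) r1,
    bil_hessM]
  have a1 := c.geo.lap_r x (c.R_le' hx'.le)
  rw [show -a0 n - 2 = -a0 n - (2 : ℕ) by norm_num, Real.rpow_sub_natCast hr.ne'] at a1
  have a2 := (neg_le_abs _).trans (r2 (wv S.g (ph S e f z) f x))
  rw [c.jd.bil_wv_wv (mem_univ x)] at a2
  have a3 : -(e ^ 3 * f x * fderiv ℝ (fun y : E n => ‖y‖ ^ (-a0 n)) x (wv S.g (ph S e f z) f x))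
      ≤ 8 * P * e / ‖x‖ * (a0 n * ‖x‖ ^ (-a0 n) / ‖x‖ * P) := by
    refine (neg_le_abs _).trans ?_
    rw [abs_mul]
    exact mul_le_mul (c.t_far hf hx) (c.dw_le (by positivity) r3) (abs_nonneg _) (by positivity)
  set k := ‖x‖ ^ (-a0 n) / ‖x‖ ^ 2 with hk
  have k0 : 0 ≤ k := by positivity
  have a4 : a0 n * (a0 n + 2) * P * ‖x‖ ^ (-a0 n) / ‖x‖ ^ 2 * pp S.g (ph S e f z) f x
      ≤ n * (n + 2) * P * k * (9 * e) := by
    rw [mul_div_assoc]
    have := (c.kap hg hx).1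
    have := c.jd.pp_nonneg (mem_univ x)
    gcongr
  have a5 : 8 * P * e / ‖x‖ * (a0 n * ‖x‖ ^ (-a0 n) / ‖x‖ * P) ≤ 8 * P * (n * P) * e * k := by
    calc _ = 8 * P * (a0 n * P) * e * k := by rw [hk]; field_simp
      _ ≤ _ := by gcongr
  have a6 : (n * (n + 2) * P * 9 + 8 * P * (n * P)) * e * k ≤ k / (2 * P) := by
    rw [le_div_iff₀ (by positivity)]
    linarith [mul_le_mul_of_nonneg_right hC k0]
  have e1 : P⁻¹ * k = 2 * (k / (2 * P)) := by field_simp
  linarith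

/-- the `W`-inequality in the far region -/
theorem W_far (hx : 9 * e⁻¹ ^ 4 < ‖x‖) :
    -(4 * P * ‖x‖ ^ (-(n : ℝ))) + an x * z x
      ≤ laplaceBeltrami (gB S e f z) (fun y => ell S.g (ph S e f z) f y + 2 * z y) x
        + gam (gB S e f z) (fun y => ell S.g (ph S e f z) f y + 2 * z y)
          (fun y => ell S.g (ph S e f z) f y + 2 * z y) x := by
  have he := c.e_pos
  have hP := c.P_one
  have hb := c.jd.riemb
  have hr := c.one_le hx.le
  have cl : ContDiffAt ℝ 2 (ell S.g (ph S e f z) f) x :=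
    (c.jd.c_ell (mem_univ x)).of_le (by norm_cast)
  have cz : ContDiffAt ℝ 2 z x := c.z_smooth.contDiffAt.of_le (by norm_cast)
  rw [gam_lin hb (mem_univ x) cl cz, lap_add hb (mem_univ x) cl (contDiffAt_const.mul cz),
    lap_const_mul hb (mem_univ x) 2 cz]
  have w := c.jd.id_W (mem_univ x)
  have e1 : (fun y => pp S.g (ph S e f z) f y • Vv S.g (ph S e f z) f y
      + grad (gB S e f z) (ell S.g (ph S e f z) f) y)
      =ᶠ[𝓝 x] grad (gB S e f z) (ell S.g (ph S e f z) f) :=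
    mem_of_superset ((isOpen_lt continuous_const continuous_norm).mem_nhds hx) fun y hy => by
      simp [c.Vv_far hy]
  have e2 := c.jd.grad_gb_ell (mem_univ x)
  rw [c.aa_far hx, mul_zero, zero_smul, sub_zero] at e2
  rw [divg_congr e1, divg_grad, c.Vv_far hx, c.aa_far hx, c.dH0 hx, c.H0_far hx.le, ← e2,
    ← gam_eq_bil hb (mem_univ x), map_zero] at w
  have u := c.sl.U x
  have rh := c.rhs_far hx.le
  have g1 := (abs_le.1 (two_gam_le hb (mem_univ x) (ell S.g (ph S e f z) f) z)).1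
  have g2 : al n * gam (gB S e f z) z z x ≤ 1 * gam (gB S e f z) z z x := by
    refine mul_le_mul_of_nonneg_right ?_ (gam_self_nonneg hb (mem_univ x) z)
    have : (3 : ℝ) ≤ n := by exact_mod_cast c.hn
    rw [al, div_le_one (by linarith)]; linarith
  have g3 := gam_self_nonneg hb (mem_univ x) z
  have hp0 := c.jd.pp_nonneg (mem_univ x)
  have g4 := mul_le_mul_of_nonneg_left (le_mul_of_one_le_left hp0 (c.jd.one_le_gm (mem_univ x)))
    (pow_pos he 3).le
  have k0 : 0 ≤ P * ‖x‖ ^ (-(n : ℝ)) := by positivity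
  have b1 : -scalarCurv S.g x ≤ P * ‖x‖ ^ (-(n : ℝ)) := by
    refine ((neg_le_abs _).trans (c.geo.R_far x (c.R_le' hx.le))).trans
      (mul_le_mul_of_nonneg_left ?_ (by linarith))
    exact Real.rpow_le_rpow_of_exponent_le hr (by linarith [c.ok.good.e0_pos])
  have b2 := (le_abs_self _).trans
    (c.geo.Ric_far x (wv S.g (ph S e f z) f x) (c.R_le' hx.le))
  rw [c.jd.bil_wv_wv (mem_univ x)] at b2
  have b3 := mul_le_mul_of_nonneg_left (c.jd.pp_lt_one (mem_univ x)).le k0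
  have b4 : S.mw x ≤ P * ‖x‖ ^ (-(n : ℝ)) :=
    (c.geo.mw_hi x).trans (mul_le_mul_of_nonneg_left (Real.rpow_le_rpow_of_nonpos (by linarith)
      (by linarith) (neg_nonpos.2 (Nat.cast_nonneg n))) (by linarith))
  linarith

set_option maxHeartbeats 400000 in
theorem p_barrier (hC : 2 * P * (n * (n + 2) * P * 9 + 8 * P * (n * P)) * e ≤ 1)
    (hC2 : 20 * P ^ 2 * e ≤ 1) (hf : FFar e T0 f) (hg : GFar S e f z) : PFar S e f z := by
  intro Mb hMb hs x0 hx0
  have he := c.e_pos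
  have hP := c.P_one
  have hX := c.X_ge
  have ha0 : 0 ≤ a0 n := by linarith [a0_ge c.hn]
  set ρ := e⁻¹ ^ 5 with hρ
  have hρ0 : 0 < ρ := by positivity
  have hρa : e⁻¹ ≤ ρ ^ a0 n := by
    rw [hρ, ← Real.rpow_natCast, ← Real.rpow_mul (by positivity)]
    conv_lhs => rw [← Real.rpow_one e⁻¹]
    exact Real.rpow_le_rpow_of_exponent_le (by linarith) (by push_cast; linarith [a0_ge c.hn])
  have hb : ∀ y : E n, (ρ / ‖y‖) ^ a0 n = ρ ^ a0 n * ‖y‖ ^ (-a0 n) := fun y => by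
    rw [Real.div_rpow hρ0.le (norm_nonneg _), Real.rpow_neg (norm_nonneg _), div_eq_mul_inv]
  set k := Mb * ρ ^ a0 n with hk
  have k0 : 0 ≤ k := by positivity
  have hB : ∀ y : E n, 1 + Mb * (ρ / ‖y‖) ^ a0 n = 1 + k * ‖y‖ ^ (-a0 n) := fun y => by
    rw [hb, hk]; ring
  have hψ : ∀ y, Real.log (psi S e f z y) = ell S.g (ph S e f z) f y + 2 * z y := fun y => by
    rw [psi, Real.log_mul (c.jd.gm_pos (mem_univ y)).ne' (Real.exp_pos _).ne', Real.log_exp, ell]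
  have hψ0 : ∀ y, 0 < psi S e f z y := fun y =>
    mul_pos (c.jd.gm_pos (mem_univ y)) (Real.exp_pos _)
  have cG : ∀ y, ContDiffAt ℝ 2 (fun y => ell S.g (ph S e f z) f y + 2 * z y) y := fun y =>
    ((c.jd.c_ell (mem_univ y)).of_le (by norm_cast)).add
      (contDiffAt_const.mul (c.z_smooth.contDiffAt.of_le (by norm_cast)))
  have hb0 := c.jd.riemb
  have hL := fun (y : E n) (hy : ρ ≤ ‖y‖) => lap_log hb0 (mem_univ y)
    (c.radial_pow (c.far5' hy).le ha0).1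
    (Real.rpow_pos_of_pos (by linarith [c.one_le (c.far5' hy).le]) _) k0
  have hbb : ∀ y : E n, ρ ≤ ‖y‖ → (ρ / ‖y‖) ^ a0 n ≤ 1 := fun y hy =>
    Real.rpow_le_one (by positivity) ((div_le_one (by linarith)).2 hy) ha0
  have hγ : ∀ y : E n, ρ ≤ ‖y‖ → ell S.g (ph S e f z) f y ≤ Real.log (1 + k * ‖y‖ ^ (-a0 n)) :=
    fun y hy => by
      refine Real.log_le_log (c.jd.gm_pos (mem_univ y)) ((c.kap hg hy).2.trans ?_)
      rw [← hB]
      have := mul_le_mul_of_nonneg_right hMb (by positivity : 0 ≤ (ρ / ‖y‖) ^ a0 n)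
      linarith
  by_contra hcon
  push Not at hcon
  obtain ⟨Bz, hBz⟩ := c.z_bdd
  obtain ⟨m, hm, H⟩ := ext_max (ρ := ρ) (F := fun y => (ell S.g (ph S e f z) f y + 2 * z y)
      - Real.log (1 + k * ‖y‖ ^ (-a0 n)))
    (fun y hy => ((cG y).continuousAt.sub (hL y hy).1.continuousAt).continuousWithinAt)
    ⟨2 * Bz, fun y hy => by linarith [hγ y hy, le_abs_self (z y), hBz y]⟩
    (fun y hy => by
      rw [← hψ, ← hB, hy, div_self hρ0.ne', Real.one_rpow, mul_one, sub_nonpos]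
      exact Real.log_le_log (hψ0 y) (hs y hy))
    c.geo.bp_b2.smooth.continuous c.geo.bp_nonneg c.geo.bp_top hx0 (by
      rw [← hψ, ← hB, sub_pos]
      exact Real.log_lt_log (by positivity) hcon)
  obtain ⟨R', hR'⟩ := c.sl.anch (m / 2) (by positivity)
  set C := n * P + P * P + (n ^ 2 * P + P) + P with hCd
  have C0 : 0 < C := by positivity
  set η := min (m / 2) ((max R' 1) ^ (-(n : ℝ))) with hη
  have η0 : 0 < η := lt_min (by positivity) (Real.rpow_pos_of_pos (by positivity) _)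
  obtain ⟨ε, hε, hε0, x1, hx1, hmax, hv⟩ := H (min 1 (η / (2 * C))) (by positivity)
  obtain ⟨ε1, ε2⟩ := le_min_iff.1 hε0
  have hx1' := c.far5' hx1.le
  have hr : 1 ≤ ‖x1‖ := c.one_le hx1'.le
  obtain ⟨l1, l2, l3⟩ := hL x1 hx1.le
  have hbε : ContDiffAt ℝ 2 (fun y => ε * bp y) x1 := contDiffAt_const.mul c.bp2
  have hm2 : IsLocalMax (fun y => (ell S.g (ph S e f z) f y + 2 * z y)
      - (Real.log (1 + k * ‖y‖ ^ (-a0 n)) + ε * bp y)) x1 := by simpa only [sub_sub] using hmax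
  have t1 := lap_le_of_max hb0 (mem_univ x1) (cG x1) (l1.add hbε) hm2
  rw [lap_add hb0 (mem_univ x1) l1 hbε, lap_const_mul hb0 (mem_univ x1) _ c.bp2, l3] at t1
  have hd := (touch_of_max (cG x1) (l1.add hbε) hm2).1
  have t2 := c.W_far hx1'
  rw [gam_congr_fderiv hd hd, gam_lin hb0 (mem_univ x1) l1 c.bp2] at t2
  have t3 := (le_abs_self _).trans (two_gam_le hb0 (mem_univ x1)
    (fun y => Real.log (1 + k * ‖y‖ ^ (-a0 n))) bp)
  have t4 : gam (gB S e f z) bp bp x1 ≤ P :=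
    (gam_gb_le c.jd (mem_univ x1) bp).trans (c.geo.bp_b2.d_le x1)
  set u := ‖x1‖ ^ (-a0 n) with hu
  have u0 : 0 < u := Real.rpow_pos_of_pos (by linarith) _
  have B0 : 0 < 1 + k * u := by positivity
  have t5 : (k / (1 + k * u)) ^ 2 * gam (gB S e f z) (fun y => ‖y‖ ^ (-a0 n))
      (fun y => ‖y‖ ^ (-a0 n)) x1 ≤ n ^ 2 * P := by
    refine (mul_le_mul_of_nonneg_left ((gam_gb_le c.jd (mem_univ x1) _).trans
      (c.radial_pow hx1'.le ha0).2.2) (sq_nonneg _)).trans ?_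
    rw [← mul_assoc, ← mul_pow]
    refine mul_le_mul_of_nonneg_right (pow_le_pow_left₀ (by positivity) ?_ 2) (by linarith)
    have v1 : k * u / (1 + k * u) ≤ 1 := by rw [div_le_one B0]; linarith
    have v2 : a0 n / ‖x1‖ ≤ n := (div_le_self ha0 hr).trans (by linarith [a0_le c.hn])
    calc _ = k * u / (1 + k * u) * (a0 n / ‖x1‖) := by rw [hu]; ring
      _ ≤ 1 * n := mul_le_mul v1 v2 (by positivity) zero_le_one
      _ = n := one_mul _
  have hT : |e ^ 3 * f x1| ≤ T0 := (hf x1 hx1'.le).trans (mul_le_of_le_one_right c.T0_nonneg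
    (Real.exp_le_one_iff.2 (mul_nonpos_of_nonpos_of_nonneg (neg_nonpos.2 (sq_nonneg e))
      (sub_nonneg.2 hx1'.le))))
  have t6 := (le_abs_self _).trans (c.abs_lapb_bp hx1' hT)
  rw [l2] at t2 t3
  have t7 : ε * laplaceBeltrami (gB S e f z) bp x1 + ε * (2 * gam (gB S e f z)
      (fun y => Real.log (1 + k * ‖y‖ ^ (-a0 n))) bp x1) + ε ^ 2 * gam (gB S e f z) bp bp x1
      ≤ ε * C := by
    have v1 := mul_le_mul_of_nonneg_left t6 hε.le
    have v2 := mul_le_mul_of_nonneg_left (t3.trans (add_le_add t5 t4)) hε.le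
    have v3 : ε ^ 2 * gam (gB S e f z) bp bp x1 ≤ ε * P :=
      mul_le_mul (pow_le_of_le_one hε.le ε1 two_ne_zero) t4
        (gam_self_nonneg hb0 (mem_univ x1) bp) hε.le
    rw [hCd]; linarith
  -- the barrier term
  have t8 : k / (1 + k * u) * laplaceBeltrami (gB S e f z) (fun y => ‖y‖ ^ (-a0 n)) x1
      ≤ -(5 * P * ‖x1‖ ^ (-(n : ℝ))) := by
    have v1 : ρ ^ a0 n / 2 ≤ k / (1 + k * u) := by
      rw [div_le_div_iff₀ (by norm_num) B0, ← hB]
      have w1 := mul_le_mul_of_nonneg_left (hbb x1 hx1.le) (by linarith : 0 ≤ Mb)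
      have w2 : 1 + Mb * (ρ / ‖x1‖) ^ a0 n ≤ 2 * Mb := by linarith
      have := mul_le_mul_of_nonneg_left w2 (by positivity : 0 ≤ ρ ^ a0 n)
      rw [hk]; linarith
    have v2 : ‖x1‖ ^ (-(n : ℝ)) ≤ u / ‖x1‖ ^ 2 := by
      rw [hu, ← Real.rpow_sub_natCast (by linarith)]
      exact Real.rpow_le_rpow_of_exponent_le hr (by push_cast; linarith [a0_le c.hn])
    have v3 : 20 * P ^ 2 ≤ e⁻¹ := by rw [← one_div, le_div_iff₀ he]; exact hC2
    have v4 : 10 * P ^ 2 * (‖x1‖ ^ (-(n : ℝ)) / (2 * P))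
        ≤ k / (1 + k * u) * (u / ‖x1‖ ^ 2 / (2 * P)) :=
      mul_le_mul (by linarith) (by gcongr) (by positivity) (by positivity)
    have v5 := mul_le_mul_of_nonneg_left (c.lapb_pow hC hf hg hx1.le)
      (by positivity : 0 ≤ k / (1 + k * u))
    have e1 : 10 * P ^ 2 * (‖x1‖ ^ (-(n : ℝ)) / (2 * P)) = 5 * P * ‖x1‖ ^ (-(n : ℝ)) := by
      field_simp; ring
    linarith
  have n0 : 0 ≤ ‖x1‖ ^ (-(n : ℝ)) := by positivity
  have t9 : ‖x1‖ ^ (-(n : ℝ)) + an x1 * z x1 ≤ η / 2 := by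
    rw [le_div_iff₀ (by positivity)] at ε2
    linarith [mul_le_mul_of_nonneg_right hP n0]
  have hz : m / 2 ≤ z x1 := by
    linarith [hγ x1 hx1.le, mul_nonneg hε.le (c.geo.bp_nonneg x1)]
  rcases le_total R' ‖x1‖ with h | h
  · rw [hR' x1 h (hz.trans (le_abs_self _)), one_mul] at t9
    linarith [min_le_left (m / 2) ((max R' 1) ^ (-(n : ℝ)))]
  · have v1 : (max R' 1) ^ (-(n : ℝ)) ≤ ‖x1‖ ^ (-(n : ℝ)) :=
      Real.rpow_le_rpow_of_nonpos (by linarith) (h.trans (le_max_left _ _))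
        (neg_nonpos.2 (Nat.cast_nonneg n))
    have v2 := mul_nonneg (c.sl.an_mem x1).1 (show 0 ≤ z x1 by linarith)
    linarith [min_le_right (m / 2) ((max R' 1) ^ (-(n : ℝ)))]

end Ctx
end Fb

theorem s6 : S6Stmt := by
  intro n hn S hS P T0 R bp hG
  obtain ⟨e1, he1, H⟩ := Fb.exists_e1 R (2 * P * (n * (n + 2) * P * 9 + 8 * P * (n * P)))
  obtain ⟨e2, he2, H2⟩ := Fb.exists_e1 R (20 * P ^ 2)
  refine ⟨min e1 e2, lt_min he1 he2, fun e he hle M z3 an f z hsl hz hf hg => ?_⟩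
  obtain ⟨h1, h2, h3⟩ := H e he (hle.trans (min_le_left _ _))
  have c : Fb.Ctx S P T0 R e M z3 bp an f z := ⟨hn, hS, hG, hsl, he, h1, h2, hz⟩
  exact c.p_barrier h3 (H2 e he (hle.trans (min_le_right _ _))).2.2 hf hg

end Crest.Agent.N346.Bd

end
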