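import Crest.Agent.N346.Bd.Lin

/-! Row 346, Part 1 (helper11): the pointwise energy inequality `s7a : S7aStmt`. -/

set_option autoImplicit false

open MeasureTheory Filter Set
open scoped ContDiff Topology
open Crest.GeometryTopology.CoordMetric Crest.MathPhysics.ExteriorData
open Crest.Agent.R202.Tens Crest.Agent.R247.Bo84 Crest.Agent.N346.Id Crest.Agent.N346.P1

noncomputable section

namespace Crest.Agent.N346.Bd

namespace S7a

variable {n : ℕ}

/-! ### the step function -/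

theorem cut_nonneg (a b t : ℝ) : 0 ≤ cut a b t := Real.smoothTransition.nonneg _

theorem cut_le_one (a b t : ℝ) : cut a b t ≤ 1 := Real.smoothTransition.le_one _

theorem cut_one {a b t : ℝ} (hab : a < b) (h : b ≤ t) : cut a b t = 1 :=
  Real.smoothTransition.one_of_one_le ((one_le_div (sub_pos.2 hab)).2 (by linarith))

theorem cut_zero {a b t : ℝ} (hab : a < b) (h : t ≤ a) : cut a b t = 0 :=
  Real.smoothTransition.zero_of_nonpos
    (div_nonpos_of_nonpos_of_nonneg (sub_nonpos.2 h) (sub_pos.2 hab).le)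

theorem contDiff_cut (a b : ℝ) : ContDiff ℝ 1 (cut a b) :=
  Real.smoothTransition.contDiff.comp ((contDiff_id.sub contDiff_const).div_const _)

theorem cut_has (a b t : ℝ) : HasDerivAt (cut a b) (deriv (cut a b) t) t :=
  ((contDiff_cut a b).differentiable one_ne_zero t).hasDerivAt

theorem cut_deriv_nonneg {a b : ℝ} (hab : a < b) (t : ℝ) : 0 ≤ deriv (cut a b) t :=
  Monotone.deriv_nonneg fun _ _ h => Real.smoothTransition.monotone
    (div_le_div_of_nonneg_right (by linarith) (by linarith))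

theorem exists_cut_bound {a b : ℝ} (hab : a < b) : ∃ C ≥ (0 : ℝ), ∀ t, deriv (cut a b) t ^ 2 ≤ C := by
  have hc : Continuous (deriv (cut a b)) := (contDiff_cut a b).continuous_deriv le_rfl
  obtain ⟨C, hC⟩ := (isCompact_Icc (a := a) (b := b)).exists_bound_of_continuousOn
    (hc.pow 2).continuousOn
  refine ⟨max 0 C, le_max_left _ _, fun s => ?_⟩
  by_cases hs : s ∈ Icc a b
  · exact ((le_abs_self _).trans (hC s hs)).trans (le_max_right _ _)
  · have : deriv (cut a b) s = 0 := by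
      rcases not_and_or.1 hs with h | h
      · exact IsLocalMin.deriv_eq_zero (.of_forall fun y =>
          (cut_zero hab (not_le.1 h).le).le.trans (cut_nonneg _ _ _))
      · exact IsLocalMax.deriv_eq_zero (.of_forall fun y =>
          (cut_le_one _ _ _).trans (cut_one hab (not_le.1 h).le).ge)
    rw [this]; simp

/-! ### real inequalities -/

theorem amgm {D A B : ℝ} (h : D ^ 2 ≤ A * B) (hA : 0 ≤ A) (hB : 0 ≤ B) : -(A + B) ≤ 2 * D := by
  have h1 : |2 * D| ≤ A + B := abs_le_of_sq_le_sq (by nlinarith [sq_nonneg (A - B)]) (by linarith)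
  exact (abs_le.1 h1).1

theorem quad {α Q N D : ℝ} (h1 : 1 / 2 ≤ α) (h2 : α ≤ 1) (hQ : 0 ≤ Q) (hN : 0 ≤ N)
    (h : D ^ 2 ≤ N * Q) : (Q + N) / 12 + N / 12 ≤ 2 * Q + 2 * α * D + α * N := by
  have h3 : α ^ 2 ≤ 23 / 12 * (α - 1 / 6) := by nlinarith
  have h4 : (α * D) ^ 2 ≤ (23 / 12 * Q) * ((α - 1 / 6) * N) :=
    calc (α * D) ^ 2 = α ^ 2 * D ^ 2 := by ring
      _ ≤ (23 / 12 * (α - 1 / 6)) * (N * Q) := mul_le_mul h3 h (sq_nonneg _) (by linarith)
      _ = _ := by ring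
  have := amgm h4 (by positivity) (mul_nonneg (by linarith) hN)
  linarith

/-- the region `s(z) = 0`: the penalty pays everything. -/
theorem pay0 {e φ A dd N G C1 C2 : ℝ} (he : 0 < e) (he1 : e ≤ 1) (hC1 : 0 ≤ C1) (hC2 : 0 ≤ C2)
    (hs : e * (C2 + 12 * C1) ≤ 1) (hφ : e ^ 2 ≤ φ) (hdd : 0 ≤ dd) (hN : 0 ≤ N)
    (hA : 0 ≤ A ∨ (dd = 1 ∧ -C2 ≤ A))
    (hG : 0 ≤ G ∨ (dd = 1 ∧ -(φ * N / 12 + 12 * C1 / φ) ≤ 2 * G)) :
    0 ≤ φ * (A + (e ^ 6)⁻¹ * dd) + φ * N / 12 + 2 * G := by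
  have hφ0 : 0 < φ := lt_of_lt_of_le (by positivity) hφ
  have hA' : -C2 ≤ A := by rcases hA with h | h; exacts [by linarith, h.2]
  have hk : C2 + 12 * C1 / e ^ 4 ≤ (e ^ 6)⁻¹ := by
    rw [inv_eq_one_div, le_div_iff₀ (by positivity)]
    have e1 : (C2 + 12 * C1 / e ^ 4) * e ^ 6 = e * (e ^ 5 * C2 + e * (12 * C1)) := by
      field_simp
    have e5 : e ^ 5 ≤ 1 := pow_le_one₀ he.le he1
    rw [e1]
    exact le_trans (mul_le_mul_of_nonneg_left (add_le_add (mul_le_of_le_one_left hC2 e5)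
      (mul_le_of_le_one_left (by positivity) he1)) he.le) hs
  have hk0 : 0 ≤ 12 * C1 / e ^ 4 := by positivity
  have hφN : 0 ≤ φ * N / 12 := by positivity
  rcases hG with hG | ⟨h1, hG⟩
  · have : 0 ≤ A + (e ^ 6)⁻¹ * dd := by
      rcases hA with h | h
      · positivity
      · rw [h.1]; linarith [h.2]
    positivity
  · have h2 : 12 * C1 / φ ≤ φ * (12 * C1 / e ^ 4) := by
      rw [div_le_iff₀ hφ0]
      calc 12 * C1 = (e ^ 2) ^ 2 * (12 * C1 / e ^ 4) := by field_simp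
        _ ≤ φ ^ 2 * (12 * C1 / e ^ 4) := by gcongr
        _ = _ := by ring
    have h3 : φ * (12 * C1 / e ^ 4) ≤ φ * (A + (e ^ 6)⁻¹ * dd) := by
      rw [h1]; gcongr; linarith
    linarith

/-- the region `s(z) ≠ 0`: the volume factor `γ` is absorbed by `τ γ² p`. -/
theorem pay1 {e γ p a : ℝ} (he : 0 < e) (hγ : 1 ≤ γ) (hp : γ ^ 2 * (1 - p) = 1) :
    -(e ^ 2 * a + e * a ^ 2) ≤ γ * (-(e ^ 2 * a) + 11 / 12 * (e ^ 3 * γ * p)) := by
  have h1 : γ * (γ * p) = γ ^ 2 - 1 := by linarith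
  have h2 : (γ - 1) ^ 2 ≤ γ ^ 2 - 1 := by nlinarith
  have h3 : e * (γ - 1) * a ≤ 11 / 12 * (e * (γ - 1)) ^ 2 + a ^ 2 := by
    nlinarith [sq_nonneg (e * (γ - 1) - a), sq_nonneg (e * (γ - 1)), sq_nonneg a]
  have h4 : (e * (γ - 1)) ^ 2 ≤ e ^ 2 * (γ ^ 2 - 1) := by rw [mul_pow]; gcongr
  have h5 : e * (e * (γ - 1) * a) ≤ e * (11 / 12 * (e ^ 2 * (γ ^ 2 - 1)) + a ^ 2) := by
    gcongr; linarith
  have h6 : γ * (-(e ^ 2 * a) + 11 / 12 * (e ^ 3 * γ * p))
      = -(e ^ 2 * a) - e * (e * (γ - 1) * a) + 11 / 12 * (e ^ 3 * (γ * (γ * p))) := by ring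
  rw [h6, h1]
  nlinarith

/-- the potential terms where `s(z) ≠ 0`. -/
theorem pay2 {e A sz cw dd w P C1 C2 Rn : ℝ} (he : 0 < e) (he1 : e ≤ 1) (hC1 : 0 ≤ C1)
    (hC2 : 0 ≤ C2) (hs : e * (C2 + 12 * C1) ≤ 1) (h0 : 0 ≤ sz) (h1 : sz ≤ 1) (hdd : 0 ≤ dd)
    (hw : 0 ≤ w) (hRn : 0 ≤ Rn) (hcw : cw ≤ P * w)
    (hA : 0 ≤ A ∨ (1 ≤ Rn * w ∧ dd = 1 ∧ -C2 ≤ A)) :
    -(sz * (P + C2 * Rn) * w) ≤ A - sz * cw + (1 - sz) * ((e ^ 6)⁻¹ * dd) := by
  have c1 : sz * cw ≤ sz * (P * w) := mul_le_mul_of_nonneg_left hcw h0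
  have c2 : 0 ≤ 1 - sz := sub_nonneg.2 h1
  have c3 : 0 ≤ sz * (C2 * (Rn * w)) := by positivity
  rcases hA with hA | ⟨a1, a2, a3⟩
  · have : 0 ≤ (1 - sz) * ((e ^ 6)⁻¹ * dd) := by positivity
    linarith
  · have c4 : C2 ≤ (e ^ 6)⁻¹ := by
      rw [inv_eq_one_div, le_div_iff₀ (by positivity)]
      have c5 : e ^ 6 ≤ e := pow_le_of_le_one he.le he1 (by norm_num)
      have c6 := mul_le_mul_of_nonneg_left c5 hC2
      have c7 : 0 ≤ e * C1 := by positivity
      linarith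
    have c6 : sz * C2 ≤ sz * (C2 * (Rn * w)) :=
      mul_le_mul_of_nonneg_left (le_mul_of_one_le_right hC2 a1) h0
    have c7 : (1 - sz) * C2 ≤ (1 - sz) * ((e ^ 6)⁻¹ * dd) := by
      rw [a2, mul_one]; exact mul_le_mul_of_nonneg_left c4 c2
    linarith

theorem pay3 {e γ p sz w C3 X Y vol u P : ℝ} (he : 0 < e) (hγ : 1 ≤ γ) (hp : γ ^ 2 * (1 - p) = 1)
    (h0 : 0 ≤ sz) (h1 : sz ≤ 1) (hw : 0 ≤ w) (hC : 0 ≤ C3) (hX : -(sz * C3 * w) ≤ X) (hY : 0 ≤ Y)
    (hvol : 0 ≤ vol) (hu : 0 ≤ u) (hu1 : u ≤ 1) (hP : vol ≤ P) :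
    -(P * (C3 + C3 ^ 2) * (e ^ 2 * sz * w + e * w ^ 2))
      ≤ γ * vol * (u * (e ^ 2 * X + Y + 11 / 12 * (e ^ 3 * γ * p))) := by
  have h5 := pay1 (a := sz * C3 * w) he hγ hp
  have h6 : γ * (-(e ^ 2 * (sz * C3 * w)) + 11 / 12 * (e ^ 3 * γ * p)) ≤ γ *
      (e ^ 2 * X + Y + 11 / 12 * (e ^ 3 * γ * p)) := by
    have c1 := mul_le_mul_of_nonneg_left hX (sq_nonneg e)
    exact mul_le_mul_of_nonneg_left (by linarith) (by linarith)
  have h7 : e ^ 2 * (sz * C3 * w) + e * (sz * C3 * w) ^ 2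
      ≤ (C3 + C3 ^ 2) * (e ^ 2 * sz * w + e * w ^ 2) := by
    have c1 : sz ^ 2 ≤ 1 := pow_le_one₀ h0 h1
    have c2 : e * (sz * C3 * w) ^ 2 ≤ C3 ^ 2 * (e * w ^ 2) :=
      calc _ = sz ^ 2 * (C3 ^ 2 * (e * w ^ 2)) := by ring
        _ ≤ _ := mul_le_of_le_one_left (by positivity) c1
    have c3 : 0 ≤ C3 * (e * w ^ 2) := by positivity
    have c4 : 0 ≤ C3 ^ 2 * (e ^ 2 * sz * w) := by positivity
    linarith
  have h8 : vol * u ≤ P := (mul_le_of_le_one_right hvol hu1).trans hP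
  have h9 : 0 ≤ (C3 + C3 ^ 2) * (e ^ 2 * sz * w + e * w ^ 2) := by positivity
  have h10 := mul_le_mul_of_nonneg_left ((neg_le_neg h7).trans (h5.trans h6)) (mul_nonneg hvol hu)
  have h11 := mul_le_mul_of_nonneg_right h8 h9
  linarith

theorem al_ge (hn : 3 ≤ n) : 1 / 2 ≤ al n := by
  have : (3 : ℝ) ≤ n := by exact_mod_cast hn
  rw [al, le_div_iff₀ (by linarith)]; linarith

theorem al_le (hn : 3 ≤ n) : al n ≤ 1 := by
  have : (3 : ℝ) ≤ n := by exact_mod_cast hn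
  rw [al, div_le_one (by linarith)]; linarith

theorem eSq_smul (G : MetricField n) (η : E n → ℝ) (EE : VectorField n) (x : E n) :
    eSq G (fun x i => η x * EE x i) x = η x ^ 2 * eSq G EE x := by
  simp only [eSq, vecNormSq, ← mul_div_assoc, Finset.mul_sum]
  congr 1
  exact Finset.sum_congr rfl fun i _ => Finset.sum_congr rfl fun j _ => by ring

/-! ### the divergence identity -/

section
variable {S : Setup n} {e M z3 : ℝ} {an f z : E n → ℝ}

theorem z_smooth (h : Sl S e M z3 an f z) : ContDiff ℝ ∞ z := h.bdd.choose_spec.2.1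

theorem f_smooth (h : Sl S e M z3 an f z) : ContDiff ℝ ∞ f := h.bdd.choose_spec.1.1

theorem div_VE (hK : SymT S.K univ) (h : Sl S e M z3 an f z) (x : E n) :
    divg (gB S e f z) (VE S e f z) x = uu z x * (ph S e f z x *
      (2 * (energyDensity S.g S.K x - Jw S.g S.K x (wv S.g (ph S e f z) f x))
        + normSqK (gB S e f z) (ZZ S.g (ph S e f z) f S.K) x
        + 2 * bil (gB S e f z x) (qv S.g (ph S e f z) f S.K x) (qv S.g (ph S e f z) f S.K x)
        + (e ^ 3 * f x) ^ 2 + 2 * (e ^ 3 * f x) * traceK S.g S.K x + rhs S e M z3 an f z x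
        + 2 * al n * fderiv ℝ z x (qv S.g (ph S e f z) f S.K x)
        + al n * gam (gB S e f z) z z x)
      + 2 * (e ^ 3 * gm' S e f z x * pp' S e f z x)
      + 2 * fderiv ℝ (ph S e f z) x (grad (gB S e f z) z x)) := by
  have hd := h.jd
  have hx := mem_univ x
  have hz2 : ContDiffAt ℝ 2 z x := (z_smooth h).contDiffAt.of_le (by norm_cast)
  have dz : DifferentiableAt ℝ z x := hz2.differentiableAt (by norm_num)
  have df : DifferentiableAt ℝ f x := (hd.cf hx).differentiableAt (by simp)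
  have dq : DifferentiableAt ℝ (qv S.g (ph S e f z) f S.K) x :=
    (hd.c_qv hK hx).differentiableAt (by simp)
  have dg := differentiableAt_grad hd.riemb hx hz2
  have dφ := hd.dφ hx
  have du : HasFDerivAt (uu z) (uu z x • (al n • fderiv ℝ z x)) x :=
    (dz.hasFDerivAt.const_mul (al n)).exp
  have c2 : DifferentiableAt ℝ (fun _ : E n => (2 : ℝ)) x := differentiableAt_const _
  have h1 := divg_smul hd.riemb hx (dφ.fun_mul du.differentiableAt)
    ((c2.fun_smul dq).fun_add (c2.fun_smul dg))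
  rw [divg_add hd.riemb hx (c2.fun_smul dq) (c2.fun_smul dg), divg_smul hd.riemb hx c2 dq,
    divg_smul hd.riemb hx c2 dg, divg_grad, fderiv_fun_mul dφ du.differentiableAt, du.fderiv] at h1
  have h2 := hd.id_E hK hx
  rw [divg_smul hd.riemb hx dφ dq, show Th S.g (ph S e f z) f S.K = fun y => e ^ 3 * f y from
    funext h.J, fderiv_const_mul df] at h2
  have h3 := h.U x
  have h4 := hd.df_wv hx
  have h5 := gam_eq_fderiv_grad (gB S e f z) z z x
  have hφ := hd.φ_pos x hx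
  change divg (gB S e f z) (VE S e f z) x = _ at h1
  simp only [fderiv_fun_const, Pi.zero_apply, zero_apply, add_zero,
    add_apply, smul_apply, smul_eq_mul, map_add,
    map_smul] at h1 h2
  rw [h1, ← h5]
  have h6 : ph S e f z x * ((ph S e f z x * divg (gB S e f z) (qv S.g (ph S e f z) f S.K) x
      + fderiv ℝ (ph S e f z) x (qv S.g (ph S e f z) f S.K x)) / ph S e f z x)
      = ph S e f z x * divg (gB S e f z) (qv S.g (ph S e f z) f S.K) x
      + fderiv ℝ (ph S e f z) x (qv S.g (ph S e f z) f S.K x) := by field_simp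
  linear_combination (uu z x * ph S e f z x) * h3 + (uu z x * ph S e f z x) * h2
    - 2 * uu z x * h6 + 2 * uu z x * e ^ 3 * h4


/-! ### the cut-off functions -/

/-- the penalty profile. -/
abbrev ddx (S : Setup n) (e : ℝ) (f : E n → ℝ) (x : E n) : ℝ :=
  (S.par e 0 0).dd ((S.coef 0).b1 x) ((S.coef 0).b2 x) (e ^ 3 * f x)

/-- the inner cut-off. -/
def chx (S : Setup n) (e : ℝ) (f : E n → ℝ) (x : E n) : ℝ :=
  (S.coef 0).a1 x - (S.coef 0).a1 x * (S.coef 0).a2 x * (1 - cut (-S.t1) (-S.t1 / 2) (e ^ 3 * f x))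

theorem ph_eq (S : Setup n) (e : ℝ) (f z : E n → ℝ) : ph S e f z =
    fun x => e ^ 2 + (1 - e ^ 2) * (chx S e f x * cut (-S.θ / 2) (-S.θ / 4) (z x)) := by
  funext x
  simp only [ph, phi, Par.phiF, Par.chi, Par.Ph, Par.δ, Par.τ, Setup.par, chx]
  ring

theorem chx_mem (S : Setup n) (e : ℝ) (f : E n → ℝ) (x : E n) : chx S e f x ∈ Icc (0 : ℝ) 1 := by
  simp only [chx, Setup.coef]
  have a1 := cut_nonneg (1 / 4) (1 / 2) (S.s x)
  have a1' := cut_le_one (1 / 4) (1 / 2) (S.s x)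
  have a2 := cut_nonneg S.ra S.rb (S.s x)
  have a3 := cut_le_one S.ra S.rb (S.s x)
  have a4 := cut_nonneg (-S.t1) (-S.t1 / 2) (e ^ 3 * f x)
  have a5 := cut_le_one (-S.t1) (-S.t1 / 2) (e ^ 3 * f x)
  have a6 : 0 ≤ (1 - cut S.ra S.rb (S.s x)) * (1 - cut (-S.t1) (-S.t1 / 2) (e ^ 3 * f x)) :=
    mul_nonneg (by linarith) (by linarith)
  have a7 : (1 - cut S.ra S.rb (S.s x)) * (1 - cut (-S.t1) (-S.t1 / 2) (e ^ 3 * f x)) ≤ 1 := by
    nlinarith
  rw [mul_assoc]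
  constructor <;> nlinarith

theorem ph_mem (he : 0 < e) (he1 : e ≤ 1) (x : E n) : ph S e f z x ∈ Icc (e ^ 2) 1 := by
  rw [ph_eq]
  have a1 := chx_mem S e f x
  have a2 := cut_nonneg (-S.θ / 2) (-S.θ / 4) (z x)
  have a3 := cut_le_one (-S.θ / 2) (-S.θ / 4) (z x)
  have a4 : 0 ≤ 1 - e ^ 2 := by nlinarith
  have a5 := mul_nonneg a1.1 a2
  have a6 := mul_le_one₀ a1.2 a2 a3
  constructor <;> nlinarith

theorem ddx_nonneg (x : E n) : 0 ≤ ddx S e f x := by
  simp only [ddx, Par.dd, Setup.coef, Setup.par]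
  have a1 := cut_nonneg 1 S.ra (S.s x)
  have a2 := cut_le_one 1 S.ra (S.s x)
  have a3 := mul_nonneg (cut_nonneg (S.t0 ^ 2) (4 * S.t0 ^ 2) ((e ^ 3 * f x) ^ 2))
    (Bs.eta_nonneg S.R0 x)
  nlinarith

theorem ddx_in (hS : S.OK) {x : E n} (h : S.s x ≤ 1) : ddx S e f x = 1 := by
  simp only [ddx, Par.dd, Setup.coef, cut_zero hS.ra_gt h]; ring

theorem ddx_big (hS : S.OK) {x : E n} (h : ‖x‖ ≤ S.R0) (h2 : 2 * S.t0 ≤ |e ^ 3 * f x|) :
    ddx S e f x = 1 := by
  have h0 : 0 < S.t0 := hS.par_ok.t0_pos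
  have h3 : 4 * S.t0 ^ 2 ≤ (e ^ 3 * f x) ^ 2 := by
    rw [← sq_abs (e ^ 3 * f x)]; nlinarith
  simp only [ddx, Par.dd, Setup.coef, Setup.par, Bs.eta_eq_one (one_pos.trans_le hS.good.R0_ge) h,
    cut_one (show S.t0 ^ 2 < 4 * S.t0 ^ 2 by nlinarith) h3]
  ring

theorem norm_le (hS : S.OK) {x : E n} (h : S.s x < 2) : ‖x‖ ≤ S.R0 := by
  by_contra h'
  exact absurd (hS.good.s_far x (not_le.1 h').le) (not_le.2 h)

theorem dchx_zero (hS : S.OK) (hf : Continuous f) (x : E n) :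
    fderiv ℝ (chx S e f) x = 0 ∨ ddx S e f x = 1 := by
  by_cases h1 : S.s x ≤ 1
  · exact .inr (ddx_in hS h1)
  have hs := hS.good.s_smooth.continuous
  have ht1 : 4 * S.t0 ≤ S.t1 := hS.par_ok.t01
  have ht0 : 0 < S.t0 := hS.par_ok.t0_pos
  have e1 : ∀ᶠ y in 𝓝 x, (S.coef 0).a1 y = 1 := by
    filter_upwards [hs.continuousAt.eventually (lt_mem_nhds (not_le.1 h1))] with y hy
    exact cut_one (by norm_num) (by linarith)
  by_cases h2 : S.rb < S.s x
  · left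
    have : chx S e f =ᶠ[𝓝 x] fun _ => 1 := by
      filter_upwards [e1, hs.continuousAt.eventually (lt_mem_nhds h2)] with y hy hy2
      rw [chx, hy]
      simp only [Setup.coef, cut_one hS.rab hy2.le]; ring
    rw [this.fderiv_eq]; simp
  by_cases h3 : -S.t1 / 2 < e ^ 3 * f x
  · left
    have : chx S e f =ᶠ[𝓝 x] fun _ => 1 := by
      filter_upwards [e1, (continuous_const.mul hf).continuousAt.eventually (lt_mem_nhds h3)]
        with y hy hy2
      rw [chx, hy, cut_one (show -S.t1 < -S.t1 / 2 by linarith)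
        (show -S.t1 / 2 ≤ e ^ 3 * f y from hy2.le)]; ring
    rw [this.fderiv_eq]; simp
  · right
    refine ddx_big hS (norm_le hS ((not_lt.1 h2).trans_lt hS.rb_lt)) ?_
    have := neg_abs_le (e ^ 3 * f x)
    linarith [not_lt.1 h3]

variable {P T0 R : ℝ} {bp : E n → ℝ}

theorem d_chx (hG : Geo S P T0 R bp) (hf : ContDiff ℝ ∞ f) (x : E n) :
    HasFDerivAt (chx S e f) (fderiv ℝ (S.coef 0).a1 x
      - (((S.coef 0).a1 x * (S.coef 0).a2 x) •
          (-(deriv (cut (-S.t1) (-S.t1 / 2)) (e ^ 3 * f x) • (e ^ 3 • fderiv ℝ f x)))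
        + (1 - cut (-S.t1) (-S.t1 / 2) (e ^ 3 * f x)) •
          fderiv ℝ (fun y => (S.coef 0).a1 y * (S.coef 0).a2 y) x)) x := by
  have d1 := (hG.a1_b2.smooth.differentiable (by simp) x).hasFDerivAt
  have d2 := (hG.a12_b2.smooth.differentiable (by simp) x).hasFDerivAt
  have d3 := (hf.differentiable (by simp) x).hasFDerivAt.const_mul (e ^ 3)
  have d4 := ((cut_has (-S.t1) (-S.t1 / 2) (e ^ 3 * f x)).comp_hasFDerivAt x d3).const_sub 1
  exact d1.fun_sub (d2.fun_mul d4)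

theorem dchx_sq (hG : Geo S P T0 R bp) (he : 0 < e) (he1 : e ≤ 1) (h : Sl S e M z3 an f z)
    {Cc : ℝ} (hC : ∀ t, deriv (cut (-S.t1) (-S.t1 / 2)) t ^ 2 ≤ Cc) (x Y : E n) :
    fderiv ℝ (chx S e f) x Y ^ 2 ≤ 3 * (2 * P + Cc) * bil (gB S e f z x) Y Y := by
  have hd := h.jd
  have hx := mem_univ x
  set N := bil (gB S e f z x) Y Y with hN
  have hN0 : 0 ≤ N := bil_self_nonneg hd.riemb hx Y
  have b1 : fderiv ℝ (S.coef 0).a1 x Y ^ 2 ≤ P * N :=
    (fderiv_sq_le hd.riemb hx _ Y).trans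
      (mul_le_mul_of_nonneg_right ((gam_gb_le hd hx _).trans (hG.a1_b2.d_le x)) hN0)
  have b2 : fderiv ℝ (fun y => (S.coef 0).a1 y * (S.coef 0).a2 y) x Y ^ 2 ≤ P * N :=
    (fderiv_sq_le hd.riemb hx _ Y).trans
      (mul_le_mul_of_nonneg_right ((gam_gb_le hd hx _).trans (hG.a12_b2.d_le x)) hN0)
  have hφ := (ph_mem (S := S) (f := f) (z := z) he he1 x).1
  have b3 : (e ^ 3 * fderiv ℝ f x Y) ^ 2 ≤ N := by
    have h1 := fderiv_sq_le hd.riemb hx f Y
    have h2 := hd.gam_gb_f_f hx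
    have h3 := hd.pp_lt_one hx
    have h4 : e ^ 3 ≤ ph S e f z x := le_trans (pow_le_pow_of_le_one he.le he1 (by norm_num)) hφ
    calc (e ^ 3 * fderiv ℝ f x Y) ^ 2 = (e ^ 3) ^ 2 * fderiv ℝ f x Y ^ 2 := by ring
      _ ≤ ph S e f z x ^ 2 * (gam (gB S e f z) f f x * N) := by gcongr
      _ = pp' S e f z x * N := by rw [← mul_assoc, h2]
      _ ≤ N := mul_le_of_le_one_left hN0 h3.le
  rw [(d_chx hG (f_smooth h) x).fderiv]
  simp only [sub_apply, add_apply, smul_apply, neg_apply, smul_eq_mul]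
  set a := (S.coef 0).a1 x * (S.coef 0).a2 x
  have ha : a ^ 2 ≤ 1 := pow_le_one₀ (mul_nonneg (hG.a1_mem x).1 (hG.a2_mem x).1)
    (mul_le_one₀ (hG.a1_mem x).2 (hG.a2_mem x).1 (hG.a2_mem x).2)
  set c := 1 - cut (-S.t1) (-S.t1 / 2) (e ^ 3 * f x)
  have hc : c ^ 2 ≤ 1 := pow_le_one₀ (sub_nonneg.2 (cut_le_one _ _ _))
    (sub_le_self _ (cut_nonneg _ _ _))
  have hCt := hC (e ^ 3 * f x)
  set c' := deriv (cut (-S.t1) (-S.t1 / 2)) (e ^ 3 * f x)
  set u1 := fderiv ℝ (S.coef 0).a1 x Y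
  set u2 := fderiv ℝ (fun y => (S.coef 0).a1 y * (S.coef 0).a2 y) x Y
  set u3 := e ^ 3 * fderiv ℝ f x Y
  have b4 : (c * u2) ^ 2 ≤ P * N := by
    rw [mul_pow]; exact (mul_le_of_le_one_left (sq_nonneg _) hc).trans b2
  have b5 : (a * -(c' * u3)) ^ 2 ≤ Cc * N := by
    rw [mul_pow, neg_sq, mul_pow c']
    exact (mul_le_of_le_one_left (by positivity) ha).trans
      (mul_le_mul hCt b3 (sq_nonneg _) ((sq_nonneg _).trans hCt))
  set v2 := c * u2
  set v3 := a * -(c' * u3)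
  nlinarith [sq_nonneg (u1 + v2), sq_nonneg (u1 + v3), sq_nonneg (v2 - v3)]

theorem sz_zero (hS : S.OK) {t : ℝ} (h : -3 * S.θ / 4 ≤ t) : (S.par e 0 0).sz t = 0 := by
  have h0 : 0 < S.θ := hS.par_ok.θ_pos
  simp only [Par.sz, Setup.par, cut_one (show -S.θ < -3 * S.θ / 4 by linarith) h, sub_self]

theorem sz_mem (t : ℝ) : (S.par e 0 0).sz t ∈ Icc (0 : ℝ) 1 :=
  ⟨sub_nonneg.2 (cut_le_one _ _ _), sub_le_self _ (cut_nonneg _ _ _)⟩

/-- the cut-off error. -/
theorem dphi (hS : S.OK) (hG : Geo S P T0 R bp) (he : 0 < e) (he1 : e ≤ 1) (h : Sl S e M z3 an f z)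
    {Cc : ℝ} (hC : ∀ t, deriv (cut (-S.t1) (-S.t1 / 2)) t ^ 2 ≤ Cc) (x : E n) :
    0 ≤ fderiv ℝ (ph S e f z) x (grad (gB S e f z) z x) ∨ (-S.θ / 2 < z x ∧ ddx S e f x = 1 ∧
      -(ph S e f z x * gam (gB S e f z) z z x / 12 + 12 * (3 * (2 * P + Cc)) / ph S e f z x)
        ≤ 2 * fderiv ℝ (ph S e f z) x (grad (gB S e f z) z x)) := by
  have hd := h.jd
  have hx := mem_univ x
  have h0 : 0 < S.θ := hS.par_ok.θ_pos
  have hab : -S.θ / 2 < -S.θ / 4 := by linarith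
  have dz := ((z_smooth h).differentiable (by simp) x).hasFDerivAt
  have dχ := (d_chx (e := e) hG (f_smooth h) x).differentiableAt.hasFDerivAt
  have d1 := ((dχ.fun_mul ((cut_has (-S.θ / 2) (-S.θ / 4) (z x)).comp_hasFDerivAt x dz)).const_mul
    (1 - e ^ 2)).const_add (e ^ 2)
  have d2 : fderiv ℝ (ph S e f z) x (grad (gB S e f z) z x) = (1 - e ^ 2) * (chx S e f x *
      (deriv (cut (-S.θ / 2) (-S.θ / 4)) (z x) * gam (gB S e f z) z z x)
      + cut (-S.θ / 2) (-S.θ / 4) (z x) * fderiv ℝ (chx S e f) x (grad (gB S e f z) z x)) := by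
    rw [gam_eq_fderiv_grad]
    generalize grad (gB S e f z) z x = Y
    rw [ph_eq]
    erw [d1.fderiv]
    simp only [add_apply, smul_apply, smul_eq_mul, Function.comp_apply]
  have hN := gam_self_nonneg hd.riemb hx z
  have hδ : 0 ≤ 1 - e ^ 2 := by nlinarith
  have p1 : 0 ≤ chx S e f x *
      (deriv (cut (-S.θ / 2) (-S.θ / 4)) (z x) * gam (gB S e f z) z z x) :=
    mul_nonneg (chx_mem S e f x).1 (mul_nonneg (cut_deriv_nonneg hab _) hN)
  by_cases hz : z x ≤ -S.θ / 2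
  · left
    rw [d2, cut_zero hab hz, zero_mul, add_zero]
    exact mul_nonneg hδ p1
  rcases dchx_zero (e := e) hS (f_smooth h).continuous x with h1 | h1
  · left
    rw [d2, h1, zero_apply, mul_zero, add_zero]
    exact mul_nonneg hδ p1
  right
  refine ⟨not_le.1 hz, h1, ?_⟩
  have hφ := hd.φ_pos x hx
  have h2 := dchx_sq hG he he1 h hC x (grad (gB S e f z) z x)
  rw [← gam_eq_bil hd.riemb hx] at h2
  have hC0 : 0 ≤ 3 * (2 * P + Cc) := by linarith [hG.P_ge, (sq_nonneg _).trans (hC 0)]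
  set k := (1 - e ^ 2) * cut (-S.θ / 2) (-S.θ / 4) (z x) with hk
  have hk2 : k ^ 2 ≤ 1 := pow_le_one₀ (mul_nonneg hδ (cut_nonneg _ _ _))
    (mul_le_one₀ (by nlinarith) (cut_nonneg _ _ _) (cut_le_one _ _ _))
  have h3 : (k * fderiv ℝ (chx S e f) x (grad (gB S e f z) z x)) ^ 2 ≤
      (ph S e f z x * gam (gB S e f z) z z x / 12) * (12 * (3 * (2 * P + Cc)) / ph S e f z x) := by
    rw [mul_pow]
    refine (mul_le_of_le_one_left (sq_nonneg _) hk2).trans (h2.trans_eq ?_)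
    field_simp
  have h4 := amgm h3 (by positivity) (by positivity)
  have h5 := mul_nonneg hδ p1
  rw [d2, hk] at *
  linarith

/-- the deficit in the dominant energy condition. -/
theorem deficit (hS : S.OK) (hG : Geo S P T0 R bp) (h : Sl S e M z3 an f z) (hf : FB e T0 f)
    (x : E n) {A : ℝ}
    (hA : A = 2 * (energyDensity S.g S.K x - Jw S.g S.K x (wv S.g (ph S e f z) f x))
      - 25 / 12 * S.mw x - 2 * eSq (gB S e f z) (S.coef 0).EE x
      + 2 * (e ^ 3 * f x) * traceK S.g S.K x) :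
    0 ≤ A ∨ (‖x‖ ≤ S.R0 ∧ ddx S e f x = 1 ∧ -(9 * P + 2 * P ^ 2) ≤ A) := by
  have hd := h.jd
  have hx := mem_univ x
  have hw : bil (S.g x) (wv S.g (ph S e f z) f x) (wv S.g (ph S e f z) f x) ≤ 1 := by
    rw [hd.bil_wv_wv hx]; exact (hd.pp_lt_one hx).le
  have hP := hG.P_ge
  have hmw : 0 ≤ S.mw x := mul_nonneg hS.c1_pos.le (Real.rpow_nonneg (by positivity) _)
  have bad : -(9 * P + 2 * P ^ 2) ≤ A := by
    have b1 := (abs_le.1 (hG.mu_le x)).1
    have b2 := (abs_le.1 (hG.J_le x _ hw)).2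
    have b3 : S.mw x ≤ P := (hG.mw_hi x).trans (mul_le_of_le_one_right (by linarith)
      (Real.rpow_le_one_of_one_le_of_nonpos (by linarith [norm_nonneg x]) (by simp)))
    have b4 := (eSq_gb_le hd hx (S.coef 0).EE).trans (hG.E_le x)
    have b5 : |(e ^ 3 * f x) * traceK S.g S.K x| ≤ P * P := by
      rw [abs_mul]
      exact mul_le_mul ((hf x).trans hG.T0_le) (hG.trK_le x) (abs_nonneg _) (by linarith)
    have b6 := (abs_le.1 b5).1
    rw [hA]; nlinarith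
  by_cases h1 : S.s x ≤ 1
  · exact .inr ⟨norm_le hS (by linarith), ddx_in hS h1, bad⟩
  have g1 := hS.good.dec x (not_le.1 h1).le (wv S.g (ph S e f z) f x) (by rwa [quadForm_eq])
  rw [quadForm_eq, hd.bil_wv_wv hx, ← eSq_gb hd hx] at g1
  have g2 := hS.margin x
  have g3 : eSq (gB S e f z) (S.coef 0).EE x ≤ eSq (gB S e f z) S.EE x := by
    rw [show (S.coef 0).EE = fun x i => eta S.R0 x * S.EE x i from rfl, eSq_smul]
    exact mul_le_of_le_one_left (eSq_nonneg hd.riemb hx _)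
      (pow_le_one₀ (Bs.eta_nonneg _ _) (Bs.eta_le_one _ _))
  have good : -S.mw x ≤ 2 * (e ^ 3 * f x) * traceK S.g S.K x → 0 ≤ A := fun g4 => by
    rw [hA, Jw]; linarith
  by_cases h2 : ‖x‖ ≤ S.R0
  · by_cases h3 : 2 * S.t0 ≤ |e ^ 3 * f x|
    · exact .inr ⟨h2, ddx_big hS h2 h3, bad⟩
    · refine .inl (good ?_)
      have g4 := hS.t0_small x
      have g5 : |e ^ 3 * f x| * |traceK S.g S.K x| ≤ 2 * S.t0 * |traceK S.g S.K x| := by
        gcongr; exact (not_le.1 h3).le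
      have g6 := neg_abs_le ((e ^ 3 * f x) * traceK S.g S.K x)
      rw [abs_mul] at g6
      linarith
  · refine .inl (good ?_)
    have : traceK S.g S.K x = 0 := by simp [traceK, hS.good.K_far x (not_le.1 h2).le]
    rw [this]; linarith

end

end S7a

open S7a in
theorem s7a : S7aStmt := by
  intro n hn S hS P T0 R bp hG
  have hP := hG.P_ge
  have ht0 : 0 < S.t0 := hS.par_ok.t0_pos
  have ht01 : 4 * S.t0 ≤ S.t1 := hS.par_ok.t01
  have hθ : 0 < S.θ := hS.par_ok.θ_pos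
  obtain ⟨Cc, hCc, hC⟩ := exists_cut_bound (a := -S.t1) (b := -S.t1 / 2) (by linarith)
  have hR0 := hS.good.R0_ge
  have p1 : 0 ≤ 3 * (2 * P + Cc) := by positivity
  have p2 : 0 < 9 * P + 2 * P ^ 2 := by positivity
  have p3 : 0 ≤ P + (9 * P + 2 * P ^ 2) * (1 + S.R0) ^ (n : ℝ) := by positivity
  generalize hC3 : P + (9 * P + 2 * P ^ 2) * (1 + S.R0) ^ (n : ℝ) = C3 at p3
  refine ⟨P * (C3 + C3 ^ 2), by positivity,
    min 1 (9 * P + 2 * P ^ 2 + 12 * (3 * (2 * P + Cc)))⁻¹, by positivity, ?_⟩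
  intro e he hle M z3 an f z h hf x
  have he1 : e ≤ 1 := hle.trans (min_le_left _ _)
  have hs : e * (9 * P + 2 * P ^ 2 + 12 * (3 * (2 * P + Cc))) ≤ 1 := by
    have := hle.trans (min_le_right _ _)
    rwa [inv_eq_one_div, le_div_iff₀ (by positivity)] at this
  have hd := h.jd
  have hx := mem_univ x
  have hφ := ph_mem (S := S) (f := f) (z := z) he he1 x
  have hφ0 := hd.φ_pos x hx
  have hA := deficit hS hG h hf x rfl
  have hD := dphi hS hG he he1 h hC x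
  have hdd := ddx_nonneg (S := S) (e := e) (f := f) x
  have hZ := normSqK_nonneg hd.riemb hx ((hd.symT_ZZ hG.symK).symm x hx)
  have hQ := bil_self_nonneg hd.riemb hx (qv S.g (ph S e f z) f S.K x)
  have hN := gam_self_nonneg hd.riemb hx z
  have hq := quad (al_ge hn) (al_le hn) hQ hN (fderiv_sq_le hd.riemb hx z _)
  have hγ := hd.one_le_gm hx
  have hp := hd.pp_nonneg hx
  have hγp := hd.gm_sq_mul hx
  have hu : 0 < uu z x := Real.exp_pos _
  have hvol : 0 < volDensity S.g x := Real.sqrt_pos.2 (det_pos hd.riem hx)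
  have hsz := sz_mem (S := S) (e := e) (z x)
  have hw : 0 < (1 + ‖x‖) ^ (-(n : ℝ)) := by positivity
  have hw2 : (1 + ‖x‖) ^ (-(2 * n : ℝ)) = ((1 + ‖x‖) ^ (-(n : ℝ))) ^ 2 := by
    rw [← Real.rpow_natCast, ← Real.rpow_mul (by positivity)]; congr 1; push_cast; ring
  rw [div_VE hG.symK h x, ed, cost, rhs, hd.volDensity_gb hx, hw2]
  generalize hAe : 2 * (energyDensity S.g S.K x - Jw S.g S.K x (wv S.g (ph S e f z) f x))
      - 25 / 12 * S.mw x - 2 * eSq (gB S e f z) (S.coef 0).EE x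
      + 2 * (e ^ 3 * f x) * traceK S.g S.K x = A at hA
  -- the lower bound for the remainder
  have key : -(P * (C3 + C3 ^ 2) * (e ^ 2 * (S.par e 0 0).sz (z x) * (1 + ‖x‖) ^ (-(n : ℝ))
      + e * ((1 + ‖x‖) ^ (-(n : ℝ))) ^ 2)) ≤ gm' S e f z x * volDensity S.g x * (uu z x *
      (ph S e f z x * (A - (S.par e 0 0).sz (z x) * S.cw x
        + (1 - (S.par e 0 0).sz (z x)) * ((e ^ 6)⁻¹ * ddx S e f x))
      + (ph S e f z x * gam (gB S e f z) z z x / 12
        + 2 * fderiv ℝ (ph S e f z) x (grad (gB S e f z) z x))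
      + 11 / 12 * (e ^ 3 * gm' S e f z x * pp' S e f z x))) := by
    by_cases hz : -3 * S.θ / 4 ≤ z x
    · have h1 := pay0 he he1 p1 p2.le hs hφ.1 hdd hN (hA.imp id fun h => h.2)
        (hD.imp id fun h => h.2)
      rw [sz_zero hS hz, zero_mul, sub_zero, sub_zero, one_mul, ← add_assoc]
      refine le_trans (neg_nonpos.2 (by positivity)) ?_
      have hτ : 0 ≤ 11 / 12 * (e ^ 3 * gm' S e f z x * pp' S e f z x) := by positivity
      have h2 := add_nonneg h1 hτ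
      positivity
    · have hz' := not_le.1 hz
      have h1 : ph S e f z x = e ^ 2 := by
        simp only [ph_eq, cut_zero (show -S.θ / 2 < -S.θ / 4 by linarith)
          (show z x ≤ -S.θ / 2 by linarith), mul_zero, add_zero]
      have h2 := hD.resolve_right fun h => by linarith [h.1]
      have h3 : uu z x ≤ 1 := Real.exp_le_one_iff.2
        (mul_nonpos_of_nonneg_of_nonpos (by linarith [al_ge hn]) (by linarith))
      have h4 := pay2 (Rn := (1 + S.R0) ^ (n : ℝ)) he he1 p1 p2.le hs hsz.1 hsz.2 hdd hw.le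
        (by positivity) (hG.cw_hi x) (hA.imp id fun h => ⟨by
          rw [Real.rpow_neg (by positivity), ← div_eq_mul_inv, one_le_div (by positivity)]
          have := h.1
          gcongr, h.2⟩)
      rw [hC3] at h4
      have h5 := pay3 (Y := ph S e f z x * gam (gB S e f z) z z x / 12
        + 2 * fderiv ℝ (ph S e f z) x (grad (gB S e f z) z x)) he hγ hγp hsz.1 hsz.2 hw.le p3 h4
        (by positivity) hvol.le hu.le h3 (hG.vol_hi x)
      exact h5.trans_eq (by rw [← h1])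
  have hrest : 0 ≤ gm' S e f z x * volDensity S.g x * (uu z x * (ph S e f z x * (11 / 12 *
      normSqK (gB S e f z) (ZZ S.g (ph S e f z) f S.K) x + (2 * bil (gB S e f z x)
        (qv S.g (ph S e f z) f S.K x) (qv S.g (ph S e f z) f S.K x)
      + 2 * al n * fderiv ℝ z x (qv S.g (ph S e f z) f S.K x) + al n * gam (gB S e f z) z z x
      - ((bil (gB S e f z x) (qv S.g (ph S e f z) f S.K x) (qv S.g (ph S e f z) f S.K x)
        + gam (gB S e f z) z z x) / 12 + gam (gB S e f z) z z x / 12)))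
      + e ^ 3 * pp' S e f z x * (gm' S e f z x - ph S e f z x))) := by
    have c1 := sub_nonneg.2 hq
    have c2 : 0 ≤ gm' S e f z x - ph S e f z x := by linarith [hφ.2]
    positivity
  rw [← hAe] at key
  linear_combination key + hrest

end Crest.Agent.N346.Bd

end
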