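import Crest.Agent.N346.Bd.Defs
import Crest.Agent.N346.P1.Unif

/-!
Row 346, Bd-S7b: the cost is at most `√e`.
-/

set_option autoImplicit false

open MeasureTheory Filter Set
open scoped ContDiff Topology
open Crest.GeometryTopology.CoordMetric Crest.MathPhysics.ExteriorData
open Crest.Agent.N346.P1

noncomputable section

namespace Crest.Agent.N346.Bd

theorem s7b : S7bStmt := by
  intro P1 hP1 n hn S hS P T0 R bp _
  have hn3 : (3 : ℝ) ≤ n := by exact_mod_cast hn
  have hθ : 0 < S.θ := hS.par_ok.θ_pos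
  have hI : Integrable fun x : E n => (1 + ‖x‖) ^ (-((n : ℝ) + 1 / 4)) :=
    integrable_one_add_norm (by simp)
  obtain ⟨I, hI'⟩ : ∃ I, I = ∫ x : E n, (1 + ‖x‖) ^ (-((n : ℝ) + 1 / 4)) := ⟨_, rfl⟩
  have hI0 : 0 ≤ I := hI' ▸ integral_nonneg fun x => by positivity
  refine ⟨((1 + 3 * P1 * I)⁻¹) ^ 2, by positivity, fun e he he1 M z3 an f z hSl hz => ?_⟩
  have hA : 1 ≤ 1 + 3 * P1 * I := le_add_of_nonneg_right (by positivity)
  have hse : √e ≤ (1 + 3 * P1 * I)⁻¹ := Real.sqrt_le_iff.2 ⟨by positivity, he1⟩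
  have he2 : e ≤ 1 := he1.trans (pow_le_one₀ (by positivity) (inv_le_one_of_one_le₀ hA))
  have hX : 1 ≤ e⁻¹ := (one_le_inv₀ he).2 he2
  have hX4 : 1 ≤ e⁻¹ ^ 4 := one_le_pow₀ hX
  have hsz : ∀ t, (S.par e 0 0).sz t ∈ Icc (0 : ℝ) 1 := fun t => one_sub_mem (cut_mem _ _ _)
  have h0 : ∀ x, 0 ≤ cost S e z P1 x := fun x => by
    have := (hsz (z x)).1
    unfold cost
    positivity
  have hle : ∀ x, cost S e z P1 x ≤ 3 * P1 * e * (1 + ‖x‖) ^ (-((n : ℝ) + 1 / 4)) := by
    intro x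
    have hr := norm_nonneg x
    have hw : 0 < (1 + ‖x‖) ^ (-((n : ℝ) + 1 / 4)) := by positivity
    have a1 : (1 + ‖x‖) ^ (-(2 * n : ℝ)) ≤ (1 + ‖x‖) ^ (-((n : ℝ) + 1 / 4)) :=
      Real.rpow_le_rpow_of_exponent_le (by linarith) (by linarith)
    have a2 : e * (S.par e 0 0).sz (z x) * (1 + ‖x‖) ^ (-(n : ℝ))
        ≤ 2 * (1 + ‖x‖) ^ (-((n : ℝ) + 1 / 4)) := by
      rcases le_total (9 * e⁻¹ ^ 4) ‖x‖ with h | h
      · have b1 : e⁻¹ ^ 4 / ‖x‖ ≤ 1 / 9 := by
          rw [div_le_iff₀ (by linarith)]; linarith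
        have b2 : (e⁻¹ ^ 4 / ‖x‖) ^ a0 n ≤ 1 / 3 := by
          calc _ ≤ (1 / 9 : ℝ) ^ a0 n :=
                Real.rpow_le_rpow (by positivity) b1 (by unfold a0; linarith)
            _ ≤ (1 / 9 : ℝ) ^ (1 / 2 : ℝ) := Real.rpow_le_rpow_of_exponent_ge (by norm_num)
                (by norm_num) (by unfold a0; linarith)
            _ = 1 / 3 := by
                rw [← Real.sqrt_eq_rpow, show (1 / 9 : ℝ) = (1 / 3) ^ 2 by norm_num,
                  Real.sqrt_sq (by norm_num)]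
        have b3 := hz x (by linarith)
        have b4 : (S.par e 0 0).sz (z x) = 0 := by
          have : cut (-S.θ) (-3 * S.θ / 4) (z x) = 1 := cut_one (by linarith) (by nlinarith)
          exact sub_eq_zero.2 this.symm
        rw [b4, mul_zero, zero_mul]
        positivity
      · have b1 : (1 + ‖x‖) ^ (1 / 4 : ℝ) ≤ 2 * e⁻¹ := by
          calc _ ≤ ((2 * e⁻¹) ^ 4) ^ (1 / 4 : ℝ) :=
                Real.rpow_le_rpow (by positivity) (by rw [mul_pow]; linarith) (by norm_num)
            _ = _ := by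
                rw [← Real.rpow_natCast, ← Real.rpow_mul (by positivity)]
                norm_num
        have b2 : (1 + ‖x‖) ^ (-(n : ℝ))
            = (1 + ‖x‖) ^ (1 / 4 : ℝ) * (1 + ‖x‖) ^ (-((n : ℝ) + 1 / 4)) := by
          rw [← Real.rpow_add (by positivity)]
          congr 1
          ring
        rw [b2]
        calc _ ≤ e * 1 * (2 * e⁻¹ * (1 + ‖x‖) ^ (-((n : ℝ) + 1 / 4))) := by
              gcongr
              exact (hsz _).2
          _ = _ := by field_simp
    calc cost S e z P1 x = P1 * e * (e * (S.par e 0 0).sz (z x) * (1 + ‖x‖) ^ (-(n : ℝ))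
          + (1 + ‖x‖) ^ (-(2 * n : ℝ))) := by unfold cost; ring
      _ ≤ P1 * e * (2 * (1 + ‖x‖) ^ (-((n : ℝ) + 1 / 4))
          + (1 + ‖x‖) ^ (-((n : ℝ) + 1 / 4))) := by gcongr
      _ = _ := by ring
  have hc : Continuous (cost S e z P1) := by
    obtain ⟨B, -, hB⟩ := hSl.bdd
    have c1 : Continuous fun x => (S.par e 0 0).sz (z x) :=
      continuous_const.sub ((contDiff_cut _ _).continuous.comp hB.1.continuous)
    have c2 : ∀ p : ℝ, Continuous fun x : E n => (1 + ‖x‖) ^ p := fun p =>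
      (continuous_const.add continuous_norm).rpow_const fun x =>
        Or.inl (add_pos_of_pos_of_nonneg one_pos (norm_nonneg x)).ne'
    exact continuous_const.mul (((continuous_const.mul c1).mul (c2 _)).add
      (continuous_const.mul (c2 _)))
  have hint : Integrable (cost S e z P1) :=
    (hI.const_mul (3 * P1 * e)).mono' hc.aestronglyMeasurable
      (Eventually.of_forall fun x => by rw [Real.norm_of_nonneg (h0 x)]; exact hle x)
  refine ⟨hint, (integral_mono hint (hI.const_mul _) hle).trans ?_⟩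
  rw [integral_const_mul, ← hI']
  have hs := Real.sqrt_nonneg e
  have h1 : √e * (1 + 3 * P1 * I) ≤ 1 := by rwa [← le_div_iff₀ (by positivity), one_div]
  calc 3 * P1 * e * I = √e * (√e * (3 * P1 * I)) := by
        rw [← mul_assoc, Real.mul_self_sqrt he.le]; ring
    _ ≤ √e * 1 := by gcongr; nlinarith
    _ = _ := mul_one _

end Crest.Agent.N346.Bd

end
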