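import Crest.Agent.N346.Basic2

/-! Row 346, Bd-S7c (helper89): the abstract energy argument. -/

set_option autoImplicit false

open MeasureTheory Filter Set Metric
open scoped ContDiff Topology
open Crest.GeometryTopology.CoordMetric Crest.Agent.N346.Bs

noncomputable section

namespace Crest.Agent.N346.Bd.S7c

variable {n : ℕ}

theorem integrable_jap {b : ℝ} (hb : (n : ℝ) < b) :
    Integrable fun x : E n => (1 + ‖x‖) ^ (-b) :=
  integrable_one_add_norm (by simpa using hb)

theorem amgm {η d w D h : ℝ} (hD : 0 ≤ D) (hh : 0 ≤ h) (hw : w ^ 2 ≤ D * h) :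
    2 * η * d * w ≤ η ^ 2 * D / 48 + 48 * d ^ 2 * h := by
  refine (le_abs_self _).trans (abs_le_of_sq_le_sq' ?_ (by positivity)).2
  have h1 := mul_le_mul_of_nonneg_left hw (by positivity : 0 ≤ 4 * η ^ 2 * d ^ 2)
  rw [sq_abs]
  nlinarith [sq_nonneg (η ^ 2 * D / 48 - 48 * d ^ 2 * h)]

theorem energy_abs {D G : E n → ℝ} {W : E n → E n} (hD : Continuous D) (h0 : ∀ x, 0 ≤ D x)
    (hG : Integrable G) (hW : ContDiff ℝ 1 W)
    (hdiv : ∀ x, D x / 24 - G x ≤ divE (fun y i => W y i) x) {R1 C b : ℝ} (hb : (n : ℝ) < 2 + b)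
    (hC : 0 ≤ C) (hfar : ∀ x, R1 ≤ ‖x‖ → ‖W x‖ ^ 2 ≤ D x * (C * (1 + ‖x‖) ^ (-b))) :
    Integrable D ∧ ∫ x, D x ≤ 48 * ∫ x, G x := by
  obtain ⟨c, hc, hη⟩ := exists_eta_grad' n
  have hWi : ∀ i, ContDiff ℝ 1 fun x => W x i := fun i =>
    (EuclideanSpace.proj i : E n →L[ℝ] ℝ).contDiff.comp hW
  have ce : ∀ R : ℝ, Continuous (eta R : E n → ℝ) := fun R => (contDiff_eta R).continuous
  have cd : ∀ R : ℝ, Continuous (fderiv ℝ (eta R : E n → ℝ)) := fun R =>
    (contDiff_eta R).continuous_fderiv (by simp)
  have cj : Continuous fun x : E n => C * (1 + ‖x‖) ^ (-b) :=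
    continuous_const.mul ((continuous_const.add continuous_norm).rpow_const fun x =>
      .inl (add_pos_of_pos_of_nonneg one_pos (norm_nonneg x)).ne')
  set B : ℝ → E n → ℝ := fun R x =>
    48 * ‖fderiv ℝ (eta R) x‖ ^ 2 * (C * (1 + ‖x‖) ^ (-b)) with hB
  have cB : ∀ R, Continuous (B R) := fun R => (continuous_const.mul ((cd R).norm.pow 2)).mul cj
  have B0 : ∀ R x, 0 ≤ B R x := fun R x => by simp only [hB]; positivity
  have hH := (integrable_jap (n := n) hb).const_mul (48 * c ^ 2 * C)
  have hBH : ∀ R, 1 ≤ R → ∀ x, B R x ≤ 48 * c ^ 2 * C * (1 + ‖x‖) ^ (-(2 + b)) := fun R hR x => by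
    have h1 : (0 : ℝ) < 1 + ‖x‖ := by positivity
    have h2 := pow_le_pow_left₀ (norm_nonneg _) (hη R hR x) 2
    calc B R x ≤ 48 * (c / (1 + ‖x‖)) ^ 2 * (C * (1 + ‖x‖) ^ (-b)) := by
          simp only [hB]; gcongr
      _ = _ := by
          rw [neg_add, Real.rpow_add h1, Real.rpow_neg h1.le 2, Real.rpow_two]; field_simp
  have e2 : ∀ R (x : E n), eta R x ^ 2 ≤ 1 := fun R x =>
    pow_le_one₀ (eta_nonneg _ _) (eta_le_one _ _)
  have hbd : ∀ R, 1 ≤ R → ∀ x, ‖eta R x ^ 2 * G x + B R x‖ ≤
      ‖G x‖ + 48 * c ^ 2 * C * (1 + ‖x‖) ^ (-(2 + b)) := fun R hR x => by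
    refine (norm_add_le _ _).trans (add_le_add ?_ ?_)
    · rw [norm_mul, Real.norm_of_nonneg (sq_nonneg _)]
      exact mul_le_of_le_one_left (norm_nonneg _) (e2 R x)
    · rw [Real.norm_of_nonneg (B0 R x)]; exact hBH R hR x
  have hm : ∀ R, AEStronglyMeasurable (fun x => eta R x ^ 2 * G x + B R x) := fun R =>
    (((ce R).pow 2).aestronglyMeasurable.mul hG.1).add (cB R).aestronglyMeasurable
  have hlim : Tendsto (fun R => ∫ x, (eta R x ^ 2 * G x + B R x)) atTop (𝓝 (∫ x, G x)) := by
    refine tendsto_integral_filter_of_dominated_convergence _ (.of_forall hm)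
      ((eventually_ge_atTop 1).mono fun R hR => .of_forall (hbd R hR)) (hG.norm.add hH)
      (.of_forall fun x => ?_)
    exact tendsto_const_nhds.congr' ((eventually_eta x).mono fun R h => by simp [hB, h.1, h.2])
  have key : ∀ᶠ R in atTop, ∫ x in closedBall (0 : E n) R, D x ≤
      48 * ∫ x, (eta R x ^ 2 * G x + B R x) := by
    filter_upwards [eventually_ge_atTop 1, eventually_ge_atTop R1] with R hR hR1
    have hR0 : 0 < R := one_pos.trans_le hR
    have hcs : HasCompactSupport fun x : E n => eta R x ^ 2 :=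
      (hasCompactSupport_eta hR0).comp_left (g := fun t : ℝ => t ^ 2) (by simp)
    have hi : ∀ {u : E n → ℝ}, Continuous u → Integrable fun x => eta R x ^ 2 * u x := fun hu =>
      (((ce R).pow 2).mul hu).integrable_of_hasCompactSupport hcs.mul_right
    have hF : Integrable fun x => eta R x ^ 2 * G x + B R x :=
      (hG.norm.add hH).mono' (hm R) (.of_forall (hbd R hR))
    have cdv : Continuous (divE fun y i => W y i) :=
      continuous_finsetSum _ fun i _ => continuous_pd (hWi i) i
    have hibp := ibp_divE (V := fun y i => W y i) (smooth_one ((contDiff_eta R).pow 2)) hcs hWi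
    have hpd : ∀ x, ∑ i, pderiv i (fun x => eta R x ^ 2) x * W x i =
        2 * eta R x * fderiv ℝ (eta R) x (W x) := fun x => by
      rw [← fderiv_eq_sum, ((smooth_diff (contDiff_eta R) x).hasFDerivAt.pow 2).fderiv]
      simp
    simp only [hpd] at hibp
    have hi2 : Integrable fun x => 2 * eta R x * fderiv ℝ (eta R) x (W x) :=
      ((continuous_const.mul (ce R)).mul ((cd R).clm_apply hW.continuous)).integrable_of_hasCompactSupport
        (hasCompactSupport_eta hR0).mul_left.mul_right
    have hpt : ∀ x, eta R x ^ 2 * D x ≤ 48 * (eta R x ^ 2 * G x + B R x) +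
        48 * (eta R x ^ 2 * divE (fun y i => W y i) x
          + 2 * eta R x * fderiv ℝ (eta R) x (W x)) := fun x => by
      have h1 := mul_le_mul_of_nonneg_left (hdiv x) (sq_nonneg (eta R x))
      have h2 : -(2 * eta R x * fderiv ℝ (eta R) x (W x)) ≤ eta R x ^ 2 * D x / 48 + B R x := by
        rcases le_total ‖x‖ R with h | h
        · have := mul_nonneg (sq_nonneg (eta R x)) (h0 x)
          rw [fderiv_eta_of_le hR0 h]
          simp only [zero_apply, mul_zero, neg_zero]
          linarith [B0 R x]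
        · have h3 := amgm (η := eta R x) (d := ‖fderiv ℝ (eta R) x‖) (h0 x) (by positivity)
            (hfar x (hR1.trans h))
          have h4 := mul_le_mul_of_nonneg_left
            ((neg_le_abs _).trans ((fderiv ℝ (eta R) x).le_opNorm (W x))) (eta_nonneg R x)
          simp only [hB]
          nlinarith
      nlinarith
    calc ∫ x in closedBall (0 : E n) R, D x
        = ∫ x in closedBall (0 : E n) R, eta R x ^ 2 * D x :=
          setIntegral_congr_fun measurableSet_closedBall fun x hx => by
            simp only [eta_eq_one hR0 (by simpa using hx), one_pow, one_mul]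
      _ ≤ ∫ x, eta R x ^ 2 * D x := setIntegral_le_integral (hi hD)
          (.of_forall fun x => mul_nonneg (sq_nonneg _) (h0 x))
      _ ≤ _ := integral_mono (hi hD) ((hF.const_mul 48).add (((hi cdv).add hi2).const_mul 48)) hpt
      _ = _ := by
          refine (integral_add (hF.const_mul 48) (((hi cdv).add hi2).const_mul 48)).trans ?_
          simp only [Pi.add_apply]
          rw [integral_const_mul, integral_const_mul, integral_add (hi cdv) hi2, hibp]
          ring
  have hcov := aecover_closedBall (μ := volume) (x := (0 : E n)) (tendsto_id (x := atTop))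
  have hint : Integrable D := hcov.integrable_of_integral_norm_bounded (48 * ((∫ x, G x) + 1))
    (fun R => hD.continuousOn.integrableOn_compact (isCompact_closedBall _ _)) (by
      filter_upwards [key, hlim.eventually (eventually_le_nhds (lt_add_one _))] with R h1 h2
      simp only [Real.norm_of_nonneg (h0 _), id]
      linarith)
  exact ⟨hint, le_of_tendsto_of_tendsto (hcov.integral_tendsto_of_countably_generated hint)
    (hlim.const_mul 48) key⟩

end Crest.Agent.N346.Bd.S7c

end
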