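import Crest.Agent.N346.Bd.Basic
import Crest.Agent.N346.Bd.S7cA
import Crest.Agent.N346.Id.Frame

/-! Row 346, Bd-S7c (helper89): the energy is finite and polynomially bounded. -/

set_option autoImplicit false

open MeasureTheory Filter Set
open scoped ContDiff Topology
open Crest.GeometryTopology.CoordMetric Crest.MathPhysics.ExteriorData
open Crest.Agent.R202.Tens Crest.Agent.R247.Bo84 Crest.Agent.N346.Id Crest.Agent.N346.P1

noncomputable section

namespace Crest.Agent.N346.Bd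

namespace S7c

variable {n : ℕ} {S : Setup n} {e M z3 P T0 R P1 : ℝ} {bp an f z : E n → ℝ} {x : E n}

/-- smallness of `e` -/
structure Sm (P R e : ℝ) : Prop where
  pos : 0 < e
  X18 : 18 ≤ e⁻¹
  XR : R ≤ e⁻¹
  XP : 144 * P ≤ e⁻¹

namespace Sm

theorem X4 (h : Sm P R e) : e⁻¹ ≤ e⁻¹ ^ 4 := le_self_pow₀ (by linarith [h.X18]) (by norm_num)

theorem X5 (h : Sm P R e) : 18 * e⁻¹ ^ 4 ≤ e⁻¹ ^ 5 := by
  rw [pow_succ' _ 4]; exact mul_le_mul_of_nonneg_right h.X18 (by positivity)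

theorem one_le (h : Sm P R e) : 1 ≤ e⁻¹ ^ 5 := by linarith [h.X4, h.X5, h.X18]

theorem R0 (h : Sm P R e) (hG : Geo S P T0 R bp) : 2 * S.R0 ≤ 9 * e⁻¹ ^ 4 := by
  linarith [h.X4, h.XR, hG.R_ge, h.X18]

theorem far (h : Sm P R e) (hx : e⁻¹ ^ 5 ≤ ‖x‖) : 9 * e⁻¹ ^ 4 < ‖x‖ := by
  linarith [h.X4, h.X5, h.X18]

theorem farR (h : Sm P R e) (hx : e⁻¹ ^ 5 ≤ ‖x‖) : R ≤ ‖x‖ := by
  linarith [h.X4, h.X5, h.X18, h.XR]

end Sm

/-- the cut-off -/
def ze (e : ℝ) (x : E n) : ℝ := 1 - eta (e⁻¹ ^ 5) x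

/-- the correction of the flux -/
def VL (S : Setup n) (e : ℝ) (f z : E n → ℝ) (x : E n) : E n :=
  (2 * ze e x ^ 2) • grad (gB S e f z) z x

/-- the corrected flux density -/
def WW (S : Setup n) (e : ℝ) (f z : E n → ℝ) (x : E n) : E n :=
  volDensity (gB S e f z) x • (VE S e f z x - VL S e f z x)

theorem c_ze (e : ℝ) : ContDiff ℝ ∞ (ze e : E n → ℝ) := contDiff_const.sub (Bs.contDiff_eta _)

theorem ze_sq_le (e : ℝ) (x : E n) : ze e x ^ 2 ≤ 1 :=
  pow_le_one₀ (sub_nonneg.2 (Bs.eta_le_one _ _)) (sub_le_self _ (Bs.eta_nonneg _ _))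

theorem c_uu (h : Sl S e M z3 an f z) : ContDiff ℝ ∞ (uu z) :=
  (contDiff_const.mul h.z_smooth).exp

theorem c_grad (h : Sl S e M z3 an f z) (x : E n) : ContDiffAt ℝ ∞ (grad (gB S e f z) z) x :=
  contDiffAt_grad h.jd.riemb trivial h.z_smooth.contDiffAt (by simp) le_rfl

theorem c_VE (hG : Geo S P T0 R bp) (h : Sl S e M z3 an f z) (x : E n) :
    ContDiffAt ℝ ∞ (VE S e f z) x :=
  ((h.jd.cφ trivial).mul (c_uu h).contDiffAt).smul
    (((h.jd.c_qv hG.symK trivial).const_smul (2 : ℝ)).add ((c_grad h x).const_smul (2 : ℝ)))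

theorem c_VL (h : Sl S e M z3 an f z) (x : E n) : ContDiffAt ℝ ∞ (VL S e f z) x :=
  (contDiff_const.mul ((c_ze e).pow 2)).contDiffAt.smul (c_grad h x)

theorem c_WW (hG : Geo S P T0 R bp) (h : Sl S e M z3 an f z) : ContDiff ℝ 1 (WW S e f z) :=
  contDiff_iff_contDiffAt.2 fun x => ((Bs.contDiff_volDensity h.jd.riemb).contDiffAt.smul
    ((c_VE hG h x).sub (c_VL h x))).of_le (by simp)

theorem div_WW (hG : Geo S P T0 R bp) (h : Sl S e M z3 an f z) (x : E n) :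
    divE (fun y i => WW S e f z y i) x = volDensity (gB S e f z) x *
      (divg (gB S e f z) (VE S e f z) x - divg (gB S e f z) (VL S e f z) x) := by
  have d1 := (c_VE hG h x).differentiableAt (by simp)
  have d2 := (c_VL h x).differentiableAt (by simp)
  have h1 := divg_add h.jd.riemb (mem_univ x) (d1.sub d2) d2
  have h2 := (Bs.volDensity_pos h.jd.riemb x).ne'
  simp only [Pi.sub_apply, sub_add_cancel] at h1
  rw [show divg (gB S e f z) (VE S e f z) x = _ from h1, add_sub_cancel_right, divg, ← mul_assoc,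
    show volDensity (gB S e f z) x * (1 / √(gB S e f z x).det) = 1 from mul_one_div_cancel h2,
    one_mul]
  rfl

theorem uu_ge (hn : 3 ≤ n) (hS : S.OK) (hz : ZLo S z) (x : E n) : 1 / 3 ≤ uu z x := by
  have h1 := hz x
  have h2 := Setup.OK.θ_le hS
  have h3 := al_ge hn
  have h4 := al_le hn
  have : -1 ≤ al n * z x := by nlinarith
  exact ((by norm_num : (1 / 3 : ℝ) ≤ 0.36787944116).trans Real.exp_neg_one_gt_d9.le).trans
    (Real.exp_le_exp.2 this)

theorem N_nonneg (hG : Geo S P T0 R bp) (h : Sl S e M z3 an f z) (x : E n) :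
    0 ≤ normSqK (gB S e f z) (ZZ S.g (ph S e f z) f S.K) x :=
  Bd.normSqK_nonneg h.jd.riemb trivial ((h.jd.symT_ZZ hG.symK).symm x trivial)

/-- the two lower bounds of the energy density that are used -/
theorem ed_ge (hS : S.OK) (he : 0 < e) (h : Sl S e M z3 an f z) (x : E n) :
    volDensity (gB S e f z) x * uu z x * (ph S e f z x *
      (normSqK (gB S e f z) (ZZ S.g (ph S e f z) f S.K) x + gam (gB S e f z) z z x)
      + e ^ 3 * pp' S e f z x) ≤ ed S e f z x := by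
  have h1 := Bs.volDensity_pos h.jd.riemb x
  have h2 : 0 < uu z x := Real.exp_pos _
  have h3 := h.jd.φ_pos x trivial
  have h4 := bil_self_nonneg h.jd.riemb (mem_univ x) (qv S.g (ph S e f z) f S.K x)
  have h5 := Setup.OK.mw_pos hS x
  have h6 := h.jd.pp_nonneg (mem_univ x)
  have h7 := h.jd.one_le_gm (mem_univ x)
  rw [ed, mul_assoc]
  refine mul_le_mul_of_nonneg_left (mul_le_mul_of_nonneg_left (add_le_add
    (mul_le_mul_of_nonneg_left (by linarith) h3.le) (mul_le_mul_of_nonneg_right ?_ h6)) h2.le) h1.le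
  exact le_mul_of_one_le_right (by positivity) h7

theorem ed_nonneg (hS : S.OK) (hG : Geo S P T0 R bp) (he : 0 < e) (h : Sl S e M z3 an f z)
    (x : E n) : 0 ≤ ed S e f z x := by
  have h1 := Bs.volDensity_pos h.jd.riemb x
  have h2 : 0 < uu z x := Real.exp_pos _
  have h3 := h.jd.φ_pos x trivial
  have h4 := N_nonneg hG h x
  have h5 := gam_self_nonneg h.jd.riemb (mem_univ x) z
  have h6 := h.jd.pp_nonneg (mem_univ x)
  exact le_trans (by positivity) (ed_ge hS he h x)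

theorem continuous_ed (hG : Geo S P T0 R bp) (h : Sl S e M z3 an f z) :
    Continuous (ed S e f z) := by
  have hb := h.jd.riemb
  have hZ := h.jd.symT_ZZ hG.symK
  have cN : Continuous (normSqK (gB S e f z) (ZZ S.g (ph S e f z) f S.K)) := by
    have c1 := fun i j => (Bs.contDiff_inv hb i j).continuous
    have c2 := fun i j => (contDiffOn_univ.1 (hZ.smooth i j)).continuous
    exact continuous_finsetSum _ fun i _ => continuous_finsetSum _ fun j _ =>
      continuous_finsetSum _ fun a _ => continuous_finsetSum _ fun b _ =>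
        (((c1 i a).mul (c1 j b)).mul (c2 i j)).mul (c2 a b)
  have cm : Continuous S.mw := continuous_const.mul
    ((continuous_const.add (continuous_norm.pow 2)).rpow_const fun x =>
      .inl (add_pos_of_pos_of_nonneg one_pos (sq_nonneg ‖x‖)).ne')
  refine continuous_iff_continuousAt.2 fun x => ?_
  have cq := h.jd.c_qv hG.symK (mem_univ x)
  exact (Bs.contDiff_volDensity hb).continuous.continuousAt.mul
    ((c_uu h).continuous.continuousAt.mul (((h.jd.cφ trivial).continuousAt.mul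
      (((cN.continuousAt.add (contDiffAt_bil_apply (contDiffAt_entry hb trivial) cq
        cq).continuousAt).add (contDiffAt_gam hb trivial h.z_smooth.contDiffAt
          h.z_smooth.contDiffAt (m := ∞) (by simp) le_rfl).continuousAt).add cm.continuousAt)).add
      ((continuousAt_const.mul (h.jd.c_gm trivial).continuousAt).mul
        (h.jd.c_pp trivial).continuousAt)))

theorem gm_far (hn : 3 ≤ n) (hs : Sm P R e) (h : Sl S e M z3 an f z) (hF : GFar S e f z)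
    (hx : e⁻¹ ^ 5 ≤ ‖x‖) : gm' S e f z x ≤ 2 ∧
      gm' S e f z x ^ 2 * pp' S e f z x ≤ 6 * ((e⁻¹ ^ 5 / ‖x‖) ^ a0 n) ^ 2 := by
  have h1 := hF x (hs.far hx).le
  have h2 := h.jd.one_le_gm (mem_univ x)
  have h3 := h.jd.gm_sq_mul (mem_univ x)
  have hr : 0 < ‖x‖ := by linarith [hs.one_le]
  have h4 : 0 < e⁻¹ ^ 4 := by linarith [hs.X4, hs.X18]
  have h5 : 9 * e⁻¹ ^ 4 / ‖x‖ ≤ 1 / 2 := by rw [div_le_iff₀ hr]; linarith [hs.X5]
  have h6 : (9 * e⁻¹ ^ 4 / ‖x‖) ^ (4 * n) ≤ 1 / 2 :=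
    (pow_le_of_le_one (by positivity) (by linarith) (by omega)).trans h5
  have h7 : (9 * e⁻¹ ^ 4 / ‖x‖) ^ (4 * n) ≤ ((e⁻¹ ^ 5 / ‖x‖) ^ a0 n) ^ 2 := by
    have h8 : 0 < e⁻¹ ^ 5 / ‖x‖ := div_pos (by linarith [hs.one_le]) hr
    calc _ ≤ (e⁻¹ ^ 5 / ‖x‖) ^ (4 * n) := by gcongr; linarith [hs.X5]
      _ = (e⁻¹ ^ 5 / ‖x‖) ^ ((4 * n : ℕ) : ℝ) := (Real.rpow_natCast _ _).symm
      _ ≤ (e⁻¹ ^ 5 / ‖x‖) ^ (a0 n * 2) :=
          Real.rpow_le_rpow_of_exponent_ge h8 ((div_le_one hr).2 hx) (by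
            have := a0_le hn
            have := a0_ge hn
            push_cast; linarith)
      _ = _ := by rw [Real.rpow_mul h8.le, Real.rpow_two]
  have h9 : gm' S e f z x * (1 - (9 * e⁻¹ ^ 4 / ‖x‖) ^ (4 * n)) ≤ 1 :=
    (mul_le_mul_of_nonneg_left h1 (by linarith)).trans_eq (mul_inv_cancel₀ (by linarith))
  have h10 : 0 ≤ (9 * e⁻¹ ^ 4 / ‖x‖) ^ (4 * n) := by positivity
  have h11 : gm' S e f z x ≤ 2 := by nlinarith
  refine ⟨h11, ?_⟩
  have h12 : gm' S e f z x - 1 ≤ 2 * (9 * e⁻¹ ^ 4 / ‖x‖) ^ (4 * n) := by nlinarith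
  nlinarith

theorem vol_far (hn : 3 ≤ n) (hG : Geo S P T0 R bp) (hs : Sm P R e) (h : Sl S e M z3 an f z)
    (hF : GFar S e f z) (hx : e⁻¹ ^ 5 ≤ ‖x‖) : volDensity (gB S e f z) x ≤ 2 * P := by
  rw [h.jd.volDensity_gb trivial]
  exact mul_le_mul (gm_far hn hs h hF hx).1 (hG.vol_hi x) (Bs.volDensity_pos hG.riem x).le
    two_pos.le

theorem uu_far (hn : 3 ≤ n) (hS : S.OK) (hs : Sm P R e) (h : Sl S e M z3 an f z)
    (hF : FF S e f z T0) : ∃ A : ℝ, 1 ≤ A ∧ ∀ x, e⁻¹ ^ 5 ≤ ‖x‖ →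
      |uu z x - 1| ≤ A * (e⁻¹ ^ 5 / ‖x‖) ^ a0 n := by
  obtain ⟨B0, hB0, hB⟩ := h.exists_bound
  have hA : 1 ≤ 2 * Real.exp (2 * B0) := by linarith [Real.one_le_exp (by linarith : 0 ≤ 2 * B0)]
  refine ⟨_, hA, fun x hx => ?_⟩
  have h1 := hF.pfar _ hA (fun y hy => by
    have h2 := (gm_far hn hs h hF.gfar hy.ge).1
    have h3 : Real.exp (2 * z y) ≤ Real.exp (2 * B0) :=
      Real.exp_le_exp.2 (by linarith [(abs_le.1 (hB y).2.1).2])
    have := mul_le_mul h2 h3 (Real.exp_pos _).le two_pos.le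
    unfold psi; linarith) x hx
  have h2 := hF.zfar x (by linarith [hs.X4, hs.X18, hs.far hx])
  have hr : 0 < ‖x‖ := by linarith [hs.one_le]
  have h4 : 0 < e⁻¹ ^ 4 := by linarith [hs.X4, hs.X18]
  have h3 : (e⁻¹ ^ 4 / ‖x‖) ^ a0 n ≤ (e⁻¹ ^ 5 / ‖x‖) ^ a0 n := by
    have := a0_ge hn
    exact Real.rpow_le_rpow (by positivity)
      (div_le_div_of_nonneg_right (by linarith [hs.X5]) hr.le) (by linarith)
  have h5 : 0 ≤ (e⁻¹ ^ 4 / ‖x‖) ^ a0 n := by positivity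
  have h6 := Setup.OK.θ_le hS
  have h7 := al_ge hn
  have h8 := al_le hn
  have h9 := Real.add_one_le_exp (al n * z x)
  have h10 : Real.exp (2 * z x) ≤ psi S e f z x :=
    le_mul_of_one_le_left (Real.exp_pos _).le (h.jd.one_le_gm trivial)
  have h11 : -(e⁻¹ ^ 5 / ‖x‖) ^ a0 n ≤ z x := by nlinarith
  rw [abs_le, uu]
  rcases le_total (z x) 0 with hz | hz
  · have := Real.exp_le_one_iff.2 (by nlinarith : al n * z x ≤ 0)
    constructor <;> nlinarith
  · have := Real.exp_le_exp.2 (by nlinarith : al n * z x ≤ 2 * z x)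
    constructor <;> nlinarith

/-- the corrected flux is small at infinity -/
theorem WW_far (hn : 3 ≤ n) (hS : S.OK) (hG : Geo S P T0 R bp) (hs : Sm P R e)
    (h : Sl S e M z3 an f z) (hF : FF S e f z T0) : ∃ C : ℝ, 0 ≤ C ∧ ∀ x, 2 * e⁻¹ ^ 5 ≤ ‖x‖ →
      ‖WW S e f z x‖ ^ 2 ≤ ed S e f z x * (C * (1 + ‖x‖) ^ (-(2 * a0 n))) := by
  obtain ⟨A, hA, hu⟩ := uu_far hn hS hs h hF
  have hP := hG.P_ge
  have hρ := hs.one_le
  refine ⟨16 * P ^ 2 * (6 * (1 + A) + 3 * A ^ 2) * (2 * e⁻¹ ^ 5) ^ (2 * a0 n), by positivity,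
    fun x hx2 => ?_⟩
  have hx : e⁻¹ ^ 5 ≤ ‖x‖ := by linarith
  have hr : 0 < ‖x‖ := by linarith
  have hb := h.jd.riemb
  have ph1 : ph S e f z x = 1 := hF.zfar.ph_one hn hS hs.pos (hs.R0 hG) (hs.far hx).le
  have hed := ed_ge hS hs.pos h x
  have hv := vol_far hn hG hs h hF.gfar hx
  have hv0 := Bs.volDensity_pos hb x
  have hγ := (gm_far hn hs h hF.gfar hx).2
  have hu1 := hu x hx
  have hu3 := uu_ge hn hS hF.zlo x
  have hN := N_nonneg hG h x
  have hΓ := gam_self_nonneg hb (mem_univ x) z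
  have hp := h.jd.pp_nonneg (mem_univ x)
  have he := hs.pos
  have ha := a0_ge hn
  have hq : bil (gB S e f z x) (qv S.g (ph S e f z) f S.K x) (qv S.g (ph S e f z) f S.K x) ≤ _ :=
    shp_sq_le hb (mem_univ x) ((h.jd.symT_ZZ hG.symK).symm x trivial) _
  rw [Bd.gb_wv_wv h.jd trivial] at hq
  obtain ⟨t, ht⟩ : ∃ t, t = (e⁻¹ ^ 5 / ‖x‖) ^ a0 n := ⟨_, rfl⟩
  have t0 : 0 ≤ t := by rw [ht]; positivity
  have t1 : t ≤ 1 := ht ▸ Real.rpow_le_one (by positivity) ((div_le_one hr).2 hx) (by linarith)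
  have t2 : t ^ 2 ≤ (2 * e⁻¹ ^ 5) ^ (2 * a0 n) * (1 + ‖x‖) ^ (-(2 * a0 n)) := by
    rw [ht, ← Real.rpow_two, ← Real.rpow_mul (by positivity), mul_comm (a0 n),
      Real.rpow_neg (by positivity), ← div_eq_mul_inv,
      ← Real.div_rpow (by positivity) (by positivity)]
    refine Real.rpow_le_rpow (by positivity) ?_ (by linarith)
    rw [div_le_div_iff₀ hr (by positivity)]
    nlinarith
  rw [← ht] at hγ hu1
  have hW : WW S e f z x = volDensity (gB S e f z) x • ((2 * uu z x) • qv S.g (ph S e f z) f S.K x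
      + (2 * (uu z x - 1)) • grad (gB S e f z) z x) := by
    rw [WW, VE, VL, ph1, ze, Bs.eta_eq_zero (by linarith) hx2]
    congr 1
    module
  have h1 := (hG.g_lo x _).trans (mul_le_mul_of_nonneg_left (h.jd.bil_le_gb (mem_univ x)
    ((2 * uu z x) • qv S.g (ph S e f z) f S.K x + (2 * (uu z x - 1)) • grad (gB S e f z) z x))
    (by linarith))
  have h2 := bil_self_nonneg hb (mem_univ x)
    ((2 * uu z x) • qv S.g (ph S e f z) f S.K x - (2 * (uu z x - 1)) • grad (gB S e f z) z x)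
  rw [hW, norm_smul, mul_pow, Real.norm_of_nonneg hv0.le]
  rw [ph1] at hed
  simp only [map_add, map_sub, map_smul, add_apply, sub_apply, smul_apply, smul_eq_mul,
    ← gam_eq_bil hb (mem_univ x)] at h1 h2
  generalize ‖(2 * uu z x) • qv S.g (ph S e f z) f S.K x
    + (2 * (uu z x - 1)) • grad (gB S e f z) z x‖ = y at *
  generalize volDensity (gB S e f z) x = v at *
  generalize normSqK (gB S e f z) (ZZ S.g (ph S e f z) f S.K) x = N at *
  generalize gam (gB S e f z) z z x = Γ at *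
  generalize ed S e f z x = D at *
  generalize uu z x = u at *
  generalize (2 * e⁻¹ ^ 5) ^ (2 * a0 n) = k1 at *
  generalize (1 + ‖x‖) ^ (-(2 * a0 n)) = k2 at *
  have u1 : u ≤ 1 + A := by nlinarith [(abs_le.1 hu1).2]
  have u2 : (u - 1) ^ 2 ≤ (A * t) ^ 2 := sq_le_sq' (abs_le.1 hu1).1 (abs_le.1 hu1).2
  have d0 : 0 ≤ v * u * (e ^ 3 * pp' S e f z x) := by positivity
  have d1 : v * u * N ≤ D := by nlinarith [(by positivity : 0 ≤ v * u * Γ)]
  have d2 : v * Γ ≤ 3 * D := by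
    nlinarith [(by positivity : 0 ≤ v * u * N), mul_le_mul_of_nonneg_left hu3 (by positivity : 0 ≤ v * Γ)]
  have D0 : 0 ≤ D := le_trans (by positivity) d1
  have h3 : y ^ 2 ≤ 8 * P * (u ^ 2 * (N * (6 * t ^ 2)) + (A * t) ^ 2 * Γ) := by
    have a1 := mul_le_mul_of_nonneg_left (hq.trans (mul_le_mul_of_nonneg_left hγ hN)) (sq_nonneg u)
    have a2 := mul_le_mul_of_nonneg_right u2 hΓ
    refine h1.trans ?_
    rw [mul_comm 8 P, mul_assoc P]
    exact mul_le_mul_of_nonneg_left (by nlinarith) (by linarith)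
  calc v ^ 2 * y ^ 2 ≤ v ^ 2 * (8 * P * (u ^ 2 * (N * (6 * t ^ 2)) + (A * t) ^ 2 * Γ)) := by gcongr
    _ = 8 * P * v * (6 * u * (v * u * N) + A ^ 2 * (v * Γ)) * t ^ 2 := by ring
    _ ≤ 8 * P * (2 * P) * (6 * (1 + A) * D + A ^ 2 * (3 * D)) * (k1 * k2) := by gcongr
    _ = _ := by ring

theorem div_VL (hn : 3 ≤ n) (h : Sl S e M z3 an f z) (x : E n) :
    divg (gB S e f z) (VL S e f z) x ≤
      ze e x ^ 2 * (scalarCurv (gB S e f z) x + rhs S e M z3 an f z x)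
        + 8 * gam (gB S e f z) (ze e) (ze e) x := by
  have hb := h.jd.riemb
  have dz := Bs.smooth_diff (c_ze (n := n) e) x
  have h1 := divg_smul hb (mem_univ x) ((dz.pow 2).const_mul 2)
    ((c_grad h x).differentiableAt (by simp))
  have h2 : fderiv ℝ (fun y => 2 * (ze e ^ 2) y) x (grad (gB S e f z) z x)
      = 2 * ze e x * 2 * gam (gB S e f z) (ze e) z x := by
    simp only [Pi.pow_apply]
    rw [((dz.hasFDerivAt.pow 2).const_mul 2).fderiv, gam_eq_fderiv_grad]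
    simp; ring
  have h3 := gam_sq_le hb (mem_univ x) (ze e) z
  have h4 := gam_self_nonneg hb (mem_univ x) z
  have h5 := amgm (η := ze e x) (d := 2) (w := gam (gB S e f z) (ze e) z x)
    (D := 24 * gam (gB S e f z) z z x) (h := gam (gB S e f z) (ze e) (ze e) x / 24) (by positivity)
    (div_nonneg (gam_self_nonneg hb trivial _) (by norm_num)) (by linarith)
  have h6 := mul_le_mul_of_nonneg_right (al_ge hn) (mul_nonneg (sq_nonneg (ze e x)) h4)
  rw [show divg (gB S e f z) (VL S e f z) x = _ from h1, h2, divg_grad, ← h.U x]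
  simp only [Pi.pow_apply]
  nlinarith

theorem J2_le (hn : 3 ≤ n) (hG : Geo S P T0 R bp) (hs : Sm P R e) (h : Sl S e M z3 an f z)
    (hF : GFar S e f z) {c : ℝ} (hc : ∀ R : ℝ, 0 < R → ∀ x : E n, ‖fderiv ℝ (eta R) x‖ ≤ c / R)
    (x : E n) : volDensity (gB S e f z) x * (8 * gam (gB S e f z) (ze e) (ze e) x) ≤
      16 * P ^ 2 * c ^ 2 * 3 ^ (n + 1) * ((e⁻¹ ^ 5) ^ n / e⁻¹ ^ 5)
        * (1 + ‖x‖) ^ (-((n : ℝ) + 1)) := by
  have hρ := hs.one_le
  have hP := hG.P_ge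
  have h1 := (Bd.gam_gb_le h.jd (mem_univ x) (ze e)).trans
    (gam_le_norm hG.riem (mem_univ x) (by linarith) (hG.g_lo x) _)
  have h2 : fderiv ℝ (ze e) x = -fderiv ℝ (eta (e⁻¹ ^ 5)) x := fderiv_const_sub _
  have hv0 := Bs.volDensity_pos h.jd.riemb x
  rw [h2, norm_neg] at h1
  generalize hρ' : e⁻¹ ^ 5 = ρ at *
  by_cases hd : fderiv ℝ (eta ρ) x = 0
  · rw [hd, norm_zero] at h1
    exact le_trans (by nlinarith) (by positivity : (0 : ℝ) ≤ _)
  have a1 : ρ ≤ ‖x‖ := le_of_not_ge fun h => hd (Bs.fderiv_eta_of_le (by linarith) h)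
  have a2 : ‖x‖ ≤ 2 * ρ := le_of_not_ge fun h => hd (Bs.fderiv_eta_of_ge (by linarith) h)
  have hv := vol_far hn hG hs h hF (hρ' ▸ a1)
  have a3 := pow_le_pow_left₀ (norm_nonneg _) (hc ρ (by linarith) x) 2
  have a4 : ((3 * ρ) ^ (n + 1))⁻¹ ≤ (1 + ‖x‖) ^ (-((n : ℝ) + 1)) := by
    rw [Real.rpow_neg (by positivity), ← Nat.cast_succ, Real.rpow_natCast]
    gcongr; linarith
  calc _ ≤ 2 * P * (8 * (P * (c / ρ) ^ 2)) :=
        mul_le_mul hv (by nlinarith) (mul_nonneg (by norm_num) (gam_self_nonneg h.jd.riemb trivial _))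
          (by linarith)
    _ = 16 * P ^ 2 * c ^ 2 * 3 ^ (n + 1) * (ρ ^ n / ρ) * ((3 * ρ) ^ (n + 1))⁻¹ := by
        rw [mul_pow, pow_succ ρ]; field_simp; ring
    _ ≤ _ := by gcongr

theorem main_le (hn : 3 ≤ n) (hS : S.OK) (hG : Geo S P T0 R bp) (hs : Sm P R e)
    (h : Sl S e M z3 an f z) (hF : FF S e f z T0) (x : E n) :
    volDensity (gB S e f z) x * (ze e x ^ 2 * (scalarCurv (gB S e f z) x + rhs S e M z3 an f z x))
      ≤ volDensity (gB S e f z) x * (ph S e f z x * uu z x *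
        (an x * z x + (S.par e M z3).vt (z x))) + ed S e f z x / 24
        + 2 * P ^ 2 * 2 ^ ((n : ℝ) + S.e0) * (1 + ‖x‖) ^ (-((n : ℝ) + S.e0)) := by
  have hρ := hs.one_le
  have hP := hG.P_ge
  have he := hs.pos
  have hv0 := Bs.volDensity_pos h.jd.riemb x
  have hvt := h.vt_nonneg (x := x) (by linarith [hF.zlo x])
  have u0 : 0 < uu z x := Real.exp_pos _
  rcases le_total ‖x‖ (e⁻¹ ^ 5) with hx | hx
  · have h1 := ed_nonneg hS hG he h x
    have h2 := h.jd.φ_pos x trivial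
    rw [ze, Bs.eta_eq_one (by linarith) hx, h.an_zero x (by linarith)]
    simp only [sub_self, zero_mul, zero_add, mul_zero, ne_eq, OfNat.ofNat_ne_zero,
      not_false_eq_true, zero_pow]
    positivity
  have hr : 1 ≤ ‖x‖ := hρ.trans hx
  have hR0 : 2 * S.R0 ≤ ‖x‖ := (hs.R0 hG).trans (hs.far hx).le
  have ph1 : ph S e f z x = 1 := hF.zfar.ph_one hn hS he (hs.R0 hG) (hs.far hx).le
  have hed := ed_ge hS he h x
  have hv := vol_far hn hG hs h hF.gfar hx
  have hu3 := uu_ge hn hS hF.zlo x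
  have hN := N_nonneg hG h x
  have hΓ := gam_self_nonneg h.jd.riemb (mem_univ x) z
  have hp := h.jd.pp_nonneg (mem_univ x)
  have hz1 := ze_sq_le e x
  have hz0 := sq_nonneg (ze e x)
  have hal := al_ge hn
  have b1 := id_G_const h.jd (mem_univ x) (hF.zfar.ph_ev hn hS he (hs.R0 hG) (hs.far hx))
  have b2 := Bd.normSqK_nonneg h.jd.riemb (mem_univ x) (h.jd.symT_hh.symm x trivial)
  have b3 := (abs_le.1 (hG.R_far x (hs.farR hx))).2
  have b4 := (abs_le.1 (hG.Ric_far x (wv S.g (ph S e f z) f x) (hs.farR hx))).1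
  have b5 := Setup.OK.mw_pos hS x
  have b6 : 0 ≤ e ^ 3 * pp' S e f z x := by positivity
  rw [h.H0_far hS hR0] at b1
  rw [h.jd.bil_wv_wv trivial] at b4
  have c1 : scalarCurv (gB S e f z) x + rhs S e M z3 an f z x ≤
      (P * ‖x‖ ^ (-(n : ℝ) - S.e0) + 2 * (P * ‖x‖ ^ (-(n : ℝ)) * pp' S e f z x))
        + (an x * z x + (S.par e M z3).vt (z x)) := by
    rw [rhs_far hS hR0, hF.zfar.sz_zero hn hS he (hs.far hx).le]
    linarith
  have c2 : ze e x ^ 2 * (an x * z x) ≤ uu z x * (an x * z x) := by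
    rcases le_total ‖x‖ (2 * e⁻¹ ^ 5) with h2 | h2
    · simp [h.an_zero x h2]
    · have h3 := (h.an_mem x).1
      rw [ze, Bs.eta_eq_zero (by linarith) h2, uu]
      rcases le_total (z x) 0 with hz | hz
      · have := Real.exp_le_one_iff.2 (by nlinarith : al n * z x ≤ 0)
        nlinarith [mul_nonneg h3 (neg_nonneg.2 hz)]
      · have := Real.one_le_exp (by positivity : 0 ≤ al n * z x)
        nlinarith [mul_nonneg h3 hz]
  have c3 : ze e x ^ 2 * (S.par e M z3).vt (z x) ≤ uu z x * (S.par e M z3).vt (z x) := by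
    rcases le_total (z x) 0 with hz | hz
    · simp [le_antisymm (h.vt_nonpos hz) hvt]
    · exact mul_le_mul_of_nonneg_right
        (hz1.trans (Real.one_le_exp (by positivity : 0 ≤ al n * z x))) hvt
  have c4 : P * ‖x‖ ^ (-(n : ℝ)) ≤ e ^ 3 / 144 := by
    have hn3 : (3 : ℝ) ≤ n := by exact_mod_cast hn
    have d1 : ‖x‖ ^ (-(n : ℝ)) ≤ ‖x‖⁻¹ := by
      rw [← Real.rpow_neg_one]; exact Real.rpow_le_rpow_of_exponent_le hr (by linarith)
    have d2 : ‖x‖⁻¹ ≤ e ^ 4 := by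
      rw [← inv_inv (e ^ 4), ← inv_pow]
      exact inv_anti₀ (by positivity) (by linarith [hs.far hx, hs.X4, hs.X18])
    have d3 : 144 * P * e ≤ 1 :=
      (mul_le_mul_of_nonneg_right hs.XP he.le).trans_eq (inv_mul_cancel₀ he.ne')
    calc _ ≤ P * e ^ 4 := mul_le_mul_of_nonneg_left (d1.trans d2) (by linarith)
      _ = 144 * P * e * (e ^ 3 / 144) := by ring
      _ ≤ _ := mul_le_of_le_one_left (by positivity) d3
  have c5 : ‖x‖ ^ (-(n : ℝ) - S.e0) ≤ 2 ^ ((n : ℝ) + S.e0) * (1 + ‖x‖) ^ (-((n : ℝ) + S.e0)) := by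
    have := hS.good.e0_pos
    rw [← neg_add', Real.rpow_neg (by positivity), Real.rpow_neg (by positivity), ← div_eq_mul_inv,
      ← Real.div_rpow (by positivity) (by positivity), ← Real.inv_rpow (by positivity)]
    refine Real.rpow_le_rpow (by positivity) ?_ (by positivity)
    rw [inv_eq_one_div, div_le_div_iff₀ (by positivity) (by positivity)]
    linarith
  have c6 : volDensity (gB S e f z) x * (P * ‖x‖ ^ (-(n : ℝ) - S.e0)) ≤
      2 * P * (P * (2 ^ ((n : ℝ) + S.e0) * (1 + ‖x‖) ^ (-((n : ℝ) + S.e0)))) := by gcongr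
  have c7 : volDensity (gB S e f z) x * (P * ‖x‖ ^ (-(n : ℝ)) * pp' S e f z x)
      ≤ ed S e f z x / 48 := by
    rw [ph1] at hed
    have d1 := mul_le_mul_of_nonneg_left hu3 (mul_nonneg hv0.le b6)
    have d2 := mul_le_mul_of_nonneg_left (mul_le_mul_of_nonneg_right c4 hp) hv0.le
    nlinarith [mul_nonneg (mul_pos hv0 u0).le (add_nonneg hN hΓ)]
  have c8 : ze e x ^ 2 * (scalarCurv (gB S e f z) x + rhs S e M z3 an f z x) ≤
      (P * ‖x‖ ^ (-(n : ℝ) - S.e0) + 2 * (P * ‖x‖ ^ (-(n : ℝ)) * pp' S e f z x))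
        + uu z x * (an x * z x + (S.par e M z3).vt (z x)) := by
    have d1 := mul_le_mul_of_nonneg_left c1 hz0
    have d2 := mul_le_of_le_one_left (by positivity : 0 ≤ P * ‖x‖ ^ (-(n : ℝ) - S.e0)
      + 2 * (P * ‖x‖ ^ (-(n : ℝ)) * pp' S e f z x)) hz1
    nlinarith
  have c9 := mul_le_mul_of_nonneg_left c8 hv0.le
  rw [ph1]
  nlinarith

end S7c

open S7c in
theorem s7c : S7cStmt := by
  intro P1 n hn S hS P T0 R bp hG
  obtain ⟨c, -, hc⟩ := Bs.exists_eta_grad n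
  have hP := hG.P_ge
  have i1 := integrable_jap (n := n) (b := n + S.e0) (by linarith [hS.good.e0_pos])
  have i2 := integrable_jap (n := n) (b := n + 1) (by linarith)
  obtain ⟨B1, hB1⟩ : ∃ B, B = 2 * P ^ 2 * 2 ^ ((n : ℝ) + S.e0) *
    ∫ x : E n, (1 + ‖x‖) ^ (-((n : ℝ) + S.e0)) := ⟨_, rfl⟩
  obtain ⟨B2, hB2⟩ : ∃ B, B = 16 * P ^ 2 * c ^ 2 * 3 ^ (n + 1) *
    ∫ x : E n, (1 + ‖x‖) ^ (-((n : ℝ) + 1)) := ⟨_, rfl⟩
  have b1 : 0 ≤ B1 := hB1 ▸ mul_nonneg (by positivity) (integral_nonneg fun x => by positivity)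
  have b2 : 0 ≤ B2 := hB2 ▸ mul_nonneg (by positivity) (integral_nonneg fun x => by positivity)
  have hR : 0 ≤ R := by linarith [hG.R_ge, hS.good.R0_ge]
  refine ⟨(R + 144 * P + 48 * (1 + B1 + B2))⁻¹, by positivity,
    fun e he he1 M z3 an f z h hF hE hi hc1 => ?_⟩
  have hX : R + 144 * P + 48 * (1 + B1 + B2) ≤ e⁻¹ := (le_inv_comm₀ he (by positivity)).1 he1
  have hs : Sm P R e := ⟨he, by linarith, by linarith, by linarith⟩
  obtain ⟨C, hC, hW⟩ := WW_far hn hS hG hs h hF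
  have j1 := i1.const_mul (2 * P ^ 2 * 2 ^ ((n : ℝ) + S.e0))
  have j2 := i2.const_mul (16 * P ^ 2 * c ^ 2 * 3 ^ (n + 1) * ((e⁻¹ ^ 5) ^ n / e⁻¹ ^ 5))
  have key := energy_abs (continuous_ed hG h) (ed_nonneg hS hG he h) ((hi.add j1).add j2)
    (c_WW hG h) (fun x => by
      have a1 := hE x
      have a2 := mul_le_mul_of_nonneg_left (div_VL hn h x) (Bs.volDensity_pos h.jd.riemb x).le
      have a3 := J2_le hn hG hs h hF.gfar hc x
      have a4 := main_le hn hS hG hs h hF x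
      rw [div_WW hG h]
      simp only [Pi.add_apply]
      linarith) (by
      have : (3 : ℝ) ≤ n := by exact_mod_cast hn
      unfold a0; linarith) hC hW
  refine ⟨key.1, key.2.trans ?_⟩
  have hρ := hs.one_le
  have hk : 1 ≤ (e⁻¹ ^ 5) ^ n / e⁻¹ ^ 5 :=
    (one_le_div (by linarith)).2 (le_self_pow₀ hρ (by omega))
  have h5 : e⁻¹ ≤ e⁻¹ ^ 5 := by linarith [hs.X4, hs.X5, hs.X18]
  rw [integral_add' (hi.add j1) j2, integral_add' hi j1, integral_const_mul, integral_const_mul,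
    ← hB1, mul_right_comm, ← hB2, pow_mul, ← mul_div_cancel₀ ((e⁻¹ ^ 5) ^ n) (by linarith : e⁻¹ ^ 5 ≠ 0),
    mul_div_cancel_left₀ _ (by linarith : e⁻¹ ^ 5 ≠ 0)]
  nlinarith

end Crest.Agent.N346.Bd

end
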