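import Crest.Agent.N346.Bd.Lin

/-!
Row 346, Bd-S7d (helper16): without anchor the flux of `u = exp (α z / 2)` is at most the cost.
-/

set_option autoImplicit false

open MeasureTheory Filter Set
open scoped ContDiff Topology
open Crest.GeometryTopology.CoordMetric Crest.MathPhysics.ExteriorData
open Crest.Agent.R202.Tens Crest.Agent.R247.Bo84 Crest.Agent.N346.Id Crest.Agent.N346.P1

noncomputable section

namespace Crest.Agent.N346.Bd.S7dx

variable {n : ℕ}

theorem integrable_of_far {F G : E n → ℝ} (hF : Continuous F) (hG : Integrable G) {R : ℝ}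
    (h : ∀ x, R ≤ ‖x‖ → |F x| ≤ G x) : Integrable F := by
  rw [← integrableOn_univ, ← union_compl_self (Metric.closedBall (0 : E n) R)]
  refine (hF.continuousOn.integrableOn_compact (isCompact_closedBall _ _)).union ?_
  refine Integrable.mono' hG.integrableOn hF.aestronglyMeasurable ?_
  refine (ae_restrict_iff' Metric.isClosed_closedBall.measurableSet.compl).2 (.of_forall ?_)
  intro x hx
  exact h x (le_of_lt (by simpa using hx))

theorem exp_sub_le {a b B : ℝ} (ha : a ≤ B) (hb : b ≤ B) :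
    |Real.exp a - Real.exp b| ≤ Real.exp B * |a - b| := by
  wlog h : b ≤ a generalizing a b
  · rw [abs_sub_comm, abs_sub_comm a]; exact this hb ha (le_of_not_ge h)
  rw [abs_of_nonneg (sub_nonneg.2 (Real.exp_le_exp.2 h)), abs_of_nonneg (sub_nonneg.2 h)]
  have h1 := Real.add_one_le_exp (b - a)
  have h2 : Real.exp b = Real.exp a * Real.exp (b - a) := by rw [← Real.exp_add]; congr 1; ring
  have h3 := Real.exp_pos a
  have h4 := mul_le_mul_of_nonneg_right (Real.exp_le_exp.2 ha) (sub_nonneg.2 h)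
  nlinarith

theorem abs_le_of_sq {q A B : ℝ} (hA : 0 ≤ A) (hB : 0 ≤ B) (h : q ^ 2 ≤ A * B) : |q| ≤ A + B :=
  abs_le_of_sq_le_sq (by nlinarith [mul_nonneg hA hB]) (by positivity)

theorem flux_le {u c : E n → ℝ} {V : VectorField n} {a : ℝ} (ha0 : 0 ≤ a) (ha : a ≤ 1)
    (hu : ContDiff ℝ ∞ u) (hV : ∀ i, ContDiff ℝ ∞ fun x => V x i) (hc : Integrable c)
    (hc0 : ∀ x, 0 ≤ c x) (hd : ∀ x, -c x ≤ divE V x)
    (hW : ∀ i, Integrable fun x => (pderiv i u x - a * V x i) / (1 + ‖x‖)) :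
    FluxLE u (∫ x, c x) := by
  intro ε hε
  have cW : ∀ i, Continuous fun x => pderiv i u x - a * V x i := fun i =>
    (Bs.contDiff_pd hu i).continuous.sub (continuous_const.mul (hV i).continuous)
  have h1 := tendsto_finsetSum Finset.univ fun i _ =>
    Bs.tendsto_integral_pd_eta (cW i).aestronglyMeasurable (hW i) i
  rw [Finset.sum_const_zero] at h1
  refine eventually_atTop.1 ?_
  filter_upwards [h1.eventually (gt_mem_nhds hε), eventually_gt_atTop 0] with R h2 hR
  have hs := Bs.hasCompactSupport_eta (n := n) hR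
  have ce := Bs.contDiff_eta (n := n) R
  have it : ∀ i {F : E n → ℝ}, Continuous F → Integrable fun x => pderiv i (eta R) x * F x :=
    fun i F hF => ((Bs.contDiff_pd ce i).continuous.mul hF).integrable_of_hasCompactSupport
      (Bs.hasCompactSupport_pd hs i).mul_right
  have e1 : flux u R = (∑ i, ∫ x, pderiv i (eta R) x * (pderiv i u x - a * V x i))
      + a * ∫ x, ∑ i, pderiv i (eta R) x * V x i := by
    rw [← integral_finsetSum _ fun i _ => it i (cW i), ← integral_const_mul, ← integral_add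
      (integrable_finsetSum _ fun i _ => it i (cW i))
      ((integrable_finsetSum _ fun i _ => it i (hV i).continuous).const_mul a), flux]
    refine integral_congr_ae (.of_forall fun x => ?_)
    simp only [Finset.mul_sum, ← Finset.sum_add_distrib]
    exact Finset.sum_congr rfl fun i _ => by ring
  have e2 := Bs.integral_eta_divE hR fun i => Bs.smooth_one (hV i)
  have h3 : ∫ x, -c x ≤ ∫ x, eta R x * divE V x := by
    refine integral_mono hc.neg ((ce.continuous.mul
      (Bs.contDiff_divE hV).continuous).integrable_of_hasCompactSupport hs.mul_right) fun x => ?_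
    have := Bs.eta_nonneg R x
    have := Bs.eta_le_one R x
    have := hc0 x
    have := hd x
    show -c x ≤ eta R x * divE V x
    nlinarith
  rw [integral_neg] at h3
  have h4 : 0 ≤ ∫ x, c x := integral_nonneg hc0
  rw [e1]
  nlinarith

theorem point {g K : MetricField n} {φ f z : E n → ℝ} {x : E n} {P C ψ α t : ℝ}
    (hn : 3 ≤ n) (hd : Jd g φ f univ) (hK : SymT K univ) (hP : 0 ≤ P)
    (lo : ∀ Y, ‖Y‖ ^ 2 ≤ P * bil (g x) Y Y) (hi : ∀ Y, bil (g x) Y Y ≤ P * ‖Y‖ ^ 2)
    (hg : g x = Real.exp (2 * ψ) • (1 : Matrix (Fin n) (Fin n) ℝ)) (α0 : 0 ≤ α) (α1 : α ≤ 1)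
    (hC : 0 ≤ C) (t1 : t ≤ 1) (h1 : |z x| ≤ C * t) (h2 : Real.log (gm g φ f x) ≤ C * t)
    (h3 : |ψ| ≤ C * t) {B Γ : ℝ} (hB : B = (n + 2) * C) (hΓ : Γ = Real.exp B) (i : Fin n) :
    pderiv i z x ^ 2 ≤ P * Γ ^ 2 * gam (gb g φ f) z z x ∧
    |Real.exp (α * z x / 2) * pderiv i z x - volDensity (gb g φ f) x * (Real.exp (α * z x) *
      (qv g φ f K x i + grad (gb g φ f) z x i))| / (1 + ‖x‖) ≤
      (Γ * B * t / (1 + ‖x‖)) ^ 2 + (P * Γ ^ 2 + Γ ^ 3) * gam (gb g φ f) z z x
        + P * Γ ^ 3 * normSqK (gb g φ f) (ZZ g φ f K) x + Γ * (1 + P) * pp g φ f x := by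
  have hx := mem_univ x
  have hn3 : (3 : ℝ) ≤ n := by exact_mod_cast hn
  have hγ := hd.gm_pos hx
  have hγ1 := hd.one_le_gm hx
  have hl := Real.log_nonneg hγ1
  have hCt : C * t ≤ C := mul_le_of_le_one_right hC t1
  have hCt0 : 0 ≤ C * t := hl.trans h2
  have hz := abs_le.1 h1
  have hψ := abs_le.1 h3
  have hαz : |α * z x| ≤ C * t := by
    rw [abs_mul, abs_of_nonneg α0]
    exact (mul_le_of_le_one_left (abs_nonneg _) α1).trans h1
  have hαz' := abs_le.1 hαz
  have n1 : (n - 2) * ψ ≤ (n - 2) * (C * t) := mul_le_mul_of_nonneg_left hψ.2 (by linarith)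
  have n2 : (n - 2) * -(C * t) ≤ (n - 2) * ψ := mul_le_mul_of_nonneg_left hψ.1 (by linarith)
  have n3 : (n - 2) * (C * t) ≤ (n - 2) * C := mul_le_mul_of_nonneg_left hCt (by linarith)
  have n4 : 0 ≤ (n - 2) * (C * t) := mul_nonneg (by linarith) hCt0
  have n5 : B * t = (n + 2) * (C * t) := by rw [hB]; ring
  have hγΓ : gm g φ f x ≤ Γ := by
    rw [hΓ, ← Real.exp_log hγ]
    exact Real.exp_le_exp.2 (by linarith)
  have hΓ0 : 0 < Γ := hγ.trans_le hγΓ
  have hG := gam_self_nonneg hd.riemb hx z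
  have hN := normSqK_nonneg hd.riemb hx ((hd.symT_ZZ hK).symm x hx)
  have hp := hd.pp_nonneg hx
  have hp1 := (hd.pp_lt_one hx).le
  have hgz : gam g z z x ≤ Γ ^ 2 * gam (gb g φ f) z z x := (gam_le_gb hd hx z).trans (by gcongr)
  have k1 : pderiv i z x ^ 2 ≤ P * Γ ^ 2 * gam (gb g φ f) z z x := by
    rw [← sq_abs, mul_assoc]
    exact (pow_le_pow_left₀ (abs_nonneg _) (Bs.abs_pd_le i z x) 2).trans
      ((norm_sq_le_gam hd.riem hx hP hi z).trans (by gcongr))
  refine ⟨k1, ?_⟩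
  have hvol : volDensity g x = Real.exp (n * ψ) := by
    rw [volDensity, hg, Matrix.det_smul, Matrix.det_one, mul_one, Fintype.card_fin,
      ← Real.exp_nat_mul, Real.sqrt_eq_iff_mul_self_eq (Real.exp_pos _).le (Real.exp_pos _).le,
      ← Real.exp_add]
    congr 1; ring
  have hgr : grad g z x i = Real.exp (-(2 * ψ)) * pderiv i z x := by
    have : (g x)⁻¹ = Real.exp (-(2 * ψ)) • (1 : Matrix (Fin n) (Fin n) ℝ) := by
      refine Matrix.inv_eq_left_inv ?_
      rw [hg, Matrix.smul_mul, Matrix.one_mul, smul_smul, ← Real.exp_add]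
      simp
    simp [grad_apply, inverseField, this, Matrix.one_apply]
  obtain ⟨V, hV⟩ : ∃ V, V = volDensity (gb g φ f) x * Real.exp (α * z x) := ⟨_, rfl⟩
  have eV : V = Real.exp (Real.log (gm g φ f x) + n * ψ + α * z x) := by
    rw [hV, hd.volDensity_gb hx, hvol, Real.exp_add, Real.exp_add, Real.exp_log hγ]
  have hV0 : 0 < V := eV ▸ Real.exp_pos _
  have hVΓ : V ≤ Γ := by
    rw [eV, hΓ]
    exact Real.exp_le_exp.2 (by linarith)
  obtain ⟨δ, hδ⟩ : ∃ δ, δ = Real.exp (α * z x / 2) - V * Real.exp (-(2 * ψ)) := ⟨_, rfl⟩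
  have kδ : |δ| ≤ Γ * B * t := by
    rw [hδ, eV, ← Real.exp_add]
    refine (exp_sub_le (B := B) (by linarith) (by linarith)).trans ?_
    rw [← hΓ, mul_assoc]
    exact mul_le_mul_of_nonneg_left (abs_le.2 ⟨by linarith, by linarith⟩) hΓ0.le
  have comp : ∀ Y : E n, Y i ^ 2 ≤ P * bil (g x) Y Y := fun Y => by
    rw [← sq_abs]
    exact (pow_le_pow_left₀ (abs_nonneg _) (PiLp.norm_apply_le Y i) 2).trans (lo Y)
  have kq : |qv g φ f K x i| ≤ P * Γ ^ 2 * normSqK (gb g φ f) (ZZ g φ f K) x + pp g φ f x := by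
    refine abs_le_of_sq (by positivity) hp ((comp _).trans ?_)
    have q0 := bil_self_nonneg hd.riemb hx (qv g φ f K x)
    have q1 := bil_sq_le_normSq hd.riemb hx ((hd.symT_ZZ hK).symm x hx) (wv g φ f x) (qv g φ f K x)
    rw [← hd.gb_qv hK hx, gb_wv_wv hd hx] at q1
    have q2 : bil (gb g φ f x) (qv g φ f K x) (qv g φ f K x)
        ≤ normSqK (gb g φ f) (ZZ g φ f K) x * (gm g φ f x ^ 2 * pp g φ f x) := by
      rcases q0.eq_or_lt with q0 | q0
      · rw [← q0]; positivity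
      · exact le_of_mul_le_mul_right (by linarith) q0
    calc _ ≤ P * (normSqK (gb g φ f) (ZZ g φ f K) x * (Γ ^ 2 * pp g φ f x)) :=
          mul_le_mul_of_nonneg_left ((hd.bil_le_gb hx _).trans (q2.trans (by gcongr))) hP
      _ = _ := by ring
  have kw : |fderiv ℝ z x (wv g φ f x) * wv g φ f x i|
      ≤ Γ ^ 2 * gam (gb g φ f) z z x + P * pp g φ f x := by
    refine abs_le_of_sq (by positivity) (by positivity) ?_
    have w1 := comp (wv g φ f x)
    rw [hd.bil_wv_wv hx] at w1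
    rw [mul_pow]
    exact mul_le_mul ((fderiv_wv_sq_le hd hx z).trans ((mul_le_of_le_one_left
      (gam_self_nonneg hd.riem hx z) hp1).trans hgz)) w1 (sq_nonneg _) (by positivity)
  have hr : 0 < 1 + ‖x‖ := by positivity
  have kd : |δ * pderiv i z x| / (1 + ‖x‖)
      ≤ (Γ * B * t / (1 + ‖x‖)) ^ 2 + P * Γ ^ 2 * gam (gb g φ f) z z x := by
    rw [← abs_of_pos hr, ← abs_div, abs_of_pos hr]
    refine abs_le_of_sq (sq_nonneg _) (by positivity) ?_
    rw [mul_div_right_comm, mul_pow]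
    refine mul_le_mul ?_ k1 (sq_nonneg _) (sq_nonneg _)
    rw [div_pow, div_pow, ← sq_abs δ]
    gcongr
  have e : Real.exp (α * z x / 2) * pderiv i z x - volDensity (gb g φ f) x * (Real.exp (α * z x) *
      (qv g φ f K x i + grad (gb g φ f) z x i)) = δ * pderiv i z x
        + V * (fderiv ℝ z x (wv g φ f x) * wv g φ f x i - qv g φ f K x i) := by
    rw [hd.grad_gb hx, PiLp.sub_apply, PiLp.smul_apply, hgr, hδ, hV, smul_eq_mul]
    ring
  have k2 : |V * (fderiv ℝ z x (wv g φ f x) * wv g φ f x i - qv g φ f K x i)| / (1 + ‖x‖)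
      ≤ Γ * (Γ ^ 2 * gam (gb g φ f) z z x + P * pp g φ f x
        + (P * Γ ^ 2 * normSqK (gb g φ f) (ZZ g φ f K) x + pp g φ f x)) := by
    refine (div_le_self (abs_nonneg _) (by linarith [norm_nonneg x])).trans ?_
    rw [abs_mul, abs_of_pos hV0]
    exact mul_le_mul hVΓ ((abs_sub _ _).trans (add_le_add kw kq)) (abs_nonneg _) hΓ0.le
  rw [e]
  refine (div_le_div_of_nonneg_right (abs_add_le _ _) hr.le).trans ?_
  rw [add_div]
  refine (add_le_add kd k2).trans (le_of_eq ?_)
  ring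

theorem cut_one {a b t : ℝ} (hab : a < b) (h : b ≤ t) : cut a b t = 1 :=
  Real.smoothTransition.one_of_one_le ((one_le_div (by linarith)).2 (by linarith))

theorem div_rpow_le {ρ r a : ℝ} (hρ : 0 ≤ ρ) (hr : 1 ≤ r) (ha : 0 ≤ a) :
    (ρ / r) ^ a ≤ (2 * ρ) ^ a * (1 + r) ^ (-a) := by
  rw [Real.rpow_neg (by positivity), ← div_eq_mul_inv, ← Real.div_rpow (by positivity)
    (by positivity)]
  refine Real.rpow_le_rpow (by positivity) ?_ ha
  rw [div_le_div_iff₀ (by positivity) (by positivity)]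
  nlinarith

theorem decay (hn : 3 ≤ n) {S : Setup n} (hS : S.OK) {e M z3 T0 : ℝ} {an f z : E n → ℝ}
    (he : 0 < e) (hs : Sl S e M z3 an f z) (h0 : ∀ x, an x = 0) (hF : FF S e f z T0) :
    ∃ C R : ℝ, 0 ≤ C ∧ S.R0 ≤ R ∧ ∀ x, R ≤ ‖x‖ → ph S e f z x = 1 ∧
      |z x| ≤ C * (1 + ‖x‖) ^ (-a0 n) ∧ Real.log (gm' S e f z x) ≤ C * (1 + ‖x‖) ^ (-a0 n) ∧
      |S.ψ x| ≤ C * (1 + ‖x‖) ^ (-a0 n) := by
  have hn3 : (3 : ℝ) ≤ n := by exact_mod_cast hn
  have ha : 0 ≤ a0 n := by unfold a0; linarith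
  have hθ : 0 < S.θ := hS.par_ok.θ_pos
  obtain ⟨B, -, hz, -⟩ := hs.bdd
  obtain ⟨R', hR'⟩ := hs.anch (S.θ / 4) (by positivity)
  have cψ : Continuous (psi S e f z) :=
    (continuous_iff_continuousAt.2 fun x => (hs.jd.c_gm (mem_univ x)).continuousAt).mul
      (Real.continuous_exp.comp (continuous_const.mul hz.continuous))
  obtain ⟨M', hM'⟩ := (isCompact_sphere (0 : E n) (e⁻¹ ^ 5)).exists_bound_of_continuousOn
    cψ.continuousOn
  have hp := hF.pfar (max M' 1) (le_max_right _ _) fun x hx => by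
    have := (le_abs_self _).trans (hM' x (by simpa using hx))
    linarith [le_max_left M' 1]
  obtain ⟨C1, hC1⟩ : ∃ C1, C1 = max M' 1 * (2 * e⁻¹ ^ 5) ^ a0 n := ⟨_, rfl⟩
  obtain ⟨C2, hC2⟩ : ∃ C2, C2 = S.θ * (2 * e⁻¹ ^ 4) ^ a0 n := ⟨_, rfl⟩
  have p1 : 0 ≤ C1 := by rw [hC1]; positivity
  have p2 : 0 ≤ C2 := by rw [hC2]; positivity
  have p3 : 0 ≤ S.C := zero_le_one.trans hS.good.C_ge
  refine ⟨C1 + 2 * C2 + S.C, max (max S.R0 R') (max (e⁻¹ ^ 4) (e⁻¹ ^ 5)), by positivity,
    (le_max_left _ _).trans (le_max_left _ _), fun x hx => ?_⟩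
  simp only [max_le_iff] at hx
  obtain ⟨⟨x1, x2⟩, x3, x4⟩ := hx
  have hr := hS.good.R0_ge.trans x1
  have ht : 0 ≤ (1 + ‖x‖) ^ (-a0 n) := by positivity
  have z1 : -(C2 * (1 + ‖x‖) ^ (-a0 n)) ≤ z x := by
    refine le_trans (neg_le_neg ?_) (hF.zfar x x3)
    rw [hC2, mul_assoc]
    exact mul_le_mul_of_nonneg_left (div_rpow_le (by positivity) hr ha) hθ.le
  have hγ := hs.jd.gm_pos (mem_univ x)
  have hl := Real.log_nonneg (hs.jd.one_le_gm (mem_univ x))
  have z2 : Real.log (gm' S e f z x) + 2 * z x ≤ C1 * (1 + ‖x‖) ^ (-a0 n) := by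
    rw [← Real.exp_le_exp, Real.exp_add, Real.exp_log hγ]
    refine (hp x x4).trans (le_trans ?_ (Real.add_one_le_exp _))
    rw [hC1, mul_assoc, add_comm]
    gcongr
    exact div_rpow_le (by positivity) hr ha
  have q1 := mul_nonneg p1 ht
  have q2 := mul_nonneg p2 ht
  have q3 := mul_nonneg p3 ht
  refine ⟨?_, abs_le.2 ⟨by linarith, by linarith⟩, by linarith, ?_⟩
  · have s2 := hS.good.s_far x x1
    have hz4 : |z x| < S.θ / 4 := lt_of_not_ge fun h => zero_ne_one ((h0 x).symm.trans (hR' x x2 h))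
    have c1 : cut (1 / 4) (1 / 2) (S.s x) = 1 := cut_one (by norm_num) (by linarith)
    have c2 : cut S.ra S.rb (S.s x) = 1 := cut_one hS.rab (by linarith [hS.rb_lt])
    have c3 : cut (-S.θ / 2) (-S.θ / 4) (z x) = 1 :=
      cut_one (by linarith) (by linarith [(abs_lt.1 hz4).1])
    simp only [ph, phi, Par.phiF, Par.chi, Par.Ph, Setup.par, Setup.coef, c1, c2, c3]
    ring
  · have h := hS.good.ψ_decay 0 (by norm_num) x
    rw [norm_iteratedFDeriv_zero, Real.norm_eq_abs] at h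
    have h2 : (1 + ‖x‖) ^ (2 - (n : ℝ) - ((0 : ℕ) : ℝ)) ≤ (1 + ‖x‖) ^ (-a0 n) :=
      Real.rpow_le_rpow_of_exponent_le (by linarith) (by unfold a0; push_cast; linarith)
    have := mul_le_mul_of_nonneg_left h2 p3
    linarith

end Crest.Agent.N346.Bd.S7dx

namespace Crest.Agent.N346.Bd
open S7dx

theorem s7d : S7dStmt := by
  intro P1 n hn S hS P T0 R bp hG
  refine ⟨1, one_pos, fun e he _ M z3 an f z hs h0 hF hE hc hc0 hed => ?_⟩
  have hn3 : (3 : ℝ) ≤ n := by exact_mod_cast hn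
  have ha : 0 ≤ a0 n := by unfold a0; linarith
  have α0 : 0 ≤ al n := div_nonneg (by linarith) (by linarith)
  have α1 : al n ≤ 1 := (div_le_one (by linarith)).2 (by linarith)
  have hP : 0 < P := by linarith [hG.P_ge]
  obtain ⟨C, R1, hC, hR1, hdec⟩ := decay hn hS he hs h0 hF
  obtain ⟨B, -, hz, -⟩ := hs.bdd
  have hd := hs.jd
  have hK := hG.symK
  have hvb := Bs.volDensity_pos hd.riemb
  have hN := fun x => normSqK_nonneg hd.riemb (mem_univ x) ((hd.symT_ZZ hK).symm x trivial)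
  have hq := fun x => bil_self_nonneg hd.riemb (mem_univ x) (qv S.g (ph S e f z) f S.K x)
  have hg := fun x => gam_self_nonneg hd.riemb (mem_univ x) z
  have hp := fun x => hd.pp_nonneg (mem_univ x)
  have hγ := fun x => hd.one_le_gm (mem_univ x)
  have hm : ∀ x, 0 ≤ S.mw x := fun x => le_trans (by positivity) (hG.mw_lo x)
  have hu : ∀ x, 0 < uu z x := fun x => Real.exp_pos _
  have hφ := fun x => hd.φ_pos x trivial
  have hed0 : ∀ x, 0 ≤ ed S e f z x := fun x => by
    have := hvb x; have := hN x; have := hq x; have := hg x; have := hp x; have := hγ x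
    have := hm x; have := hu x; have := hφ x
    unfold ed
    positivity
  obtain ⟨D, hD0, hD⟩ : ∃ D, 0 ≤ D ∧ ∀ x, R1 ≤ ‖x‖ →
      gam (gB S e f z) z z x ≤ D * ed S e f z x ∧
      normSqK (gB S e f z) (ZZ S.g (ph S e f z) f S.K) x ≤ D * ed S e f z x ∧
      pp' S e f z x ≤ D * ed S e f z x := by
    refine ⟨P * Real.exp 1 * (1 + (e ^ 3)⁻¹), by positivity, fun x hx => ?_⟩
    have v1 : P⁻¹ ≤ volDensity (gB S e f z) x := by
      rw [hd.volDensity_gb trivial]
      exact (hG.vol_lo x).trans (le_mul_of_one_le_left (Bs.volDensity_pos hd.riem x).le (hγ x))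
    have v2 : (Real.exp 1)⁻¹ ≤ uu z x := by
      rw [← Real.exp_neg]
      have h1 := hF.zlo x
      have h2 : S.θ ≤ 1 := hS.par_ok.θ_le
      exact Real.exp_le_exp.2 (by nlinarith)
    have v3 : P⁻¹ * ((Real.exp 1)⁻¹ * (normSqK (gB S e f z) (ZZ S.g (ph S e f z) f S.K) x
        + gam (gB S e f z) z z x + e ^ 3 * pp' S e f z x)) ≤ ed S e f z x := by
      have := hN x; have := hg x; have := hp x
      refine mul_le_mul v1 (mul_le_mul v2 ?_ (by positivity) (hu x).le) (by positivity) (hvb x).le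
      rw [(hdec x hx).1, one_mul]
      have : e ^ 3 * pp' S e f z x ≤ e ^ 3 * gm' S e f z x * pp' S e f z x := by
        rw [mul_assoc]
        exact mul_le_mul_of_nonneg_left (le_mul_of_one_le_left (hp x) (hγ x)) (by positivity)
      linarith [hq x, hm x]
    rw [← mul_assoc, ← mul_inv, inv_mul_le_iff₀ (by positivity)] at v3
    have v4 : 0 ≤ e ^ 3 * pp' S e f z x := mul_nonneg (by positivity) (hp x)
    have v5 : 0 ≤ P * Real.exp 1 * ed S e f z x := mul_nonneg (by positivity) (hed0 x)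
    have v6 : 0 ≤ (e ^ 3)⁻¹ * (P * Real.exp 1 * ed S e f z x) := by positivity
    have v7 : pp' S e f z x ≤ (e ^ 3)⁻¹ * (P * Real.exp 1 * ed S e f z x) := by
      rw [le_inv_mul_iff₀ (by positivity)]
      linarith [hN x, hg x]
    exact ⟨by linarith [hN x], by linarith [hg x], by linarith⟩
  obtain ⟨B', hB⟩ : ∃ B', B' = (n + 2) * C := ⟨_, rfl⟩
  obtain ⟨Γ, hΓ⟩ : ∃ Γ, Γ = Real.exp B' := ⟨_, rfl⟩
  have hΓ0 : 0 < Γ := hΓ ▸ Real.exp_pos _
  have key := fun x (hx : R1 ≤ ‖x‖) => point (K := S.K) (z := z) hn hd hK hP.le (hG.g_lo x)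
    (hG.g_hi x) (hS.good.g_far x (hR1.trans hx)) α0 α1 hC
    (Real.rpow_le_one_of_one_le_of_nonpos (by linarith [norm_nonneg x]) (neg_nonpos.2 ha))
    (hdec x hx).2.1 (hdec x hx).2.2.1 (hdec x hx).2.2.2 hB hΓ
  refine ⟨integrable_finsetSum _ fun i _ => integrable_of_far ((Bs.contDiff_pd hz i).continuous.pow 2)
    (hed.const_mul (P * Γ ^ 2 * D)) (R := R1) fun x hx => ?_, ?_⟩
  · rw [abs_of_nonneg (sq_nonneg _), mul_assoc]
    exact (key x hx i).1.trans (mul_le_mul_of_nonneg_left (hD x hx).1 (by positivity))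
  have cu : ContDiff ℝ ∞ fun x => Real.exp (al n * z x / 2) :=
    ((contDiff_const.mul hz).div_const 2).exp
  have cV : ∀ i, ContDiff ℝ ∞ fun x => volDensity (gB S e f z) x * VE S e f z x i := fun i => by
    refine (Bs.contDiff_volDensity hd.riemb).mul ((EuclideanSpace.proj (𝕜 := ℝ) i).contDiff.comp
      (f := VE S e f z) (contDiff_iff_contDiffAt.2 fun x => ?_))
    exact ((hd.cφ trivial).mul (contDiff_const.mul hz).exp.contDiffAt).smul
      (((hd.c_qv hK trivial).const_smul 2).add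
        ((contDiffAt_grad hd.riemb trivial hz.contDiffAt (by simp) le_rfl).const_smul 2))
  refine flux_le (V := fun x i => volDensity (gB S e f z) x * VE S e f z x i) (a := al n / 4)
    (by positivity) (by linarith) cu cV hc hc0 (fun x => ?_) fun i => ?_
  · have h1 := hE x
    have h2 : volDensity (gB S e f z) x * divg (gB S e f z) (VE S e f z) x
        = divE (fun x i => volDensity (gB S e f z) x * VE S e f z x i) x := by
      rw [divg, ← mul_assoc]
      exact (congrArg (· * _) (mul_one_div_cancel (hvb x).ne')).trans (one_mul _)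
    have h3 : 0 ≤ (S.par e M z3).vt (z x) := by
      have c1 : cut (-S.θ - 2) (-S.θ - 1) (z x) = 1 :=
        cut_one (by linarith) (by linarith [hF.zlo x])
      simp only [Par.vt, Setup.par, c1, sub_self, mul_zero, zero_add]
      exact mul_nonneg hs.M_nonneg (Real.smoothTransition.nonneg _)
    rw [h2, h0, zero_mul, zero_add] at h1
    have := mul_nonneg (hvb x).le (mul_nonneg (mul_pos (hφ x) (hu x)).le h3)
    linarith [hed0 x]
  · have i1 : Integrable fun x : E n => (1 + ‖x‖) ^ (-(2 * a0 n + 2)) :=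
      integrable_one_add_norm (by rw [finrank_euclideanSpace_fin]; unfold a0; linarith)
    refine integrable_of_far (((Bs.contDiff_pd cu i).continuous.sub
      (continuous_const.mul (cV i).continuous)).div (by fun_prop) fun x => by positivity)
      ((i1.const_mul ((Γ * B') ^ 2)).add
        (hed.const_mul ((P * Γ ^ 2 + Γ ^ 3 + P * Γ ^ 3 + Γ * (1 + P)) * D))) (R := R1)
      fun x hx => ?_
    have hr : 0 < 1 + ‖x‖ := by positivity
    have e1 : pderiv i (fun x => Real.exp (al n * z x / 2)) x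
        = Real.exp (al n * z x / 2) * (al n / 2) * pderiv i z x := by
      rw [Bs.pd_comp (θ := fun s => Real.exp (al n * s / 2))
        (θ' := Real.exp (al n * z x / 2) * (al n / 2)) _ (Bs.smooth_diff hz x)]
      simpa using (((hasDerivAt_id (z x)).const_mul (al n)).div_const 2).exp
    have e2 : pderiv i (fun x => Real.exp (al n * z x / 2)) x
        - al n / 4 * (volDensity (gB S e f z) x * VE S e f z x i) = al n / 2 *
        (Real.exp (al n * z x / 2) * pderiv i z x - volDensity (gB S e f z) x *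
          (Real.exp (al n * z x) * (qv S.g (ph S e f z) f S.K x i + grad (gB S e f z) z x i))) := by
      simp only [e1, VE, uu, (hdec x hx).1, PiLp.smul_apply, PiLp.add_apply, smul_eq_mul]
      ring
    have e3 : (Γ * B' * (1 + ‖x‖) ^ (-a0 n) / (1 + ‖x‖)) ^ 2
        = (Γ * B') ^ 2 * (1 + ‖x‖) ^ (-(2 * a0 n + 2)) := by
      rw [mul_div_assoc, mul_pow, ← Real.rpow_sub_one hr.ne', ← Real.rpow_natCast (_ ^ _),
        ← Real.rpow_mul hr.le]
      congr 2
      push_cast
      ring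
    have k := (key x hx i).2
    obtain ⟨d1, d2, d3⟩ := hD x hx
    rw [e3] at k
    rw [abs_div, abs_of_pos hr, e2, abs_mul, mul_div_assoc]
    refine (mul_le_of_le_one_left (by positivity)
      (abs_le.2 ⟨by linarith, by linarith⟩)).trans (k.trans ?_)
    have m1 := mul_le_mul_of_nonneg_left d1 (show 0 ≤ P * Γ ^ 2 + Γ ^ 3 by positivity)
    have m2 := mul_le_mul_of_nonneg_left d2 (show 0 ≤ P * Γ ^ 3 by positivity)
    have m3 := mul_le_mul_of_nonneg_left d3 (show 0 ≤ Γ * (1 + P) by positivity)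
    simp only [Pi.add_apply]
    linarith

end Crest.Agent.N346.Bd

end
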