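import Crest.Agent.N346.Bd.S8A

/-! Row 346, S8 (helper73): `s8 : WStmt → S8Stmt`. -/

set_option autoImplicit false

open MeasureTheory Filter Set
open scoped ContDiff Topology
open Crest.GeometryTopology.CoordMetric Crest.MathPhysics.ExteriorData
open Crest.Agent.R202.Tens Crest.Agent.R247.Bo84 Crest.Agent.N346.Id Crest.Agent.N346.P1

noncomputable section

namespace Crest.Agent.N346.Bd

namespace S8

variable {n : ℕ} {S : Setup n} {P T0 R e M z3 : ℝ} {bp an f z : E n → ℝ}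

theorem one_add_rpow_le (x : E n) {a : ℝ} (ha : 0 ≤ a) : (1 + ‖x‖) ^ (-a) ≤ 1 :=
  Real.rpow_le_one_of_one_le_of_nonpos (by linarith [norm_nonneg x]) (by linarith)

theorem rhs_ge (hS : S.OK) (hG : Geo S P T0 R bp) (h : Sl S e M z3 an f z) (hz : ZLo S z)
    (hf : FB e T0 f) (he : 0 < e) (he1 : e ≤ 1) (x : E n) :
    -(P ^ 2 + 5 * P + 2) ≤ rhs S e M z3 an f z x := by
  have hP := hG.P_ge
  have a1 : (e ^ 3 * f x) ^ 2 ≤ P ^ 2 := by
    rw [← sq_abs]; exact pow_le_pow_left₀ (abs_nonneg _) ((hf x).trans hG.T0_le) 2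
  have a2 : e ^ 3 * pp' S e f z x ≤ 1 :=
    mul_le_one₀ (pow_le_one₀ he.le he1) (h.jd.pp_nonneg (mem_univ x)) (h.jd.pp_lt_one (mem_univ x)).le
  have a0 := one_add_rpow_le x (Nat.cast_nonneg (α := ℝ) n)
  have a3 : S.mw x ≤ P := (hG.mw_hi x).trans (mul_le_of_le_one_right (by linarith) a0)
  have a4 : eSq (gB S e f z) (S.coef 0).EE x ≤ P := (eSq_gb_le h.jd (mem_univ x) _).trans (hG.E_le x)
  have a5 : (S.par e 0 0).sz (z x) * S.cw x ≤ P :=
    (mul_le_of_le_one_left (hG.cw_nonneg x) (sz_mem _ _).2).trans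
      ((hG.cw_hi x).trans (mul_le_of_le_one_right (by linarith) a0))
  have a6 : 0 ≤ (1 - (S.par e 0 0).sz (z x)) * ((e ^ 6)⁻¹ *
      (S.par e 0 0).dd ((S.coef 0).b1 x) ((S.coef 0).b2 x) (e ^ 3 * f x)) :=
    mul_nonneg (sub_nonneg.2 (sz_mem _ _).2) (mul_nonneg (by positivity) (dd_mem' S e x _).1)
  have hθ := Setup.OK.θ_le hS
  have a7 : -1 ≤ an x * z x := by
    nlinarith [(h.an_mem x).1, (h.an_mem x).2, hz x,
      mul_nonneg (h.an_mem x).1 (show 0 ≤ z x + 1 by linarith [hz x])]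
  have a8 := h.vt_nonneg (x := x) (by linarith [hz x])
  unfold rhs
  linarith

theorem ed_ge (hS : S.OK) (h : Sl S e M z3 an f z) (he : 0 < e) (he1 : e ≤ 1) (x : E n) {m : ℝ}
    (hm0 : 0 ≤ m) (hm1 : m ≤ 1) (hm : m ≤ S.mw x) :
    volDensity S.g x * (e ^ 3 * m) * (uu z x * gm' S e f z x ^ 2) ≤ ed S e f z x := by
  have hx := mem_univ x
  have hφ := ph_mem S (pow_le_one₀ he.le he1) f z x
  have hsym : SymT S.K univ := ⟨fun i j => (hS.good.K_smooth i j).contDiffOn, fun x _ => hS.good.K_symm x⟩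
  have a1 := normSqK_nonneg h.jd.riemb hx ((h.jd.symT_ZZ hsym).symm x hx)
  have a2 := bil_self_nonneg h.jd.riemb hx (qv S.g (ph S e f z) f S.K x)
  have a3 := gam_self_nonneg h.jd.riemb hx z
  have a4 := gm_le h.jd x
  have a5 := h.jd.one_le_gm hx
  have a6 := h.jd.pp_nonneg hx
  have a7 : e ^ 3 ≤ e ^ 2 := pow_le_pow_of_le_one he.le he1 (by norm_num)
  have b1 : e ^ 3 * m ≤ ph S e f z x * (normSqK (gB S e f z) (ZZ S.g (ph S e f z) f S.K) x
      + bil (gB S e f z x) (qv S.g (ph S e f z) f S.K x) (qv S.g (ph S e f z) f S.K x)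
      + gam (gB S e f z) z z x + S.mw x) :=
    mul_le_mul (a7.trans hφ.1) (by linarith) hm0 ((by positivity : (0 : ℝ) ≤ e ^ 2).trans hφ.1)
  have b2 : e ^ 3 * m * gm' S e f z x ≤ e ^ 3 * m + e ^ 3 * gm' S e f z x * pp' S e f z x := by
    have c1 := mul_le_mul_of_nonneg_left a4 (show 0 ≤ e ^ 3 * m by positivity)
    have c2 := mul_le_mul_of_nonneg_right hm1
      (show 0 ≤ e ^ 3 * (gm' S e f z x * pp' S e f z x) by positivity)
    linarith
  have hv : 0 ≤ volDensity S.g x := Real.sqrt_nonneg _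
  have hu : 0 ≤ uu z x := (Real.exp_pos _).le
  rw [ed, h.jd.volDensity_gb hx]
  calc _ = gm' S e f z x * volDensity S.g x * (uu z x * (e ^ 3 * m * gm' S e f z x)) := by ring
    _ ≤ _ := mul_le_mul_of_nonneg_left (mul_le_mul_of_nonneg_left (by linarith) hu) (by positivity)

theorem psi_le (hn : 3 ≤ n) (hS : S.OK) (h : Sl S e M z3 an f z) (hz : ZLo S z) (x : E n) :
    psi S e f z x ≤ 9 * (uu z x * gm' S e f z x ^ 2) ^ 4 := by
  have a5 := h.jd.one_le_gm (mem_univ x)
  have h1 := al_ge hn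
  have h2 := al_le hn
  have h3 : -1 ≤ z x := by linarith [hz x, Setup.OK.θ_le hS]
  have a1 : Real.exp (2 * z x) ≤ 9 * uu z x ^ 4 := by
    have b1 : Real.exp 2 ≤ 9 := by
      have := Real.exp_one_lt_d9
      rw [show (2 : ℝ) = 1 + 1 by norm_num, Real.exp_add]
      nlinarith [Real.exp_pos 1]
    rw [uu, ← Real.exp_nat_mul]
    refine le_trans ?_ (mul_le_mul_of_nonneg_right b1 (Real.exp_pos _).le)
    rw [← Real.exp_add]
    refine Real.exp_le_exp.2 ?_
    push_cast
    nlinarith [mul_nonneg (show 0 ≤ 4 * al n - 2 by linarith) (show 0 ≤ z x + 1 by linarith)]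
  have a2 : gm' S e f z x ≤ (gm' S e f z x ^ 2) ^ 4 := by
    rw [← pow_mul]; exact le_self_pow₀ a5 (by norm_num)
  rw [psi, mul_pow]
  calc _ ≤ (gm' S e f z x ^ 2) ^ 4 * (9 * uu z x ^ 4) :=
        mul_le_mul a2 a1 (Real.exp_pos _).le (by positivity)
    _ = _ := by ring

theorem far_le (hn : 3 ≤ n) (he : 0 < e) (he1 : e ≤ 1) {r : ℝ} (hr : e⁻¹ ^ 9 ≤ r) :
    (e⁻¹ ^ 5 / r) ^ a0 n ≤ e ^ 3 := by
  have h0 : 0 < e⁻¹ ^ 9 := by positivity
  have h1 : e⁻¹ ^ 5 / r ≤ e ^ 4 := by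
    refine (div_le_div_of_nonneg_left (by positivity) h0 hr).trans (le_of_eq ?_)
    field_simp
  have h2 := a0_ge hn
  calc _ ≤ (e ^ 4) ^ a0 n := Real.rpow_le_rpow (by have := h0.trans_le hr; positivity) h1 (by linarith)
    _ ≤ (e ^ 4) ^ (3 / 4 : ℝ) :=
      Real.rpow_le_rpow_of_exponent_ge (by positivity) (pow_le_one₀ he.le he1) h2
    _ = e ^ 3 := by
      rw [← Real.rpow_natCast, ← Real.rpow_mul he.le, ← Real.rpow_natCast]; norm_num

end S8

open S8

theorem s8 (hW : WStmt) : S8Stmt := by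
  intro hDG n hn S hS P T0 R bp hG
  obtain ⟨N', hDG⟩ := hDG n (by omega)
  have ht1 : 0 < S.t1 := by
    have h1 : 0 < S.t0 := hS.par_ok.t0_pos
    have h2 : 4 * S.t0 ≤ S.t1 := hS.par_ok.t01
    linarith
  obtain ⟨N, e1, he1, hW⟩ := hW n hn S.θ S.t1 P (Setup.OK.θ_pos hS) ht1
  have hP := hG.P_ge
  set j := 20 * n + 5 + (3 * N + 15) * N' + 5 * n + 1 with hj
  refine ⟨4 * j + 4, min e1 (min P⁻¹ 18⁻¹), by positivity, ?_⟩
  intro e he hle M z3 an f z h hF hI hE
  have hPX : P ≤ e⁻¹ := by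
    rw [le_inv_comm₀ (by linarith) he]; exact hle.trans ((min_le_right _ _).trans (min_le_left _ _))
  have hX : 18 ≤ e⁻¹ := by
    rw [le_inv_comm₀ (by norm_num) he]; exact hle.trans ((min_le_right _ _).trans (min_le_right _ _))
  have he' : e ≤ 1 := by
    have := hle.trans ((min_le_right _ _).trans (min_le_right _ _))
    linarith [show (18 : ℝ)⁻¹ ≤ 1 by norm_num]
  obtain ⟨-, hWs, hσs, hW⟩ := hW (S.par e 0 0) rfl rfl he (hle.trans (min_le_left _ _)) (e ^ 2)
    le_rfl (pow_le_one₀ he.le he') S.g S.K _ _ _ f z hG.toBG h.f_smooth h.z_smooth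
    (by rw [← ph_eq_phd]; exact h.J) (fun x => (hF.fb x).trans hG.T0_le)
  set W := WW (S.par e 0 0) (e ^ 2) S.g (S.coef 0).a1 (S.coef 0).a2 f z with hWd
  set σ := sg (S.par e 0 0) (e ^ 2) S.g (S.coef 0).a1 (S.coef 0).a2 f z with hσd
  have hσ : ∀ x, σ x = Real.exp (-(4 * z x)) / (2 * gm' S e f z x ^ 2 * ph S e f z x ^ 2) :=
    fun x => by rw [hσd, sg, ← ph_eq_phd]
  simp only [← ph_eq_phd] at hW
  have hW1 : ∀ x, e ^ 4 * psi S e f z x ^ 2 ≤ W x := fun x => (hW x).2.1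
  have hW2 : ∀ x, W x ≤ psi S e f z x ^ 2 := fun x => (hW x).2.2.1
  have hψ : ∀ x, 0 < psi S e f z x := fun x => mul_pos (h.jd.gm_pos (mem_univ x)) (Real.exp_pos _)
  have hW0 : ∀ x, 0 < W x := fun x => lt_of_lt_of_le (by have := hψ x; positivity) (hW1 x)
  generalize hXe : e⁻¹ = X at hPX hX hE ⊢
  have heX : e = X⁻¹ := by rw [← hXe, inv_inv]
  have hX1 : 1 ≤ X := by linarith
  have hX0 : 0 < X := by linarith
  have hp : ∀ {a b : ℕ}, a ≤ b → X ^ a ≤ X ^ b := fun h => pow_le_pow_right₀ hX1 h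
  have hW3 : ∀ x, psi S e f z x ^ 2 ≤ X ^ 4 * W x := fun x => by
    have := mul_le_mul_of_nonneg_left (hW1 x) (show 0 ≤ X ^ 4 by positivity)
    rwa [← mul_assoc, ← mul_pow, heX, mul_inv_cancel₀ hX0.ne', one_pow, one_mul, ← heX] at this
  obtain ⟨x0, -, hx0⟩ := (isCompact_closedBall (0 : E n) (X ^ 9)).exists_isMaxOn
    ⟨0, Metric.mem_closedBall_self (by positivity)⟩ hWs.continuous.continuousOn
  have hin : ∀ x, ‖x‖ ≤ X ^ 9 → W x ≤ W x0 := fun x hx => hx0 (by simpa using hx)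
  have hpf := hF.pfar
  rw [PFar, hXe] at hpf
  have hSS : W x0 ≤ 324 * (X ^ j) ^ 8 := by
    by_contra hlt
    rw [not_le] at hlt
    have hT : 1 ≤ (X ^ j) ^ 8 := one_le_pow₀ (one_le_pow₀ hX1)
    have hs4 : 4 ≤ √(W x0) := Real.le_sqrt_of_sq_le (by linarith)
    have hsq := Real.sq_sqrt (hW0 x0).le
    have hfar : ∀ x, X ^ 9 ≤ ‖x‖ → W x ≤ W x0 / 4 := fun x hx => by
      have h1 := hpf (X ^ 2 * √(W x0)) (one_le_mul_of_one_le_of_one_le (one_le_pow₀ hX1) (by linarith))
        (fun y hy => by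
          have b1 := (hW3 y).trans (mul_le_mul_of_nonneg_left
            (hin y (hy.le.trans (hp (by norm_num)))) (by positivity))
          have b2 : psi S e f z y ≤ X ^ 2 * √(W x0) :=
            le_of_sq_le_sq (by rw [mul_pow, hsq, ← pow_mul]; exact b1) (by positivity)
          linarith) x ((hp (by norm_num)).trans hx)
      have h2 := far_le hn he he' (r := ‖x‖) (by rwa [hXe])
      rw [hXe] at h2
      have h3 := mul_le_mul_of_nonneg_left h2 (show 0 ≤ X ^ 2 * √(W x0) by positivity)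
      have h4 : X ^ 2 * √(W x0) * e ^ 3 ≤ √(W x0) / 4 := by
        have : X ^ 2 * √(W x0) * e ^ 3 = √(W x0) / X := by rw [heX]; field_simp
        rw [this]
        exact div_le_div_of_nonneg_left (by positivity) (by norm_num) (by linarith)
      have h5 : psi S e f z x ≤ √(W x0) / 2 := by linarith
      have h6 := pow_le_pow_left₀ (hψ x).le h5 2
      rw [div_pow, hsq] at h6
      linarith [hW2 x]
    have hall : ∀ x, W x ≤ W x0 := fun x => by
      rcases le_total ‖x‖ (X ^ 9) with hx | hx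
      · exact hin x hx
      · linarith [hfar x hx, hW0 x0]
    have key := dg_apply (N := N) hDG h.jd (show 4 ≤ X by linarith)
      (fun x Y => (hG.g_hi x Y).trans (mul_le_mul_of_nonneg_right hPX (by positivity)))
      (fun x => (inv_anti₀ (by linarith) hPX).trans (hG.vol_lo x))
      (fun x => (hG.vol_hi x).trans hPX) hWs hσs hW0 (fun x => ?_) (fun x => ?_) hall hfar
    · have hm : ∀ x, ‖x‖ ≤ X ^ 9 → (X ^ (20 * n + 1))⁻¹ ≤ S.mw x := fun x hx => by
        refine le_trans ?_ (hG.mw_lo x)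
        have b1 : 1 + ‖x‖ ≤ X ^ 10 := by
          nlinarith [one_le_pow₀ (n := 9) hX1, pow_succ X 9]
        have b2 : (X ^ 10) ^ (-(2 * n : ℝ)) ≤ (1 + ‖x‖) ^ (-(2 * n : ℝ)) :=
          Real.rpow_le_rpow_of_nonpos (by positivity) b1 (by simp)
        have b3 : (X ^ 10) ^ (-(2 * n : ℝ)) = (X ^ (20 * n))⁻¹ := by
          rw [Real.rpow_neg (by positivity), show (2 * n : ℝ) = ((2 * n : ℕ) : ℝ) by push_cast; ring,
            Real.rpow_natCast, ← pow_mul]
          congr 2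
          ring
        rw [pow_succ', mul_inv]
        exact mul_le_mul (inv_anti₀ (by linarith) hPX) (b3 ▸ b2) (by positivity) (by positivity)
      have hc := mul_meas_ge_le_integral_of_nonneg (μ := volume) (Eventually.of_forall fun x => by
        simpa using ed_ge hS h he he' x le_rfl zero_le_one (Setup.OK.mw_pos hS x).le) hI
        ((X ^ (20 * n + 5))⁻¹ * X ^ j)
      have hsub : {x | W x0 / 4 < W x} ⊆ {x | (X ^ (20 * n + 5))⁻¹ * X ^ j ≤ ed S e f z x} := by
        intro x hx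
        have hx' : W x0 / 4 < W x := hx
        have b0 : ‖x‖ ≤ X ^ 9 := by
          by_contra hc
          linarith [hfar x (not_le.1 hc).le]
        have b1 := ed_ge hS h he he' x (by positivity) (inv_le_one_of_one_le₀ (one_le_pow₀ hX1))
          (hm x b0)
        have b2 : X ^ j ≤ uu z x * gm' S e f z x ^ 2 := by
          have c0 : 0 ≤ uu z x * gm' S e f z x ^ 2 :=
            mul_nonneg (Real.exp_pos _).le (_root_.sq_nonneg _)
          have c1 := pow_le_pow_left₀ (hψ x).le (psi_le hn hS h hF.zlo x) 2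
          refine le_of_pow_le_pow_left₀ (n := 8) (by norm_num) c0 ?_
          have c2 := hW2 x
          rw [mul_pow, ← pow_mul, show 4 * 2 = 8 from rfl] at c1
          generalize (uu z x * gm' S e f z x ^ 2) ^ 8 = A at c1 ⊢
          generalize (X ^ j) ^ 8 = B at hlt ⊢
          linarith
        have b3 : (X ^ (20 * n + 5))⁻¹ ≤ volDensity S.g x * (e ^ 3 * (X ^ (20 * n + 1))⁻¹) := by
          refine le_trans (le_of_eq ?_) (mul_le_mul_of_nonneg_right
            ((inv_anti₀ (by linarith) hPX).trans (hG.vol_lo x)) (by positivity))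
          rw [heX]
          field_simp
          ring
        exact (mul_le_mul b3 b2 (by positivity) ((by positivity : (0 : ℝ) ≤ _).trans b3)).trans b1
      have hfin : volume {x | (X ^ (20 * n + 5))⁻¹ * X ^ j ≤ ed S e f z x} ≠ ⊤ :=
        ne_top_of_le_ne_top (hI.measure_norm_ge_lt_top
          (show 0 < (X ^ (20 * n + 5))⁻¹ * X ^ j by positivity)).ne
          (measure_mono fun x hx => le_trans (b := ed S e f z x) hx (Real.le_norm_self _))
      have b4 := mul_le_mul_of_nonneg_left (key.trans (measureReal_mono hsub hfin))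
        (show 0 ≤ (X ^ (20 * n + 5))⁻¹ * X ^ j by positivity)
      have b5 : (X ^ (20 * n + 5))⁻¹ * X ^ j * ((X ^ (3 * N + 15)) ^ N')⁻¹ = X * X ^ (5 * n) := by
        rw [hj, ← pow_mul]
        field_simp
        ring
      have b6 : 0 < X ^ (5 * n) := by positivity
      nlinarith
    · have hφ := (hW x).1
      have hγ := h.jd.gm_pos (mem_univ x)
      have hφ0 : 0 < ph S e f z x := lt_of_lt_of_le (by positivity) hφ.1
      have b1 : σ x * psi S e f z x ^ 2 = (2 * ph S e f z x ^ 2)⁻¹ := by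
        rw [hσ, psi, mul_pow, ← Real.exp_nat_mul, Real.exp_neg]
        have : ((2 : ℕ) : ℝ) * (2 * z x) = 4 * z x := by push_cast; ring
        rw [this]
        field_simp
      have hσ0 : 0 ≤ σ x := by rw [hσ]; positivity
      have b2 := mul_le_mul_of_nonneg_left (hW1 x) hσ0
      have b3 := mul_le_mul_of_nonneg_left (hW2 x) hσ0
      rw [mul_left_comm, b1] at b2
      rw [b1] at b3
      have b4 : (2 : ℝ)⁻¹ ≤ (2 * ph S e f z x ^ 2)⁻¹ :=
        inv_anti₀ (by positivity) (by linarith [pow_le_one₀ (n := 2) hφ0.le hφ.2])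
      have b5 : (2 * ph S e f z x ^ 2)⁻¹ ≤ X ^ 4 / 2 := by
        have c1 : (e ^ 2) ^ 2 ≤ ph S e f z x ^ 2 := pow_le_pow_left₀ (by positivity) hφ.1 2
        refine (inv_anti₀ (by positivity) (mul_le_mul_of_nonneg_left c1 zero_le_two)).trans
          (le_of_eq ?_)
        rw [heX]
        field_simp
      refine ⟨?_, b3.trans b5⟩
      rw [← heX]
      linarith [mul_le_mul_of_nonneg_left b4 (show 0 ≤ e ^ 4 by positivity)]
    · have b1 := (hW x).2.2.2
      have b2 := rhs_ge hS hG h hF.zlo hF.fb he he' x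
      have b3 := h.U x
      have b4 : P ^ 2 + 5 * P + 2 ≤ 2 * X ^ 2 := by nlinarith
      change e ^ 3 * _ * _ + _ - e⁻¹ ^ N * _ ≤ _ at b1
      rw [hXe] at b1
      rw [← heX]
      linarith
  have hin' : ∀ x, ‖x‖ ≤ X ^ 9 → psi S e f z x ≤ X ^ (4 * j + 3) := fun x hx => by
    refine le_of_sq_le_sq ((hW3 x).trans ?_) (by positivity)
    have b1 : W x ≤ X ^ 2 * (X ^ j) ^ 8 :=
      ((hin x hx).trans hSS).trans (mul_le_mul_of_nonneg_right (by nlinarith) (by positivity))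
    exact (mul_le_mul_of_nonneg_left b1 (by positivity)).trans (le_of_eq (by ring))
  intro x
  have h1 : 1 ≤ X ^ (4 * j + 3) := one_le_pow₀ hX1
  have h2 : 2 * X ^ (4 * j + 3) ≤ X ^ (4 * j + 4) := by
    rw [pow_succ' X (4 * j + 3)]; exact mul_le_mul_of_nonneg_right (by linarith) (by positivity)
  rcases le_total ‖x‖ (X ^ 9) with hx | hx
  · linarith [hin' x hx]
  · have h3 := hpf _ h1 (fun y hy => by linarith [hin' y (hy.le.trans (hp (by norm_num)))]) x
      ((hp (by norm_num)).trans hx)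
    have h4 := far_le hn he he' (r := ‖x‖) (by rwa [hXe])
    rw [hXe] at h4
    have h5 := mul_le_mul_of_nonneg_left (h4.trans (pow_le_one₀ he.le he'))
      (show 0 ≤ X ^ (4 * j + 3) by positivity)
    linarith

end Crest.Agent.N346.Bd

end
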