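import Crest.Agent.N346.Bd.W3
import Crest.Agent.N346.Bd.AP
import Crest.Agent.N346.Bd.BG
import Crest.Agent.N346.Bd.DG
import Crest.Agent.N346.Bd.Far
import Crest.Agent.N346.Bd.Geo
import Crest.Agent.N346.Bd.S12
import Crest.Agent.N346.Bd.S3
import Crest.Agent.N346.Bd.S45
import Crest.Agent.N346.Bd.S6
import Crest.Agent.N346.Bd.S7a
import Crest.Agent.N346.Bd.S7b
import Crest.Agent.N346.Bd.S7c
import Crest.Agent.N346.Bd.S7d
import Crest.Agent.N346.Bd.S8
import Crest.Agent.N346.Bd.Top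
import Crest.Agent.N346.P1.Unif

/-!
Row 346, Part 1 (helper71): `P1.APStmt`, `P1.EstStmt`, `P1.EnStmt`.
-/

set_option autoImplicit false

namespace Crest.Agent.N346.Bd

theorem ap' : P1.APStmt := ap bg wineq

theorem est_en : P1.EstStmt ∧ P1.EnStmt :=
  top (geo P1.unif bg far) s1 s2 s3 s4 s5 s6 s7a s7b s7c s7d dg (s8 wineq)

theorem est : P1.EstStmt := est_en.1

theorem en : P1.EnStmt := est_en.2

end Crest.Agent.N346.Bd
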