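import Crest.Agent.N346.Bd.Lin
import Crest.Agent.N346.P1.Unif

/-!
Row 346, Part 1 (helper71): cut-off functions, the warping factor `ph`, simplifications where `φ` is
locally constant and in the far region, radial functions, and the bridge `Sl.of_sol`.
-/

set_option autoImplicit false

open MeasureTheory Filter Set
open scoped ContDiff Topology
open Crest.GeometryTopology.CoordMetric Crest.MathPhysics.ExteriorData
open Crest.Agent.R202.Tens Crest.Agent.R247.Bo84 Crest.Agent.N346.Id Crest.Agent.N346.P1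

noncomputable section

namespace Crest.Agent.N346.Bd

variable {n : ℕ}

/-! ### cut-offs -/

theorem cut_mono {a b : ℝ} (hab : a < b) : Monotone (cut a b) := fun s t h =>
  Real.smoothTransition.monotone (by have := sub_pos.2 hab; gcongr)

theorem exists_cut_bound {a b : ℝ} (hab : a < b) : ∃ C : ℝ, 1 ≤ C ∧ ∀ t, 0 ≤ deriv (cut a b) t ∧
    deriv (cut a b) t ≤ C ∧ |deriv (deriv (cut a b)) t| ≤ C := by
  have h1 : ContDiff ℝ ∞ (deriv (cut a b)) := (contDiff_cut a b).deriv'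
  have h2 : ContDiff ℝ ∞ (deriv (deriv (cut a b))) := h1.deriv'
  have h3 : ∀ t, t ∉ Icc a b → deriv (cut a b) =ᶠ[𝓝 t] fun _ => 0 := by
    intro t ht
    rcases not_and_or.1 ht with h | h
    · filter_upwards [Iio_mem_nhds (not_le.1 h)] with s hs
      have : cut a b =ᶠ[𝓝 s] fun _ => 0 := by
        filter_upwards [Iio_mem_nhds hs] with r hr using cut_zero hab (le_of_lt hr)
      rw [this.deriv_eq, deriv_const]
    · filter_upwards [Ioi_mem_nhds (not_le.1 h)] with s hs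
      have : cut a b =ᶠ[𝓝 s] fun _ => 1 := by
        filter_upwards [Ioi_mem_nhds hs] with r hr using cut_one hab (le_of_lt hr)
      rw [this.deriv_eq, deriv_const]
  obtain ⟨C1, hC1⟩ := (isCompact_Icc (a := a) (b := b)).exists_bound_of_continuousOn
    h1.continuous.continuousOn
  obtain ⟨C2, hC2⟩ := (isCompact_Icc (a := a) (b := b)).exists_bound_of_continuousOn
    h2.continuous.continuousOn
  refine ⟨max 1 (max C1 C2), le_max_left _ _, fun t => ⟨(cut_mono hab).deriv_nonneg, ?_, ?_⟩⟩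
  · by_cases ht : t ∈ Icc a b
    · exact ((le_abs_self _).trans (hC1 t ht)).trans ((le_max_left _ _).trans (le_max_right _ _))
    · rw [(h3 t ht).self_of_nhds]; positivity
  · by_cases ht : t ∈ Icc a b
    · exact (hC2 t ht).trans ((le_max_right _ _).trans (le_max_right _ _))
    · rw [(h3 t ht).deriv_eq, deriv_const, abs_zero]; positivity

section Par
variable {P : Par} {z t : ℝ}

theorem Ph_mem (P : Par) (z : ℝ) : P.Ph z ∈ Icc (0 : ℝ) 1 := cut_mem _ _ _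
theorem Ph_zero (hθ : 0 < P.θ) (h : z ≤ -P.θ / 2) : P.Ph z = 0 := cut_zero (by linarith) h
theorem Ph_one (hθ : 0 < P.θ) (h : -P.θ / 4 ≤ z) : P.Ph z = 1 := cut_one (by linarith) h
theorem contDiff_Ph (P : Par) : ContDiff ℝ ∞ P.Ph := contDiff_cut _ _
theorem exists_Ph_bound {θ : ℝ} (hθ : 0 < θ) : ∃ C : ℝ, 1 ≤ C ∧ ∀ P : Par, P.θ = θ → ∀ t,
    0 ≤ deriv P.Ph t ∧ deriv P.Ph t ≤ C ∧ |deriv (deriv P.Ph) t| ≤ C := by
  obtain ⟨C, h1, h2⟩ := exists_cut_bound (a := -θ / 2) (b := -θ / 4) (by linarith)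
  exact ⟨C, h1, fun P hP t => by subst hP; exact h2 t⟩
theorem sz_mem (P : Par) (z : ℝ) : P.sz z ∈ Icc (0 : ℝ) 1 := one_sub_mem (cut_mem _ _ _)
theorem sz_one (hθ : 0 < P.θ) (h : z ≤ -P.θ) : P.sz z = 1 := by
  rw [Par.sz, cut_zero (by linarith) h, sub_zero]
theorem sz_zero (hθ : 0 < P.θ) (h : -3 * P.θ / 4 ≤ z) : P.sz z = 0 := by
  rw [Par.sz, cut_one (by linarith) h, sub_self]
theorem contDiff_sz (P : Par) : ContDiff ℝ ∞ P.sz := contDiff_const.sub (contDiff_cut _ _)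
theorem vt_nonneg (hM : 0 ≤ P.M) (h : -P.θ - 1 ≤ z) : 0 ≤ P.vt z := by
  rw [Par.vt, cut_one (by linarith) h]
  have := (cut_mem P.z3 (P.z3 + 1) z).1
  nlinarith [mul_nonneg hM this]
theorem vt_nonpos (hM : 0 ≤ P.M) (h : z ≤ P.z3) : P.vt z ≤ 0 := by
  rw [Par.vt, cut_zero (a := P.z3) (by linarith) h]
  have := (cut_mem (-P.θ - 2) (-P.θ - 1) z).2
  nlinarith [mul_nonneg hM (sub_nonneg.2 this)]
theorem vt_ge (hM : 0 ≤ P.M) (z : ℝ) : -P.M ≤ P.vt z := by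
  rw [Par.vt]
  have h1 := (cut_mem (-P.θ - 2) (-P.θ - 1) z).1
  have h2 := (cut_mem P.z3 (P.z3 + 1) z).1
  nlinarith [mul_nonneg hM h1, mul_nonneg hM h2]
theorem vt_low (hz : -P.θ - 2 ≤ P.z3) (h : z ≤ -P.θ - 2) : P.vt z = -P.M := by
  rw [Par.vt, cut_zero (by linarith) h, cut_zero (by linarith) (h.trans hz)]; ring
theorem vt_high (hz : -P.θ - 2 ≤ P.z3) (h : P.z3 + 1 ≤ z) : P.vt z = P.M := by
  rw [Par.vt, cut_one (by linarith) h, cut_one (by linarith) (by linarith)]; ring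
theorem chi_mem (P : Par) {a1 a2 : ℝ} (h1 : a1 ∈ Icc (0 : ℝ) 1) (h2 : a2 ∈ Icc (0 : ℝ) 1) (t : ℝ) :
    P.chi a1 a2 t ∈ Icc (0 : ℝ) 1 := by
  have h3 := one_sub_mem (cut_mem (-P.t1) (-P.t1 / 2) t)
  have h4 : a2 * (1 - cut (-P.t1) (-P.t1 / 2) t) ∈ Icc (0 : ℝ) 1 :=
    ⟨mul_nonneg h2.1 h3.1, mul_le_one₀ h2.2 h3.1 h3.2⟩
  have h5 := one_sub_mem h4
  exact ⟨mul_nonneg h1.1 h5.1, mul_le_one₀ h1.2 h5.1 h5.2⟩
theorem dd_mem (P : Par) {b1 b2 : ℝ} (h1 : b1 ∈ Icc (0 : ℝ) 1) (h2 : b2 ∈ Icc (0 : ℝ) 1) (t : ℝ) :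
    P.dd b1 b2 t ∈ Icc (0 : ℝ) 1 := by
  have h3 := cut_mem (P.t0 ^ 2) (4 * P.t0 ^ 2) (t ^ 2)
  have h4 : cut (P.t0 ^ 2) (4 * P.t0 ^ 2) (t ^ 2) * b2 ∈ Icc (0 : ℝ) 1 :=
    ⟨mul_nonneg h3.1 h2.1, mul_le_one₀ h3.2 h2.1 h2.2⟩
  have h5 := one_sub_mem h4
  exact one_sub_mem ⟨mul_nonneg h1.1 h5.1, mul_le_one₀ h1.2 h5.1 h5.2⟩

end Par

/-! ### where `φ` is locally constant -/

section Const
variable {g K : MetricField n} {U : Set (E n)} {x : E n} {u φ f : E n → ℝ} {c : ℝ}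

theorem fderiv_lv_eq_zero (hd : Jd g φ f U) (hx : x ∈ U) (h : fderiv ℝ φ x = 0) :
    fderiv ℝ (lv φ) x = 0 := by
  ext Y; rw [hd.fderiv_lv hx, h]; simp

theorem aa_eq_zero (hd : Jd g φ f U) (hx : x ∈ U) (h : fderiv ℝ φ x = 0) : aa g φ f x = 0 := by
  rw [aa, fderiv_lv_eq_zero hd hx h]; rfl

theorem Vv_eq_zero (hd : Jd g φ f U) (hx : x ∈ U) (h : fderiv ℝ φ x = 0) : Vv g φ f x = 0 :=
  grad_eq_zero _ (fderiv_lv_eq_zero hd hx h)

theorem fderiv_of_const (h : φ =ᶠ[𝓝 x] fun _ => c) : fderiv ℝ φ x = 0 := by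
  rw [h.fderiv_eq]; simp

theorem H0_of_crit (hd : Jd g φ f U) (hx : x ∈ U) (h : fderiv ℝ φ x = 0) :
    H0 g φ f x = φ x / gm g φ f x * traceK (gb g φ f) (hessM g f) x := by
  rw [hd.H0_eq hx, aa_eq_zero hd hx h]; ring

theorem Qv_of_crit (hd : Jd g φ f U) (hx : x ∈ U) (h : fderiv ℝ φ x = 0) :
    Qv g φ f x = grad (gb g φ f) (ell g φ f) x := by
  rw [hd.grad_gb_ell hx, aa_eq_zero hd hx h]; simp

theorem lap_gb_of_crit (hd : Jd g φ f U) (hx : x ∈ U) (h : fderiv ℝ φ x = 0)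
    (hu : ContDiffAt ℝ 2 u x) : laplaceBeltrami (gb g φ f) u x
      = traceK (gb g φ f) (hessM g u) x - H0 g φ f x * fderiv ℝ u x (wv g φ f x) := by
  rw [hd.lap_gb hx hu, gam_eq_fderiv_grad, grad_eq_zero _ (fderiv_lv_eq_zero hd hx h)]
  simp

/-- `tr_ḡ Hess_g u = Δ_g u - Hess_g u (w, w)`. -/
theorem traceK_gb_hessM (hd : Jd g φ f U) (hx : x ∈ U) (hu : ContDiffAt ℝ 2 u x) :
    traceK (gb g φ f) (hessM g u) x
      = laplaceBeltrami g u x - hess g u x (wv g φ f x) (wv g φ f x) := by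
  rw [hd.traceK_gb hx, bil_hessM, lap_eq_traceK hd.riem hx hu]

theorem abs_traceK_hessM_le (hd : Jd g φ f U) (hx : x ∈ U) {Hb : ℝ} (hH : 0 ≤ Hb)
    (h : ∀ Y, |hess g u x Y Y| ≤ Hb * bil (g x) Y Y) :
    |traceK (gb g φ f) (hessM g u) x| ≤ n * Hb :=
  abs_traceK_gb_le hd hx hH fun Y => by rw [bil_hessM]; exact h Y

theorem abs_fderiv_wv_le (hd : Jd g φ f U) (hx : x ∈ U) {Gb : ℝ} (hG : 0 ≤ Gb)
    (h : gam g u u x ≤ Gb ^ 2) : |fderiv ℝ u x (wv g φ f x)| ≤ Gb := by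
  refine abs_le_of_sq_le_sq' ?_ hG |> abs_le.2
  have h1 := fderiv_wv_sq_le hd hx u
  have h2 := (hd.pp_lt_one hx).le
  have h3 := hd.pp_nonneg hx
  have h4 := gam_self_nonneg hd.riem hx u
  nlinarith

/-- `|Δ̄ u| ≤ n H_b + |H₀| G_b` at a critical point of `φ`. -/
theorem abs_lap_gb_le (hd : Jd g φ f U) (hx : x ∈ U) (h : fderiv ℝ φ x = 0)
    (hu : ContDiffAt ℝ 2 u x) {Hb Gb : ℝ} (hH : 0 ≤ Hb) (hG : 0 ≤ Gb)
    (h1 : ∀ Y, |hess g u x Y Y| ≤ Hb * bil (g x) Y Y) (h2 : gam g u u x ≤ Gb ^ 2) :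
    |laplaceBeltrami (gb g φ f) u x| ≤ n * Hb + |H0 g φ f x| * Gb := by
  rw [lap_gb_of_crit hd hx h hu]
  refine (abs_sub _ _).trans (add_le_add (abs_traceK_hessM_le hd hx hH h1) ?_)
  rw [abs_mul]
  have := abs_fderiv_wv_le hd hx hG h2
  gcongr

/-- (G) where `φ` is locally constant. -/
theorem id_G_const (hd : Jd g φ f U) (hx : x ∈ U) (h : φ =ᶠ[𝓝 x] fun _ => c) :
    scalarCurv (gb g φ f) x = scalarCurv g x - 2 * bil (ricM g x) (wv g φ f x) (wv g φ f x)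
      + H0 g φ f x ^ 2 - normSqK (gb g φ f) (hh g φ f) x := by
  have h1 : hess g φ x = hess g (fun _ => c) x := hess_congr h
  have h2 : hess g (fun _ : E n => c) x (wv g φ f x) (wv g φ f x) = 0 := by
    rw [hess_apply]; simp
  rw [hd.id_G' hx, aa_eq_zero hd hx (fderiv_of_const h), lap_congr h, lap_const, h1, h2]
  ring

/-- (W) where `φ` is locally constant. -/
theorem id_W_const (hd : Jd g φ f U) (hx : x ∈ U) (h : φ =ᶠ[𝓝 x] fun _ => c) :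
    scalarCurv (gb g φ f) x + laplaceBeltrami (gb g φ f) (ell g φ f) x
      = gam (gb g φ f) (ell g φ f) (ell g φ f) x + scalarCurv g x
        - bil (ricM g x) (wv g φ f x) (wv g φ f x) + H0 g φ f x ^ 2
        + fderiv ℝ (H0 g φ f) x (wv g φ f x) := by
  have h1 := hd.id_W hx
  have h2 : (fun y => pp g φ f y • Vv g φ f y + grad (gb g φ f) (ell g φ f) y)
      =ᶠ[𝓝 x] grad (gb g φ f) (ell g φ f) := by
    filter_upwards [h.eventually_nhds, hd.nhds hx] with y hy hyU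
    rw [Vv_eq_zero hd hyU (fderiv_of_const hy)]; simp
  rw [divg_congr h2, divg_grad, Vv_eq_zero hd hx (fderiv_of_const h),
    aa_eq_zero hd hx (fderiv_of_const h), Qv_of_crit hd hx (fderiv_of_const h),
    ← gam_eq_bil hd.riemb hx] at h1
  rw [h1]; simp

/-- `H₀² ≤ n |h|²`. -/
theorem H0_sq_le (hd : Jd g φ f U) (hx : x ∈ U) :
    H0 g φ f x ^ 2 ≤ n * normSqK (gb g φ f) (hh g φ f) x :=
  traceK_sq_le hd.riemb hx (hd.symT_hh.symm x hx)

/-- `(H₀ + p a)² ≤ n |h + a X ⊗ X|²`. -/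
theorem H0_add_sq_le (hd : Jd g φ f U) (hx : x ∈ U) :
    (H0 g φ f x + pp g φ f x * aa g φ f x) ^ 2
      ≤ n * normSqK (gb g φ f) (fun y => hh g φ f y + aa g φ f y • XX φ f y) x := by
  have h1 := traceK_sq_le (T := fun y => hh g φ f y + aa g φ f y • XX φ f y) hd.riemb hx
    fun i j => by
      simp only [Matrix.add_apply, Matrix.smul_apply, hd.symT_hh.symm x hx i j,
        hd.symT_XX.symm x hx i j]
  have h2 : traceK (gb g φ f) (fun y => aa g φ f y • XX φ f y) x = pp g φ f x * aa g φ f x := by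
    rw [traceK_eq hd.riemb hx, shp_smul, map_smul, ← traceK_eq hd.riemb hx, hd.traceK_XX hx,
      smul_eq_mul, mul_comm]
  rwa [traceK_add, h2] at h1

/-- `|K(w,w)| ≤ P`, `|tr_ḡ K| ≤ 2P`. -/
theorem BG.abs_Kww_le {P : ℝ} {EE : VectorField n} {a1 a2 : E n → ℝ} (h : BG P g K EE a1 a2)
    {W : E n} (hW : bil (g x) W W ≤ 1) : |bil (K x) W W| ≤ P := by
  have h0 := bil_self_nonneg h.riem (mem_univ x) W
  have h1 := h.K_le x W W
  have hP : 0 ≤ P := by linarith [h.P_ge]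
  refine abs_le.2 (abs_le_of_sq_le_sq' (h1.trans ?_) hP)
  have : bil (g x) W W * bil (g x) W W ≤ 1 := mul_le_one₀ hW h0 hW
  nlinarith [sq_nonneg P]

end Const

/-! ### radial functions -/

section Radial
variable {g : MetricField n} {U : Set (E n)} {x : E n} {u : E n → ℝ} {F : ℝ → ℝ}

theorem contDiffAt_r {k : WithTop ℕ∞} (hx : 0 < ‖x‖) : ContDiffAt ℝ k (fun y : E n => ‖y‖) x :=
  contDiffAt_id.norm ℝ (norm_pos_iff.1 hx)

theorem gam_comp_self (hF : DifferentiableAt ℝ F (u x)) (hu : DifferentiableAt ℝ u x) :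
    gam g (fun y => F (u y)) (fun y => F (u y)) x = deriv F (u x) ^ 2 * gam g u u x := by
  rw [gam_comp_left hF hu, gam_comp_right hF hu]; ring

theorem abs_hess_comp_le (hg : IsRiemannianOn g U) (hx : x ∈ U) (hF : ContDiffAt ℝ 2 F (u x))
    (hu : ContDiffAt ℝ 2 u x) {Hb Gb : ℝ} (h1 : ∀ Y, |hess g u x Y Y| ≤ Hb * bil (g x) Y Y)
    (h2 : gam g u u x ≤ Gb) (Y : E n) : |hess g (fun y => F (u y)) x Y Y|
      ≤ (|deriv F (u x)| * Hb + |deriv (deriv F) (u x)| * Gb) * bil (g x) Y Y := by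
  rw [hess_comp hF hu]
  have h3 := fderiv_sq_le hg hx u Y
  have h4 := bil_self_nonneg hg hx Y
  have h5 : |fderiv ℝ u x Y * fderiv ℝ u x Y| ≤ Gb * bil (g x) Y Y := by
    rw [abs_mul_self, ← pow_two]; exact h3.trans (by gcongr)
  have h6 := h1 Y
  calc _ ≤ |deriv F (u x)| * |hess g u x Y Y|
        + |deriv (deriv F) (u x)| * |fderiv ℝ u x Y * fderiv ℝ u x Y| := by
        rw [← abs_mul, ← abs_mul]; exact abs_add_le _ _
    _ ≤ |deriv F (u x)| * (Hb * bil (g x) Y Y)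
        + |deriv (deriv F) (u x)| * (Gb * bil (g x) Y Y) := by gcongr
    _ = _ := by ring

variable {P R e0 : ℝ}

theorem Far.gam_le (h : Far P R e0 g) (hx : R ≤ ‖x‖) (h0 : 0 < ‖x‖)
    (hF : DifferentiableAt ℝ F ‖x‖) :
    gam g (fun y => F ‖y‖) (fun y => F ‖y‖) x ≤ deriv F ‖x‖ ^ 2 * P := by
  rw [gam_comp_self (u := fun y => ‖y‖) hF ((contDiffAt_r (k := 1) h0).differentiableAt (by simp))]
  have := h.d_r x hx
  gcongr

theorem Far.hess_le (h : Far P R e0 g) (hg : IsRiemannianOn g univ) (hx : R ≤ ‖x‖) (h0 : 0 < ‖x‖)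
    (hF : ContDiffAt ℝ 2 F ‖x‖) (Y : E n) : |hess g (fun y => F ‖y‖) x Y Y|
      ≤ (|deriv F ‖x‖| * (P / ‖x‖) + |deriv (deriv F) ‖x‖| * P) * bil (g x) Y Y :=
  abs_hess_comp_le (u := fun y => ‖y‖) hg (mem_univ x) hF (contDiffAt_r h0)
    (fun Y => h.h_r x Y hx) (h.d_r x hx) Y

theorem deriv_rpow_neg {a r : ℝ} (hr : 0 < r) :
    deriv (fun s : ℝ => s ^ (-a)) r = -a * r ^ (-a) / r ∧
    deriv (deriv fun s : ℝ => s ^ (-a)) r = a * (a + 1) * r ^ (-a) / r ^ 2 := by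
  have h1 : ∀ s : ℝ, 0 < s → deriv (fun s : ℝ => s ^ (-a)) s = -a * s ^ (-a - 1) := fun s hs =>
    (Real.hasDerivAt_rpow_const (Or.inl hs.ne')).deriv
  constructor
  · rw [h1 r hr, Real.rpow_sub_one hr.ne']; ring
  · have h2 : deriv (fun s : ℝ => s ^ (-a)) =ᶠ[𝓝 r] fun s => -a * s ^ (-a - 1) := by
      filter_upwards [Ioi_mem_nhds hr] with s hs using h1 s hs
    rw [h2.deriv_eq, ((Real.hasDerivAt_rpow_const (p := -a - 1) (Or.inl hr.ne')).const_mul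
      (-a)).deriv, Real.rpow_sub_one hr.ne', Real.rpow_sub_one hr.ne']
    field_simp; ring

theorem contDiffAt_rpow_r {k : WithTop ℕ∞} (a : ℝ) (hx : 0 < ‖x‖) :
    ContDiffAt ℝ k (fun y : E n => ‖y‖ ^ a) x := (contDiffAt_r hx).rpow_const_of_ne hx.ne'

/-- bounds for `‖x‖^{-a}`, `0 ≤ a`. -/
theorem Far.rpow_le (h : Far P R e0 g) (hg : IsRiemannianOn g univ) (hx : R ≤ ‖x‖) (h0 : 0 < ‖x‖)
    {a : ℝ} (ha : 0 ≤ a) :
    gam g (fun y => ‖y‖ ^ (-a)) (fun y => ‖y‖ ^ (-a)) x ≤ (a * ‖x‖ ^ (-a) / ‖x‖) ^ 2 * P ∧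
    ∀ Y, |hess g (fun y => ‖y‖ ^ (-a)) x Y Y|
      ≤ a * (a + 2) * P * (‖x‖ ^ (-a) / ‖x‖ ^ 2) * bil (g x) Y Y := by
  have hF : ContDiffAt ℝ 2 (fun s : ℝ => s ^ (-a)) ‖x‖ := contDiffAt_id.rpow_const_of_ne h0.ne'
  obtain ⟨d1, d2⟩ := deriv_rpow_neg (a := a) h0
  have hp : 0 < ‖x‖ ^ (-a) := Real.rpow_pos_of_pos h0 _
  constructor
  · have := h.gam_le hx h0 (hF.differentiableAt (by simp))
    rw [d1] at this
    exact this.trans_eq (by ring)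
  · intro Y
    have := h.hess_le hg hx h0 hF Y
    have e1 : |-a * ‖x‖ ^ (-a) / ‖x‖| = a * ‖x‖ ^ (-a) / ‖x‖ := by
      rw [neg_mul, neg_div, abs_neg]; exact abs_of_nonneg (by positivity)
    have e2 : |a * (a + 1) * ‖x‖ ^ (-a) / ‖x‖ ^ 2| = a * (a + 1) * ‖x‖ ^ (-a) / ‖x‖ ^ 2 :=
      abs_of_nonneg (by positivity)
    rw [d1, d2, e1, e2] at this
    exact this.trans_eq (by field_simp; ring)

theorem a0_ge (hn : 3 ≤ n) : 3 / 4 ≤ a0 n := by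
  have : (3 : ℝ) ≤ n := by exact_mod_cast hn
  rw [a0]; linarith

theorem a0_le (hn : 3 ≤ n) : a0 n + 2 ≤ n := by
  have : (3 : ℝ) ≤ n := by exact_mod_cast hn
  rw [a0]; linarith

theorem al_ge (hn : 3 ≤ n) : 1 / 2 ≤ al n := by
  have : (3 : ℝ) ≤ n := by exact_mod_cast hn
  rw [al, le_div_iff₀ (by linarith)]; linarith

theorem al_le (hn : 3 ≤ n) : al n ≤ 1 := by
  have : (3 : ℝ) ≤ n := by exact_mod_cast hn
  rw [al, div_le_one (by linarith)]; linarith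

end Radial

/-! ### the warping factor of a setup -/

section Setup
variable {S : Setup n} {e M z3 : ℝ} {an f z : E n → ℝ} {x : E n}

theorem gt_one (c : Coef n) : c.gt 1 = c.g := by funext x; simp [Coef.gt]

theorem Kt_one (c : Coef n) : c.Kt 1 = c.K := by funext x; simp [Coef.Kt]

theorem ph_eq (S : Setup n) (e : ℝ) (f z : E n → ℝ) (x : E n) : ph S e f z x = e ^ 2 + (1 - e ^ 2)
    * (S.par e 0 0).chi ((S.coef 0).a1 x) ((S.coef 0).a2 x) (e ^ 3 * f x)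
    * (S.par e 0 0).Ph (z x) := by
  simp only [ph, phi, Par.phiF, Par.δ, Par.τ, Setup.par]; ring

theorem chi_mem' (S : Setup n) (e : ℝ) (x : E n) (t : ℝ) :
    (S.par e 0 0).chi ((S.coef 0).a1 x) ((S.coef 0).a2 x) t ∈ Icc (0 : ℝ) 1 :=
  chi_mem _ (cut_mem _ _ _) (one_sub_mem (cut_mem _ _ _)) t

theorem dd_mem' (S : Setup n) (e : ℝ) (x : E n) (t : ℝ) :
    (S.par e 0 0).dd ((S.coef 0).b1 x) ((S.coef 0).b2 x) t ∈ Icc (0 : ℝ) 1 :=
  dd_mem _ (cut_mem _ _ _) ⟨Bs.eta_nonneg _ _, Bs.eta_le_one _ _⟩ t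

theorem ph_mem (S : Setup n) (he : e ^ 2 ≤ 1) (f z : E n → ℝ) (x : E n) :
    ph S e f z x ∈ Icc (e ^ 2) 1 := by
  have h1 := chi_mem' S e x (e ^ 3 * f x)
  have h2 := Ph_mem (S.par e 0 0) (z x)
  have h3 := mul_nonneg h1.1 h2.1
  have h4 := mul_le_one₀ h1.2 h2.1 h2.2
  rw [ph_eq, mul_assoc]
  constructor <;> nlinarith

theorem Setup.OK.θ_pos (hS : S.OK) : 0 < S.θ := hS.par_ok.θ_pos
theorem Setup.OK.θ_le (hS : S.OK) : S.θ ≤ 1 := hS.par_ok.θ_le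
theorem Setup.OK.mw_pos (hS : S.OK) (x : E n) : 0 < S.mw x :=
  mul_pos hS.c1_pos (Real.rpow_pos_of_pos (by positivity) _)

/-- `φ = e²` near a point with `z < -θ/2`. -/
theorem ph_low (hS : S.OK) (hz : Continuous z) (h : z x < -S.θ / 2) :
    ph S e f z =ᶠ[𝓝 x] fun _ => e ^ 2 := by
  filter_upwards [(hz.tendsto x).eventually (gt_mem_nhds h)] with y hy
  rw [ph_eq, Ph_zero (P := S.par e 0 0) (Setup.OK.θ_pos hS) hy.le]; ring

/-- the coefficients on `2 R0 ≤ ‖x‖`. -/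
theorem coef_far (hS : S.OK) (hx : 2 * S.R0 ≤ ‖x‖) : S.K x = 0 ∧ (S.coef 0).a1 x = 1 ∧
    (S.coef 0).a2 x = 0 ∧ (S.coef 0).b1 x = 1 ∧ (S.coef 0).b2 x = 0 ∧ (S.coef 0).EE x = 0 := by
  have hR := hS.good.R0_ge
  have h1 : S.R0 ≤ ‖x‖ := by linarith
  have h2 := hS.good.s_far x h1
  have h3 : eta S.R0 x = 0 := Bs.eta_eq_zero (by linarith) hx
  refine ⟨hS.good.K_far x h1, cut_one (by norm_num) (by linarith), ?_,
    cut_one hS.ra_gt (by linarith [hS.rab, hS.rb_lt]), h3, ?_⟩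
  · simp [Setup.coef, cut_one hS.rab (hS.rb_lt.le.trans h2)]
  · funext i; simp [Setup.coef, h3]

theorem ev_far {ρ : ℝ} (hx : ρ < ‖x‖) : ∀ᶠ y in 𝓝 x, ρ < ‖y‖ :=
  (isOpen_lt continuous_const continuous_norm).mem_nhds hx

theorem ph_far (hS : S.OK) (hx : 2 * S.R0 ≤ ‖x‖) :
    ph S e f z x = e ^ 2 + (1 - e ^ 2) * (S.par e 0 0).Ph (z x) := by
  obtain ⟨-, h1, h2, -⟩ := coef_far hS hx
  rw [ph_eq, h1, h2]; simp [Par.chi]

theorem rhs_far (hS : S.OK) (hx : 2 * S.R0 ≤ ‖x‖) : rhs S e M z3 an f z x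
    = -((e ^ 3 * f x) ^ 2 + e ^ 3 * pp' S e f z x + 2 * S.mw x)
      - (S.par e 0 0).sz (z x) * S.cw x + an x * z x + (S.par e M z3).vt (z x) := by
  obtain ⟨-, -, -, h1, h2, h3⟩ := coef_far hS hx
  have h4 : eSq (gB S e f z) (S.coef 0).EE x = 0 := by simp [eSq, vecNormSq, h3]
  rw [rhs, h1, h2, h4]; simp [Par.dd]

theorem ZFar.z5 (hn : 3 ≤ n) (hS : S.OK) (he : 0 < e) (h : ZFar S e z)
    (hx : 9 * e⁻¹ ^ 4 ≤ ‖x‖) : -S.θ / 4 ≤ z x := by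
  have h0 : 0 < e⁻¹ ^ 4 := by positivity
  have h1 := h x (by linarith)
  have h2 : e⁻¹ ^ 4 / ‖x‖ ≤ 1 / 9 := by rw [div_le_iff₀ (by linarith)]; linarith
  have h3 : (e⁻¹ ^ 4 / ‖x‖) ^ a0 n ≤ 1 / 4 :=
    calc _ ≤ (1 / 9 : ℝ) ^ a0 n := by
          have := a0_ge hn
          gcongr
      _ ≤ (1 / 9 : ℝ) ^ (3 / 4 : ℝ) :=
          Real.rpow_le_rpow_of_exponent_ge (by norm_num) (by norm_num) (a0_ge hn)
      _ ≤ 1 / 4 := by
          rw [← pow_le_pow_iff_left₀ (by positivity) (by positivity) (by norm_num : (4 : ℕ) ≠ 0),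
            ← Real.rpow_natCast, ← Real.rpow_mul (by norm_num)]
          norm_num
  have := Setup.OK.θ_pos hS
  nlinarith

theorem ZFar.ph_one (hn : 3 ≤ n) (hS : S.OK) (he : 0 < e) (hR : 2 * S.R0 ≤ 9 * e⁻¹ ^ 4)
    (h : ZFar S e z) (hx : 9 * e⁻¹ ^ 4 ≤ ‖x‖) : ph S e f z x = 1 := by
  rw [ph_far hS (hR.trans hx), Ph_one (P := S.par e 0 0) (Setup.OK.θ_pos hS) (h.z5 hn hS he hx)]
  ring

/-- `φ = 1` near every point with `9 e⁻⁴ < ‖x‖`. -/
theorem ZFar.ph_ev (hn : 3 ≤ n) (hS : S.OK) (he : 0 < e) (hR : 2 * S.R0 ≤ 9 * e⁻¹ ^ 4)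
    (h : ZFar S e z) (hx : 9 * e⁻¹ ^ 4 < ‖x‖) : ph S e f z =ᶠ[𝓝 x] fun _ => 1 := by
  filter_upwards [ev_far hx] with y hy using h.ph_one hn hS he hR hy.le

theorem ZFar.sz_zero (hn : 3 ≤ n) (hS : S.OK) (he : 0 < e) (h : ZFar S e z)
    (hx : 9 * e⁻¹ ^ 4 ≤ ‖x‖) : (S.par e 0 0).sz (z x) = 0 :=
  Bd.sz_zero (P := S.par e 0 0) (Setup.OK.θ_pos hS) (by
    have h1 := h.z5 hn hS he hx
    have h2 := Setup.OK.θ_pos hS
    change -3 * S.θ / 4 ≤ z x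
    linarith)

namespace Sl

theorem f_smooth (h : Sl S e M z3 an f z) : ContDiff ℝ ∞ f := h.bdd.choose_spec.1.1
theorem z_smooth (h : Sl S e M z3 an f z) : ContDiff ℝ ∞ z := h.bdd.choose_spec.2.1
theorem cz2 (h : Sl S e M z3 an f z) (x : E n) : ContDiffAt ℝ 2 z x :=
  h.z_smooth.contDiffAt.of_le (by norm_cast)

theorem exists_bound (h : Sl S e M z3 an f z) : ∃ B0 : ℝ, 0 ≤ B0 ∧ ∀ x, |f x| ≤ B0 ∧ |z x| ≤ B0 ∧
    ‖fderiv ℝ f x‖ ≤ B0 ∧ ‖fderiv ℝ z x‖ ≤ B0 := by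
  obtain ⟨B, hf, hz⟩ := h.bdd
  refine ⟨max 0 (max (B 0) (B 1)), le_max_left _ _, fun x => ⟨?_, ?_, ?_, ?_⟩⟩
  · have := hf.2 0 x; simp only [norm_iteratedFDeriv_zero, Real.norm_eq_abs] at this
    exact this.trans ((le_max_left _ _).trans (le_max_right _ _))
  · have := hz.2 0 x; simp only [norm_iteratedFDeriv_zero, Real.norm_eq_abs] at this
    exact this.trans ((le_max_left _ _).trans (le_max_right _ _))
  · have := hf.2 1 x; rw [norm_iteratedFDeriv_one] at this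
    exact this.trans ((le_max_right _ _).trans (le_max_right _ _))
  · have := hz.2 1 x; rw [norm_iteratedFDeriv_one] at this
    exact this.trans ((le_max_right _ _).trans (le_max_right _ _))

/-- `H₀ = τ f` on `2 R0 ≤ ‖x‖`. -/
theorem H0_far (h : Sl S e M z3 an f z) (hS : S.OK) (hx : 2 * S.R0 ≤ ‖x‖) :
    H0 S.g (ph S e f z) f x = e ^ 3 * f x := by
  rw [H0_eq_Th h.jd (mem_univ x) S.K, h.J, traceK, (coef_far hS hx).1]
  simp [bil_apply]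

/-- `w(H₀) = τ γ p / φ` on `2 R0 < ‖x‖`. -/
theorem dH0_far (h : Sl S e M z3 an f z) (hS : S.OK) (hx : 2 * S.R0 < ‖x‖) :
    ph S e f z x * fderiv ℝ (H0 S.g (ph S e f z) f) x (wv S.g (ph S e f z) f x)
      = e ^ 3 * (gm' S e f z x * pp' S e f z x) := by
  have h1 : H0 S.g (ph S e f z) f =ᶠ[𝓝 x] fun y => e ^ 3 * f y := by
    filter_upwards [ev_far hx] with y hy using h.H0_far hS hy.le
  rw [h1.fderiv_eq, fderiv_const_mul (Bs.smooth_diff h.f_smooth x), ← h.jd.df_wv (mem_univ x)]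
  simp; ring

theorem vt_nonneg (h : Sl S e M z3 an f z) (hz : -S.θ - 1 ≤ z x) : 0 ≤ (S.par e M z3).vt (z x) :=
  Bd.vt_nonneg (P := S.par e M z3) h.M_nonneg hz

theorem vt_nonpos (h : Sl S e M z3 an f z) (hz : z x ≤ 0) : (S.par e M z3).vt (z x) ≤ 0 :=
  Bd.vt_nonpos (P := S.par e M z3) h.M_nonneg (hz.trans h.z3_nonneg)

theorem of_sol (hS : S.OK) (he : 0 < e) (he1 : e ≤ 1) (hM : 0 ≤ M) (hz3 : 0 ≤ z3)
    (h1 : ∀ x, an x ∈ Icc (0 : ℝ) 1) (h2 : ∀ x, ‖x‖ ≤ 2 * e⁻¹ ^ 5 → an x = 0)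
    (h3 : ∀ m > 0, ∃ R' : ℝ, ∀ x, R' ≤ ‖x‖ → m ≤ |z x| → an x = 1) {B : ℕ → ℝ} (hf : Bdd B f)
    (hz : Bdd B z) (h : S.Sol e M z3 an f z) : Sl S e M z3 an f z := by
  have hg : (S.coef an).gt 1 = S.g := gt_one _
  have hK : (S.coef an).Kt 1 = S.K := Kt_one _
  have hφ : phi (S.par e M z3) (S.coef an) 1 f z = ph S e f z := rfl
  have hb : gbar (S.par e M z3) (S.coef an) 1 f z = gB S e f z := by rw [gbar, hg, hφ]
  have hs := hS.good.s_smooth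
  refine ⟨hM, hz3, h1, h2, h3, ⟨B, hf, hz⟩, ⟨hS.good.riem, ?_, hf.1.contDiffOn, fun x _ => ?_⟩,
    fun x => ?_, fun x => ?_⟩
  · rw [show ph S e f z = _ from funext (ph_eq S e f z)]
    refine (contDiff_const.add ((contDiff_const.mul ?_).mul
      ((contDiff_Ph _).comp hz.1))).contDiffOn
    exact ((contDiff_cut _ _).comp hs).mul (contDiff_const.sub ((contDiff_const.sub
      ((contDiff_cut _ _).comp hs)).mul (contDiff_const.sub
        ((contDiff_cut _ _).comp (contDiff_const.mul hf.1)))))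
  · exact lt_of_lt_of_le (by positivity) (ph_mem S (pow_le_one₀ he.le he1) f z x).1
  · have := h.jang x
    rwa [hg, hK, hφ] at this
  · have := h.conf x
    rw [hb] at this
    rw [this, GG, TT, hb, hg, hφ, rhs]
    simp only [Par.τ, Setup.par, Setup.coef, Par.sz, Par.dd, Par.vt]
    ring

end Sl

end Setup

end Crest.Agent.N346.Bd

end
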