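import Crest.Agent.N346.P1.Defs
import Crest.Agent.N346.Id.Jang3
import Crest.Agent.N346.Id.Flat
import Crest.Agent.N346.Basic2

/-!
Row 346, Part 1 (helper71): FROZEN leaf statements for `P1.APStmt`, `P1.EstStmt`, `P1.EnStmt`.
`δ = e²`, `τ = e³`; radii `e⁻⁴`, `9 e⁻⁴`, `e⁻⁵`.  Paper proofs: the task bodies "346 Bd-*".
-/

set_option autoImplicit false

open MeasureTheory Filter Set
open scoped ContDiff Topology
open Crest.GeometryTopology.CoordMetric Crest.MathPhysics.ExteriorData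
open Crest.Agent.R202.Tens Crest.Agent.R247.Bo84 Crest.Agent.N346.Id Crest.Agent.N346.P1

noncomputable section

namespace Crest.Agent.N346.Bd

variable {n : ℕ}

/-! ### bounded geometry -/

/-- `(∇_W K)(W, W)`. -/
def cK (g K : MetricField n) (x W : E n) : ℝ :=
  fderiv ℝ (fun y => bil (K y) W W) x W - 2 * bil (K x) (Gam g x W W) W

/-- First and second `g`-derivatives of `u` are bounded by `P`. -/
structure B2 (P : ℝ) (g : MetricField n) (u : E n → ℝ) : Prop where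
  smooth : ContDiff ℝ ∞ u
  d_le : ∀ x, gam g u u x ≤ P
  h_le : ∀ x Y, |hess g u x Y Y| ≤ P * bil (g x) Y Y

/-- Bounded geometry, intrinsic form. -/
structure BG (P : ℝ) (g K : MetricField n) (EE : VectorField n) (a1 a2 : E n → ℝ) : Prop where
  P_ge : 2 ≤ P
  riem : IsRiemannianOn g univ
  symK : SymT K univ
  a1_mem : ∀ x, a1 x ∈ Icc (0 : ℝ) 1
  a2_mem : ∀ x, a2 x ∈ Icc (0 : ℝ) 1
  a1_b2 : B2 P g a1
  a12_b2 : B2 P g fun x => a1 x * a2 x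
  E_le : ∀ x, eSq g EE x ≤ P
  g_lo : ∀ x Y, ‖Y‖ ^ 2 ≤ P * bil (g x) Y Y
  g_hi : ∀ x Y, bil (g x) Y Y ≤ P * ‖Y‖ ^ 2
  vol_lo : ∀ x, P⁻¹ ≤ volDensity g x
  vol_hi : ∀ x, volDensity g x ≤ P
  R_le : ∀ x, |scalarCurv g x| ≤ P
  Ric_le : ∀ x Y, |bil (ricM g x) Y Y| ≤ P * bil (g x) Y Y
  K_le : ∀ x Y Z, bil (K x) Y Z ^ 2 ≤ P ^ 2 * (bil (g x) Y Y * bil (g x) Z Z)
  trK_le : ∀ x, |traceK g K x| ≤ P
  dtrK_le : ∀ x W, bil (g x) W W ≤ 1 → |fderiv ℝ (traceK g K) x W| ≤ P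
  cK_le : ∀ x W, bil (g x) W W ≤ 1 → |cK g K x W| ≤ P
  mu_le : ∀ x, |energyDensity g K x| ≤ P
  J_le : ∀ x W, bil (g x) W W ≤ 1 → |Jw g K x W| ≤ P

/-- Leaf: coordinate bounds give bounded geometry along the homotopy (also for one more `u`). -/
def BGStmt : Prop := ∀ (n : ℕ) (lam Cu : ℝ) (B : ℕ → ℝ), ∃ P : ℝ, ∀ c : Coef n, c.Unif lam B →
  ∀ t ∈ Icc (0 : ℝ) 1, BG P (c.gt t) (c.Kt t) c.EE c.a1 c.a2 ∧
  ∀ u : E n → ℝ, ContDiff ℝ ∞ u → (∀ x, ‖fderiv ℝ u x‖ ≤ Cu) →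
    (∀ x, ‖fderiv ℝ (fderiv ℝ u) x‖ ≤ Cu) → B2 P (c.gt t) u

/-- the decay rate, `(n-2)/2 < a0 n < n-2`. -/
def a0 (n : ℕ) : ℝ := 3 * ((n : ℝ) - 2) / 4

/-- Far-field geometry of `g` on `R ≤ ‖x‖`. -/
structure Far (P R e0 : ℝ) (g : MetricField n) : Prop where
  R_far : ∀ x, R ≤ ‖x‖ → |scalarCurv g x| ≤ P * ‖x‖ ^ (-(n : ℝ) - e0)
  Ric_far : ∀ x Y, R ≤ ‖x‖ →
    |bil (ricM g x) Y Y| ≤ P * ‖x‖ ^ (-(n : ℝ)) * bil (g x) Y Y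
  d_r : ∀ x, R ≤ ‖x‖ → gam g (fun y => ‖y‖) (fun y => ‖y‖) x ≤ P
  h_r : ∀ x Y, R ≤ ‖x‖ → |hess g (fun y => ‖y‖) x Y Y| ≤ P / ‖x‖ * bil (g x) Y Y
  lap_r : ∀ x, R ≤ ‖x‖ →
    laplaceBeltrami g (fun y => ‖y‖ ^ (-a0 n)) x ≤ -(P⁻¹ * ‖x‖ ^ (-a0 n - 2))

/-- Leaf: the far-field geometry of good data. -/
def FarStmt : Prop := ∀ (n : ℕ), 3 ≤ n → ∀ (m A Q : ℝ) (g K : MetricField n)
  (EE : VectorField n) (ψ s : E n → ℝ) (R0 C c0 e0 θ0 r1 : ℝ),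
  Good n m A Q g K EE ψ s R0 C c0 e0 θ0 r1 → ∃ P R : ℝ, 0 < P ∧ Far P R e0 g

/-- The quantitative geometry of a setup. -/
structure Geo (S : Setup n) (P T0 R : ℝ) (bp : E n → ℝ) : Prop
    extends BG P S.g S.K (S.coef 0).EE (S.coef 0).a1 (S.coef 0).a2, Far P R S.e0 S.g where
  R_ge : 2 * S.R0 ≤ R
  T0_le : T0 ≤ P
  trK_T : ∀ x, |traceK S.g S.K x| ≤ T0
  θ_inv : S.θ⁻¹ ≤ P
  t0_inv : S.t0⁻¹ ≤ P
  bp_b2 : B2 P S.g bp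
  bp_nonneg : ∀ x, 0 ≤ bp x
  bp_top : Tendsto bp (cocompact (E n)) atTop
  cw_nonneg : ∀ x, 0 ≤ S.cw x
  cw_hi : ∀ x, S.cw x ≤ P * (1 + ‖x‖) ^ (-(n : ℝ))
  mw_lo : ∀ x, P⁻¹ * (1 + ‖x‖) ^ (-(2 * n : ℝ)) ≤ S.mw x
  mw_hi : ∀ x, S.mw x ≤ P * (1 + ‖x‖) ^ (-(n : ℝ))

/-- Leaf: every setup has a quantitative geometry. -/
def GeoStmt : Prop := UnifStmt → BGStmt → FarStmt → ∀ (n : ℕ), 3 ≤ n → ∀ S : Setup n, S.OK →
  ∃ (P T0 R : ℝ) (bp : E n → ℝ), Geo S P T0 R bp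

/-! ### bounded solutions on `ℝⁿ` -/

section
variable (S : Setup n) (e : ℝ)

/-- the warping factor (it does not depend on `M, z3` or the anchor). -/
def ph (f z : E n → ℝ) : E n → ℝ := phi (S.par e 0 0) (S.coef 0) 1 f z

/-- the Jang metric. -/
abbrev gB (f z : E n → ℝ) : MetricField n := gb S.g (ph S e f z) f

/-- `γ`. -/
abbrev gm' (f z : E n → ℝ) : E n → ℝ := gm S.g (ph S e f z) f

/-- `p`. -/
abbrev pp' (f z : E n → ℝ) : E n → ℝ := pp S.g (ph S e f z) f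

/-- the right-hand side of (U) without `R̄`. -/
def rhs (M z3 : ℝ) (an f z : E n → ℝ) (x : E n) : ℝ :=
  -((e ^ 3 * f x) ^ 2 + e ^ 3 * pp' S e f z x + 2 * S.mw x
      + 2 * eSq (gB S e f z) (S.coef 0).EE x)
    - (S.par e 0 0).sz (z x) * S.cw x
    + (1 - (S.par e 0 0).sz (z x)) * ((e ^ 6)⁻¹ *
      (S.par e 0 0).dd ((S.coef 0).b1 x) ((S.coef 0).b2 x) (e ^ 3 * f x))
    + an x * z x + (S.par e M z3).vt (z x)

/-- Bounded solutions at `t = 1`; `anch` holds if `an = 1` near infinity or if `z → 0`. -/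
structure Sl (M z3 : ℝ) (an f z : E n → ℝ) : Prop where
  M_nonneg : 0 ≤ M
  z3_nonneg : 0 ≤ z3
  an_mem : ∀ x, an x ∈ Icc (0 : ℝ) 1
  an_zero : ∀ x, ‖x‖ ≤ 2 * e⁻¹ ^ 5 → an x = 0
  anch : ∀ m > 0, ∃ R' : ℝ, ∀ x, R' ≤ ‖x‖ → m ≤ |z x| → an x = 1
  bdd : ∃ B : ℕ → ℝ, Bdd B f ∧ Bdd B z
  jd : Jd S.g (ph S e f z) f univ
  J : ∀ x, Th S.g (ph S e f z) f S.K x = e ^ 3 * f x
  U : ∀ x, 2 * laplaceBeltrami (gB S e f z) z x + al n * gam (gB S e f z) z z x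
    = scalarCurv (gB S e f z) x + rhs S e M z3 an f z x

variable (f z : E n → ℝ)

/-- `ψ = γ e^{2z}`. -/
def psi (x : E n) : ℝ := gm' S e f z x * Real.exp (2 * z x)

/-- `z ≥ -θ`. -/
def ZLo (z : E n → ℝ) : Prop := ∀ x, -S.θ ≤ z x

/-- outer barrier for `z` (it gives `-θ/4 ≤ z` and `φ = 1` on `9 e⁻⁴ ≤ ‖x‖`). -/
def ZFar (z : E n → ℝ) : Prop :=
  ∀ x, e⁻¹ ^ 4 ≤ ‖x‖ → -(S.θ * (e⁻¹ ^ 4 / ‖x‖) ^ a0 n) ≤ z x

/-- bound for `f`. -/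
def FB (e T0 : ℝ) (f : E n → ℝ) : Prop := ∀ x, |e ^ 3 * f x| ≤ T0

/-- decay of `f`. -/
def FFar (e T0 : ℝ) (f : E n → ℝ) : Prop := ∀ x, 9 * e⁻¹ ^ 4 ≤ ‖x‖ →
  |e ^ 3 * f x| ≤ T0 * Real.exp (-e ^ 2 * (‖x‖ - 9 * e⁻¹ ^ 4))

/-- decay of `df`. -/
def GFar : Prop := ∀ x, 9 * e⁻¹ ^ 4 ≤ ‖x‖ →
  1 - (9 * e⁻¹ ^ 4 / ‖x‖) ^ (4 * n) ≤ (gm' S e f z x)⁻¹

/-- upper barrier for `ψ`. -/
def PFar : Prop := ∀ M ≥ (1 : ℝ), (∀ x, ‖x‖ = e⁻¹ ^ 5 → psi S e f z x ≤ 1 + M) →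
  ∀ x, e⁻¹ ^ 5 ≤ ‖x‖ → psi S e f z x ≤ 1 + M * (e⁻¹ ^ 5 / ‖x‖) ^ a0 n

/-- All barrier estimates. -/
structure FF (T0 : ℝ) : Prop where
  zlo : ZLo S z
  zfar : ZFar S e z
  fb : FB e T0 f
  ffar : FFar e T0 f
  gfar : GFar S e f z
  pfar : PFar S e f z

/-- `u² = e^{α z}`. -/
def uu (z : E n → ℝ) (x : E n) : ℝ := Real.exp (al n * z x)

/-- the energy flux `φ u² (2 q + 2 ∇̄ z)`. -/
def VE (x : E n) : E n := (ph S e f z x * uu z x) •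
  ((2 : ℝ) • qv S.g (ph S e f z) f S.K x + (2 : ℝ) • grad (gB S e f z) z x)

/-- the energy density (against Lebesgue measure). -/
def ed (x : E n) : ℝ := volDensity (gB S e f z) x * (uu z x *
  (ph S e f z x * (normSqK (gB S e f z) (ZZ S.g (ph S e f z) f S.K) x
    + bil (gB S e f z x) (qv S.g (ph S e f z) f S.K x) (qv S.g (ph S e f z) f S.K x)
    + gam (gB S e f z) z z x + S.mw x)
    + e ^ 3 * gm' S e f z x * pp' S e f z x))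

/-- the cost density. -/
def cost (z : E n → ℝ) (P1 : ℝ) (x : E n) : ℝ :=
  P1 * (e ^ 2 * (S.par e 0 0).sz (z x) * (1 + ‖x‖) ^ (-(n : ℝ)) + e * (1 + ‖x‖) ^ (-(2 * n : ℝ)))

/-- the pointwise energy inequality. -/
def EI (M z3 : ℝ) (an : E n → ℝ) (P1 : ℝ) : Prop := ∀ x, ed S e f z x / 12 - cost S e z P1 x
  + volDensity (gB S e f z) x * (ph S e f z x * uu z x *
    (an x * z x + (S.par e M z3).vt (z x)))
  ≤ volDensity (gB S e f z) x * divg (gB S e f z) (VE S e f z) x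

end

/-- The shape of the leaves: a property of bounded solutions for small `e`. -/
def Leaf (H : ∀ n : ℕ, Setup n → ℝ → ℝ → ℝ → ℝ → (E n → ℝ) → (E n → ℝ) → (E n → ℝ) → Prop) :
    Prop :=
  ∀ (n : ℕ), 3 ≤ n → ∀ S : Setup n, S.OK → ∀ (P T0 R : ℝ) (bp : E n → ℝ), Geo S P T0 R bp →
  ∃ e1 > (0 : ℝ), ∀ e, 0 < e → e ≤ e1 → ∀ (M z3 : ℝ) (an f z : E n → ℝ), Sl S e M z3 an f z →
  H n S T0 e M z3 an f z

/-- S1: minimum principle. -/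
def S1Stmt : Prop := Leaf fun _ S _ _ _ _ _ _ z => ZLo S z

/-- S2 (step 1.4): inner barrier. -/
def S2Stmt : Prop := Leaf fun _ S _ e _ _ _ f _ => ∀ x, S.s x ≤ S.ra → e ^ 3 * f x ≤ -S.t1

/-- S3 (step 1.5): outer barrier for `z`. -/
def S3Stmt : Prop := Leaf fun _ S _ e _ _ _ _ z => ZLo S z → ZFar S e z

/-- S4: bound and barrier for `f`. -/
def S4Stmt : Prop := Leaf fun _ S T0 e _ _ _ f z => ZFar S e z → FB e T0 f ∧ FFar e T0 f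

/-- S5: barrier for `1/γ`. -/
def S5Stmt : Prop := Leaf fun _ S T0 e _ _ _ f z => ZFar S e z → FB e T0 f → GFar S e f z

/-- S6: barrier for `ψ`. -/
def S6Stmt : Prop := Leaf fun _ S T0 e _ _ _ f z =>
  ZFar S e z → FFar e T0 f → GFar S e f z → PFar S e f z

/-- S7a: pointwise energy inequality. -/
def S7aStmt : Prop := ∀ (n : ℕ), 3 ≤ n → ∀ S : Setup n, S.OK →
  ∀ (P T0 R : ℝ) (bp : E n → ℝ), Geo S P T0 R bp → ∃ P1 ≥ (0 : ℝ), ∃ e1 > (0 : ℝ),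
  ∀ e, 0 < e → e ≤ e1 → ∀ (M z3 : ℝ) (an f z : E n → ℝ), Sl S e M z3 an f z → FB e T0 f →
  EI S e f z M z3 an P1

/-- S7b: the cost is at most `√e`. -/
def S7bStmt : Prop := ∀ P1 ≥ (0 : ℝ), Leaf fun _ S _ e _ _ _ _ z => ZFar S e z →
  Integrable (cost S e z P1) ∧ ∫ x, cost S e z P1 x ≤ Real.sqrt e

/-- S7c (step 1.6): the energy is finite and polynomially bounded. -/
def S7cStmt : Prop := ∀ P1 : ℝ, Leaf fun n S T0 e M z3 an f z => FF S e f z T0 →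
  EI S e f z M z3 an P1 → Integrable (cost S e z P1) → ∫ x, cost S e z P1 x ≤ 1 →
  Integrable (ed S e f z) ∧ ∫ x, ed S e f z x ≤ e⁻¹ ^ (5 * n)

/-- S7d (step 1.8, mass): without anchor the flux of `u` is at most the cost. -/
def S7dStmt : Prop := ∀ P1 : ℝ, Leaf fun n S T0 e M z3 an f z => (∀ x, an x = 0) →
  FF S e f z T0 → EI S e f z M z3 an P1 → Integrable (cost S e z P1) → (∀ x, 0 ≤ cost S e z P1 x) →
  Integrable (ed S e f z) → Integrable (fun x => ∑ i, pderiv i z x ^ 2) ∧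
    FluxLE (fun x => Real.exp (al n * z x / 2)) (∫ x, cost S e z P1 x)

/-- Leaf: abstract degenerate De Giorgi – Stampacchia lemma. -/
def DGStmt : Prop := ∀ n : ℕ, 2 ≤ n → ∃ N : ℕ, ∀ P : ℝ, 2 ≤ P →
  ∀ (ψ γ : E n → ℝ) (V : E n → E n), ContDiff ℝ 1 ψ → ContDiff ℝ 1 V → Continuous γ →
  (∀ x, ψ x ≤ 1) → (∃ x, ψ x = 1) → Bornology.IsBounded {x | 1 / 4 ≤ ψ x} →
  (∀ x, 1 / 4 < ψ x → 0 ≤ γ x ∧ ‖fderiv ℝ ψ x‖ ^ 2 ≤ P * γ x * fderiv ℝ ψ x (V x) ∧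
    γ x / P - P ≤ divE (fun y i => V y i) x) →
  (P ^ N)⁻¹ ≤ volume.real {x | 1 / 4 < ψ x}

/-- S8 (step 1.7): polynomial sup bound, independent of `z3, M` and the anchor. -/
def S8Stmt : Prop := DGStmt → ∀ (n : ℕ), 3 ≤ n → ∀ S : Setup n, S.OK →
  ∀ (P T0 R : ℝ) (bp : E n → ℝ), Geo S P T0 R bp → ∃ (N : ℕ) (e1 : ℝ), 0 < e1 ∧
  ∀ e, 0 < e → e ≤ e1 → ∀ (M z3 : ℝ) (an f z : E n → ℝ), Sl S e M z3 an f z → FF S e f z T0 →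
  Integrable (ed S e f z) → ∫ x, ed S e f z x ≤ e⁻¹ ^ (5 * n) → ∀ x, psi S e f z x ≤ e⁻¹ ^ N

/-- Leaf: assembly of `EstStmt` and `EnStmt`. -/
def TopStmt : Prop := (∀ (n : ℕ), 3 ≤ n → ∀ S : Setup n, S.OK →
    ∃ (P T0 R : ℝ) (bp : E n → ℝ), Geo S P T0 R bp) →
  S1Stmt → S2Stmt → S3Stmt → S4Stmt → S5Stmt → S6Stmt → S7aStmt → S7bStmt → S7cStmt → S7dStmt →
  DGStmt → S8Stmt → EstStmt ∧ EnStmt

end Crest.Agent.N346.Bd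

end
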