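import Crest.Agent.N346.Bd.Lin

/-!
Row 346, Part 1 (helper10): simplifications of the system in the far region `9 e⁻⁴ < ‖x‖` and
radial comparison functions (tools for S4, S5, S6).
-/

set_option autoImplicit false

open MeasureTheory Filter Set
open scoped ContDiff Topology
open Crest.GeometryTopology.CoordMetric Crest.MathPhysics.ExteriorData
open Crest.Agent.R202.Tens Crest.Agent.R247.Bo84 Crest.Agent.N346.Id Crest.Agent.N346.P1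

noncomputable section

namespace Crest.Agent.N346.Bd.Fb

variable {n : ℕ} {S : Setup n} {P T0 R e M z3 : ℝ} {bp an f z : E n → ℝ} {x : E n}

theorem cut_one {a b t : ℝ} (hab : a < b) (h : b ≤ t) : cut a b t = 1 :=
  Real.smoothTransition.one_of_one_le ((one_le_div (sub_pos.2 hab)).2 (by linarith))

theorem a0_ge (hn : 3 ≤ n) : 3 / 4 ≤ a0 n := by
  have : (3 : ℝ) ≤ n := by exact_mod_cast hn
  unfold a0; linarith

theorem a0_le (hn : 3 ≤ n) : a0 n + 2 ≤ n := by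
  have : (3 : ℝ) ≤ n := by exact_mod_cast hn
  unfold a0; linarith

/-- All standing hypotheses of the far-field barriers. -/
structure Ctx (S : Setup n) (P T0 R e M z3 : ℝ) (bp an f z : E n → ℝ) : Prop where
  hn : 3 ≤ n
  ok : S.OK
  geo : Geo S P T0 R bp
  sl : Sl S e M z3 an f z
  e_pos : 0 < e
  e_le : e ≤ 1 / 18
  R_le : R ≤ e⁻¹
  zf : ZFar S e z

namespace Ctx
variable (c : Ctx S P T0 R e M z3 bp an f z)
include c

theorem X_ge : 18 ≤ e⁻¹ := by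
  rw [le_inv_comm₀ (by norm_num) c.e_pos]; simpa using c.e_le
theorem X_le4 : e⁻¹ ≤ e⁻¹ ^ 4 := by
  simpa using pow_le_pow_right₀ (show 1 ≤ e⁻¹ by linarith [c.X_ge]) (by norm_num : 1 ≤ 4)
theorem R_le' (hx : 9 * e⁻¹ ^ 4 ≤ ‖x‖) : R ≤ ‖x‖ := by
  linarith [c.R_le, c.X_le4, c.X_ge]
theorem one_le (hx : 9 * e⁻¹ ^ 4 ≤ ‖x‖) : 1 ≤ ‖x‖ := by linarith [c.X_le4, c.X_ge]
theorem R0_le (hx : 9 * e⁻¹ ^ 4 ≤ ‖x‖) : 2 * S.R0 ≤ ‖x‖ := c.geo.R_ge.trans (c.R_le' hx)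
theorem P_one : 1 ≤ P := by linarith [c.geo.P_ge]
theorem jd : Jd S.g (ph S e f z) f univ := c.sl.jd
theorem f_smooth : ContDiff ℝ ∞ f := let ⟨_, h, _⟩ := c.sl.bdd; h.1
theorem z_smooth : ContDiff ℝ ∞ z := let ⟨_, _, h⟩ := c.sl.bdd; h.1
theorem f_bdd : ∃ B, ∀ x, |f x| ≤ B :=
  let ⟨B, h, _⟩ := c.sl.bdd; ⟨B 0, fun x => by simpa using h.2 0 x⟩
theorem z_bdd : ∃ B, ∀ x, |z x| ≤ B :=
  let ⟨B, _, h⟩ := c.sl.bdd; ⟨B 0, fun x => by simpa using h.2 0 x⟩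
theorem bp2 : ContDiffAt ℝ 2 bp x := c.geo.bp_b2.smooth.contDiffAt.of_le (by norm_cast)
theorem T0_nonneg : 0 ≤ T0 := (abs_nonneg _).trans (c.geo.trK_T 0)

theorem z_far (hx : 9 * e⁻¹ ^ 4 ≤ ‖x‖) : -S.θ / 4 ≤ z x := by
  have hX : 0 < e⁻¹ ^ 4 := pow_pos (inv_pos.2 c.e_pos) 4
  have h1 := c.zf x (by linarith)
  have hr : 0 < ‖x‖ := by linarith
  have h2 : e⁻¹ ^ 4 / ‖x‖ ≤ 1 / 9 := by rw [div_le_div_iff₀ hr (by norm_num)]; linarith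
  have h3 : (e⁻¹ ^ 4 / ‖x‖) ^ a0 n ≤ (1 / 9 : ℝ) ^ (3 / 4 : ℝ) :=
    (Real.rpow_le_rpow (by positivity) h2 (by linarith [a0_ge c.hn])).trans
      (Real.rpow_le_rpow_of_exponent_ge (by norm_num) (by norm_num) (a0_ge c.hn))
  have h4 : (1 / 9 : ℝ) ^ (3 / 4 : ℝ) ≤ 1 / 4 := by
    refine le_of_pow_le_pow_left₀ (n := 4) (by norm_num) (by norm_num) ?_
    rw [← Real.rpow_natCast, ← Real.rpow_mul (by norm_num)]
    norm_num
  have := mul_le_mul_of_nonneg_left (h3.trans h4) c.ok.par_ok.θ_pos.le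
  simp only [Setup.par] at this
  linarith

theorem s_far (hx : 9 * e⁻¹ ^ 4 ≤ ‖x‖) : 2 ≤ S.s x :=
  c.ok.good.s_far x (by linarith [c.R0_le hx, c.ok.good.R0_ge])

theorem ph_far (hx : 9 * e⁻¹ ^ 4 ≤ ‖x‖) : ph S e f z x = 1 := by
  have hθ : 0 < S.θ := c.ok.par_ok.θ_pos
  have h1 : cut (1 / 4) (1 / 2) (S.s x) = 1 := cut_one (by norm_num) (by linarith [c.s_far hx])
  have h2 : cut S.ra S.rb (S.s x) = 1 := cut_one c.ok.rab (by linarith [c.s_far hx, c.ok.rb_lt])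
  have h3 : cut (-S.θ / 2) (-S.θ / 4) (z x) = 1 := cut_one (by linarith) (c.z_far hx)
  simp [ph, phi, Par.phiF, Par.chi, Par.Ph, Setup.coef, Setup.par, h2, h3] at h1 ⊢
  simp [h1]

theorem K_far (hx : 9 * e⁻¹ ^ 4 ≤ ‖x‖) : S.K x = 0 :=
  c.ok.good.K_far x (by linarith [c.R0_le hx, c.ok.good.R0_ge])

theorem H0_far (hx : 9 * e⁻¹ ^ 4 ≤ ‖x‖) : H0 S.g (ph S e f z) f x = e ^ 3 * f x := by
  have := c.sl.J x
  rw [Jd.Th_eq] at this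
  simpa [traceK, c.K_far hx] using this

theorem rhs_far (hx : 9 * e⁻¹ ^ 4 ≤ ‖x‖) :
    -((e ^ 3 * f x) ^ 2 + e ^ 3 * pp' S e f z x + 2 * S.mw x) + an x * z x
      ≤ rhs S e M z3 an f z x := by
  have hθ : 0 < S.θ := c.ok.par_ok.θ_pos
  have hz := c.z_far hx
  have hR0 : 0 < S.R0 := by linarith [c.ok.good.R0_ge]
  have h0 : eta S.R0 x = 0 := Bs.eta_eq_zero hR0 (c.R0_le hx)
  have h1 : cut 1 S.ra (S.s x) = 1 :=
    cut_one c.ok.ra_gt (by linarith [c.s_far hx, c.ok.rb_lt, c.ok.rab])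
  have h2 : cut (-S.θ) (-3 * S.θ / 4) (z x) = 1 := cut_one (by linarith) (by linarith)
  have h3 : cut (-S.θ - 2) (-S.θ - 1) (z x) = 1 := cut_one (by linarith) (by linarith)
  have h4 : 0 ≤ M * cut z3 (z3 + 1) (z x) :=
    mul_nonneg c.sl.M_nonneg (Real.smoothTransition.nonneg _)
  have h5 : eSq (gB S e f z) (S.coef 0).EE x = 0 := by simp [eSq, vecNormSq, Setup.coef, h0]
  unfold rhs
  rw [h5]
  simp only [Par.sz, Par.dd, Par.vt, Setup.par, Setup.coef, h0, h1, h2, h3]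
  linarith

omit c in
theorem ev_far {ρ : ℝ} (hx : ρ < ‖x‖) : ∀ᶠ y in 𝓝 x, ρ ≤ ‖y‖ :=
  mem_of_superset ((isOpen_lt continuous_const continuous_norm).mem_nhds hx)
    fun _ hy => (le_of_lt hy : ρ ≤ _)

theorem ph_ev (hx : 9 * e⁻¹ ^ 4 < ‖x‖) : ph S e f z =ᶠ[𝓝 x] fun _ => 1 :=
  (ev_far hx).mono fun _ hy => c.ph_far hy

theorem dlv (hx : 9 * e⁻¹ ^ 4 < ‖x‖) : fderiv ℝ (lv (ph S e f z)) x = 0 := by
  have : lv (ph S e f z) =ᶠ[𝓝 x] fun _ => 0 := (c.ph_ev hx).mono fun y hy => by simp [lv, hy]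
  rw [this.fderiv_eq]; simp

theorem aa_far (hx : 9 * e⁻¹ ^ 4 < ‖x‖) : aa S.g (ph S e f z) f x = 0 := by simp [aa, c.dlv hx]

theorem Vv_far (hx : 9 * e⁻¹ ^ 4 < ‖x‖) : Vv S.g (ph S e f z) f x = 0 :=
  grad_eq_zero _ (c.dlv hx)

theorem dH0 (hx : 9 * e⁻¹ ^ 4 < ‖x‖) :
    fderiv ℝ (H0 S.g (ph S e f z) f) x (wv S.g (ph S e f z) f x)
      = e ^ 3 * (gm' S e f z x * pp' S e f z x) := by
  have h1 : H0 S.g (ph S e f z) f =ᶠ[𝓝 x] fun y => e ^ 3 * f y :=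
    (ev_far hx).mono fun _ hy => c.H0_far hy
  have h2 := c.jd.df_wv (mem_univ x)
  rw [c.ph_far hx.le, one_mul] at h2
  rw [h1.fderiv_eq, fderiv_const_mul (c.f_smooth.differentiable (by simp) x), ← h2]
  rfl

theorem lapb (hx : 9 * e⁻¹ ^ 4 < ‖x‖) {u : E n → ℝ} (hu : ContDiffAt ℝ 2 u x) :
    laplaceBeltrami (gB S e f z) u x = traceK (gB S e f z) (hessM S.g u) x
      - e ^ 3 * f x * fderiv ℝ u x (wv S.g (ph S e f z) f x) := by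
  rw [c.jd.lap_gb (mem_univ x) hu, c.H0_far hx.le, gam_eq_fderiv_grad, grad_eq_zero _ (c.dlv hx)]
  simp

theorem dw_le {u : E n → ℝ} {k : ℝ} (hk : 0 ≤ k) (h : gam S.g u u x ≤ k ^ 2 * P) :
    |fderiv ℝ u x (wv S.g (ph S e f z) f x)| ≤ k * P := by
  have h1 := fderiv_wv_sq_le c.jd (mem_univ x) u
  have h2 := mul_le_mul (c.jd.pp_lt_one (mem_univ x)).le h
    (gam_self_nonneg c.geo.riem (mem_univ x) u) zero_le_one
  have hP := c.P_one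
  refine abs_le_of_sq_le_sq' ?_ (by positivity) |> abs_le.2
  have : k ^ 2 * P ≤ k ^ 2 * P ^ 2 := by gcongr; nlinarith
  linarith

/-- `|Δ̄ u| ≤ n H + T k P`. -/
theorem abs_lapb (hx : 9 * e⁻¹ ^ 4 < ‖x‖) {u : E n → ℝ} (hu : ContDiffAt ℝ 2 u x) {H k T : ℝ}
    (hH : 0 ≤ H) (hk : 0 ≤ k) (h1 : ∀ Y, |hess S.g u x Y Y| ≤ H * bil (S.g x) Y Y)
    (h2 : gam S.g u u x ≤ k ^ 2 * P) (hT : |e ^ 3 * f x| ≤ T) :
    |laplaceBeltrami (gB S e f z) u x| ≤ n * H + T * (k * P) := by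
  rw [c.lapb hx hu]
  refine (abs_sub _ _).trans (add_le_add
    (abs_traceK_gb_le c.jd (mem_univ x) hH fun Y => by rw [bil_hessM]; exact h1 Y) ?_)
  rw [abs_mul]
  exact mul_le_mul hT (c.dw_le hk h2) (abs_nonneg _) ((abs_nonneg _).trans hT)

theorem abs_lapb_bp (hx : 9 * e⁻¹ ^ 4 < ‖x‖) (hT : |e ^ 3 * f x| ≤ T0) :
    |laplaceBeltrami (gB S e f z) bp x| ≤ n * P + P * P := by
  have hP := c.P_one
  have := c.abs_lapb hx c.bp2 (by linarith) zero_le_one (c.geo.bp_b2.h_le x)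
    (by simpa using c.geo.bp_b2.d_le x) (hT.trans c.geo.T0_le)
  simpa using this

theorem norm2 (hx : 9 * e⁻¹ ^ 4 ≤ ‖x‖) : ContDiffAt ℝ 2 (fun y : E n => ‖y‖) x :=
  contDiffAt_norm ℝ (norm_pos_iff.1 (by linarith [c.one_le hx]))

/-- radial functions -/
theorem radial (hx : 9 * e⁻¹ ^ 4 ≤ ‖x‖) {h h1 : ℝ → ℝ} {h2 : ℝ} (hc : ContDiffAt ℝ 2 h ‖x‖)
    (d1 : ∀ r > 0, HasDerivAt h (h1 r) r) (d2 : HasDerivAt h1 h2 ‖x‖) :
    ContDiffAt ℝ 2 (fun y : E n => h ‖y‖) x ∧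
    (∀ Y, |hess S.g (fun y => h ‖y‖) x Y Y|
      ≤ (|h1 ‖x‖| * (P / ‖x‖) + |h2| * P) * bil (S.g x) Y Y) ∧
    gam S.g (fun y => h ‖y‖) (fun y => h ‖y‖) x ≤ |h1 ‖x‖| ^ 2 * P := by
  have hr : 0 < ‖x‖ := by linarith [c.one_le hx]
  have hn2 := c.norm2 hx
  have e1 : deriv h ‖x‖ = h1 ‖x‖ := (d1 _ hr).deriv
  have e2 : deriv (deriv h) ‖x‖ = h2 := by
    have : deriv h =ᶠ[𝓝 ‖x‖] h1 := (lt_mem_nhds hr).mono fun r hr => (d1 r hr).deriv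
    rw [this.deriv_eq, d2.deriv]
  have hR := c.R_le' hx
  refine ⟨hc.comp x hn2, fun Y => ?_, ?_⟩
  · rw [hess_comp hc hn2, e1, e2]
    refine (abs_add_le _ _).trans ?_
    rw [abs_mul, abs_mul, add_mul, mul_assoc, mul_assoc]
    refine add_le_add (mul_le_mul_of_nonneg_left (c.geo.h_r x Y hR) (abs_nonneg _))
      (mul_le_mul_of_nonneg_left ?_ (abs_nonneg _))
    rw [← pow_two, abs_of_nonneg (sq_nonneg _)]
    exact (fderiv_sq_le c.geo.riem (mem_univ x) _ Y).trans (mul_le_mul_of_nonneg_right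
      (c.geo.d_r x hR) (bil_self_nonneg c.geo.riem (mem_univ x) Y))
  · have hd := hc.differentiableAt (by norm_num)
    have hd' := hn2.differentiableAt (by norm_num)
    rw [gam_comp_left hd hd', gam_comp_right hd hd', e1, sq_abs, ← mul_assoc, ← pow_two]
    exact mul_le_mul_of_nonneg_left (c.geo.d_r x hR) (sq_nonneg _)

/-- the radial function `‖y‖ ^ (-a)` -/
theorem radial_pow (hx : 9 * e⁻¹ ^ 4 ≤ ‖x‖) {a : ℝ} (ha : 0 ≤ a) :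
    ContDiffAt ℝ 2 (fun y : E n => ‖y‖ ^ (-a)) x ∧
    (∀ Y, |hess S.g (fun y => ‖y‖ ^ (-a)) x Y Y|
      ≤ (a * (a + 2) * P * ‖x‖ ^ (-a) / ‖x‖ ^ 2) * bil (S.g x) Y Y) ∧
    gam S.g (fun y => ‖y‖ ^ (-a)) (fun y => ‖y‖ ^ (-a)) x ≤ (a * ‖x‖ ^ (-a) / ‖x‖) ^ 2 * P := by
  have hr : 0 < ‖x‖ := by linarith [c.one_le hx]
  have := c.radial hx (h := fun r => r ^ (-a)) (h1 := fun r => -a * r ^ (-a - 1))
    (h2 := -a * ((-a - 1) * ‖x‖ ^ (-a - 1 - 1)))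
    (Real.contDiffAt_rpow_const_of_ne hr.ne')
    (fun r hr => Real.hasDerivAt_rpow_const (Or.inl hr.ne'))
    ((Real.hasDerivAt_rpow_const (Or.inl hr.ne')).const_mul _)
  have e1 : |-a * ‖x‖ ^ (-a - 1)| = a * ‖x‖ ^ (-a) / ‖x‖ := by
    rw [Real.rpow_sub_one hr.ne', neg_mul, abs_neg, abs_of_nonneg (by positivity)]; ring
  have e2 : |-a * ((-a - 1) * ‖x‖ ^ (-a - 1 - 1))| = a * (a + 1) * ‖x‖ ^ (-a) / ‖x‖ ^ 2 := by
    rw [Real.rpow_sub_one hr.ne', Real.rpow_sub_one hr.ne',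
      show -a * ((-a - 1) * (‖x‖ ^ (-a) / ‖x‖ / ‖x‖)) = a * (a + 1) * ‖x‖ ^ (-a) / ‖x‖ ^ 2 by
        field_simp; ring, abs_of_nonneg (by positivity)]
  rw [e1, e2] at this
  refine ⟨this.1, fun Y => (this.2.1 Y).trans (le_of_eq ?_), this.2.2⟩
  congr 1; field_simp; ring

end Ctx

/-- the choice of `e1` -/
theorem exists_e1 (R C : ℝ) : ∃ e1 > (0 : ℝ), ∀ e, 0 < e → e ≤ e1 →
    e ≤ 1 / 18 ∧ R ≤ e⁻¹ ∧ C * e ≤ 1 := by
  refine ⟨1 / (18 + |R| + |C|), by positivity, fun e he h => ?_⟩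
  rw [le_div_iff₀ (by positivity)] at h
  have h1 := mul_nonneg he.le (abs_nonneg R)
  have h2 := mul_nonneg he.le (abs_nonneg C)
  refine ⟨by linarith, ?_, by nlinarith [le_abs_self C]⟩
  rw [← one_div, le_div_iff₀ he]
  nlinarith [le_abs_self R]

end Crest.Agent.N346.Bd.Fb

end
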