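import Crest.Agent.N346.Bd.Lin

/-!
Row 346, Part 1, leaf S3 (helper47): the pointwise inequality at a touching point, the radial
barrier, and the derivatives of `cut`.
-/

set_option autoImplicit false

open MeasureTheory Filter Set
open scoped ContDiff Topology
open Crest.GeometryTopology.CoordMetric Crest.MathPhysics.ExteriorData
open Crest.Agent.R202.Tens Crest.Agent.R247.Bo84 Crest.Agent.N346.Id Crest.Agent.N346.P1

noncomputable section

namespace Crest.Agent.N346.Bd.S3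

variable {n : ℕ} {g : MetricField n} {x : E n} {φ f : E n → ℝ}

theorem bracket_le {N t A q S : ℝ} (hN : 1 ≤ N) (h : (t + A) ^ 2 ≤ N * S) :
    (t + A) ^ 2 - S - t ^ 2 + 2 * t * q ≤ (2 * N + 1) * A ^ 2 + 2 * N * q ^ 2 := by
  have hN0 : 0 < N := by linarith
  refine le_of_mul_le_mul_left ?_ hN0
  have h1 := sq_nonneg (t - ((N - 1) * A + N * q))
  have h2 := sq_nonneg ((N - 1) * A - N * q)
  have h3 : 0 ≤ (2 * N - 1) * A ^ 2 := mul_nonneg (by linarith) (sq_nonneg A)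
  nlinarith [sq_nonneg A]

theorem alg1 {N p δ φ C1 Φ1 Φ2 Hb G0 G q Lz Lb hz hb : ℝ} (hN : 1 ≤ N) (hp0 : 0 ≤ p) (hδ : 0 < δ)
    (hδφ : δ ≤ φ) (h1 : 0 ≤ Φ1) (h1' : Φ1 ≤ C1) (h2 : |Φ2| ≤ C1) (hHb : 0 ≤ Hb) (hG0 : 0 ≤ G0)
    (hG : G0 ≤ G) (hq : q ^ 2 ≤ p * G0) (f6 : hz - hb ≤ p * (Lz - Lb)) (e4 : hb ≤ Hb * p)
    (f7 : -(N * Hb) ≤ Lb) : -(C1 / δ * (p * ((N + 1) * Hb + G)))
      ≤ (p * (Φ1 * Lz + Φ2 * G0) - (Φ1 * hz + Φ2 * (q * q))) / φ := by
  have hC1 : 0 ≤ C1 := h1.trans h1'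
  have hφ0 : 0 < φ := hδ.trans_le hδφ
  have f8 : -(p * ((N + 1) * Hb)) ≤ p * Lz - hz := by
    have := mul_le_mul_of_nonneg_left f7 hp0
    linarith
  have k1 : 0 ≤ p * ((N + 1) * Hb) := by positivity
  have k2 : -(C1 * (p * ((N + 1) * Hb))) ≤ Φ1 * (p * Lz - hz) := by
    linarith [mul_le_mul_of_nonneg_left f8 h1, mul_le_mul_of_nonneg_right h1' k1]
  have k3 : 0 ≤ p * G0 - q * q := by linarith
  have k4 : p * G0 - q * q ≤ p * G := by
    linarith [mul_self_nonneg q, mul_le_mul_of_nonneg_left hG hp0]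
  have k5 : -(C1 * (p * G)) ≤ Φ2 * (p * G0 - q * q) := by
    linarith [mul_le_mul_of_nonneg_right (abs_le.1 h2).1 k3, mul_le_mul_of_nonneg_left k4 hC1]
  have f9 : -(C1 * (p * ((N + 1) * Hb + G)))
      ≤ p * (Φ1 * Lz + Φ2 * G0) - (Φ1 * hz + Φ2 * (q * q)) := by linarith
  have k6 : 0 ≤ C1 * (p * ((N + 1) * Hb + G)) := by
    have := hG0.trans hG
    positivity
  calc _ = -(C1 * (p * ((N + 1) * Hb + G)) / δ) := by ring
    _ ≤ -(C1 * (p * ((N + 1) * Hb + G)) / φ) := by gcongr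
    _ = -(C1 * (p * ((N + 1) * Hb + G))) / φ := by ring
    _ ≤ _ := by gcongr

theorem alg2 {N p t a q Hb G Lb LB Rb R Ric Rc D S v hb : ℝ} (hN : 1 ≤ N)
    (hlow : Lb - Hb * p - t * q ≤ LB) (f1 : Rb = R - 2 * Ric - 2 * D + (t + p * a) ^ 2 - S)
    (f3 : (t + p * a) ^ 2 - S - t ^ 2 + 2 * t * q ≤ (2 * N + 1) * (p * a) ^ 2 + 2 * N * q ^ 2)
    (f10 : -(v * (p * ((N + 1) * Hb + G))) ≤ D) (f11 : -(Rc * p) ≤ Ric)
    (f12 : (p * a) ^ 2 ≤ v ^ 2 * (p * G)) (hq3 : q ^ 2 ≤ p * G) (_ : hb ≤ Hb * p) :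
    2 * Lb ≤ 2 * LB - Rb + t ^ 2 + R + p * (2 * Hb + 2 * Rc
        + 2 * v * ((N + 1) * Hb + G) + G * ((2 * N + 1) * v ^ 2 + 2 * N)) := by
  have f13 : (2 * N + 1) * (p * a) ^ 2 ≤ (2 * N + 1) * (v ^ 2 * (p * G)) := by gcongr
  have f14 : 2 * N * q ^ 2 ≤ 2 * N * (p * G) := by gcongr
  linarith

/-- the inequality at a point where `be` touches `z` from below -/
theorem core (hn : 1 ≤ n) (hd : Jd g φ f univ) {z be : E n → ℝ} {Φ : ℝ → ℝ}
    (hz : ContDiffAt ℝ 2 z x) (hbe : ContDiffAt ℝ 2 be x) (hΦ : ContDiffAt ℝ 2 Φ (z x))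
    (hφ : φ =ᶠ[𝓝 x] fun y => Φ (z y)) (hmax : IsLocalMax (fun y => be y - z y) x)
    {C1 δ Hb G Rc : ℝ} (hδ : 0 < δ) (hδφ : δ ≤ φ x) (h1 : 0 ≤ deriv Φ (z x))
    (h1' : deriv Φ (z x) ≤ C1) (h2 : |deriv (deriv Φ) (z x)| ≤ C1) (hHb : 0 ≤ Hb)
    (hH : ∀ Y, |hess g be x Y Y| ≤ Hb * bil (g x) Y Y) (hG : gam g be be x ≤ G)
    (hR : ∀ Y, |bil (ricM g x) Y Y| ≤ Rc * bil (g x) Y Y) :
    2 * laplaceBeltrami g be x ≤ 2 * laplaceBeltrami (gb g φ f) z x - scalarCurv (gb g φ f) x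
      + H0 g φ f x ^ 2 + scalarCurv g x + pp g φ f x * (2 * Hb + 2 * Rc
        + 2 * (C1 / δ) * ((n + 1) * Hb + G) + G * ((2 * n + 1) * (C1 / δ) ^ 2 + 2 * n)) := by
  have hx := mem_univ x
  have hg := hd.riem
  have hn' : (1 : ℝ) ≤ n := by exact_mod_cast hn
  obtain ⟨hdf, hhess⟩ := touch_of_max hbe hz hmax
  have hzd : DifferentiableAt ℝ z x := hz.differentiableAt (by norm_num)
  have hΦd : DifferentiableAt ℝ Φ (z x) := hΦ.differentiableAt (by norm_num)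
  have hφ0 : 0 < φ x := hd.φ_pos x hx
  have hC1 : 0 ≤ C1 := h1.trans h1'
  set w := wv g φ f x with hw
  set p := pp g φ f x with hp
  set t := H0 g φ f x with ht
  set a := aa g φ f x with ha
  set q := fderiv ℝ z x w with hq
  set Φ1 := deriv Φ (z x)
  set Φ2 := deriv (deriv Φ) (z x)
  have hp0 : 0 ≤ p := hd.pp_nonneg hx
  have hp1 : p ≤ 1 := (hd.pp_lt_one hx).le
  have hww : bil (g x) w w = p := hd.bil_wv_wv hx
  have hGe : gam g z z x = gam g be be x := gam_congr_fderiv hdf.symm hdf.symm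
  have hG0 : 0 ≤ gam g be be x := gam_self_nonneg hg hx be
  have hq2 : q ^ 2 ≤ p * gam g be be x := hGe ▸ fderiv_wv_sq_le hd hx z
  have hdφ : fderiv ℝ φ x = Φ1 • fderiv ℝ z x := by
    rw [hφ.fderiv_eq]
    exact (hΦd.hasDerivAt.comp_hasFDerivAt x hzd.hasFDerivAt).fderiv
  have hlv : ∀ Y, fderiv ℝ (lv φ) x Y = Φ1 / φ x * fderiv ℝ z x Y := fun Y => by
    rw [hd.fderiv_lv hx, hdφ, smul_apply, smul_eq_mul]; ring
  have hv0 : 0 ≤ Φ1 / φ x := div_nonneg h1 hφ0.le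
  have hv1 : Φ1 / φ x ≤ C1 / δ := by gcongr
  have hae : a = Φ1 / φ x * q := hlv w
  -- lower bound for the Laplacian of the Jang metric
  have e1 := hd.lap_gb hx hz
  have e2 : 0 ≤ gam (gb g φ f) z (lv φ) x := by
    rw [gam_eq_fderiv_grad' hd.riemb hx, hlv, ← gam_eq_fderiv_grad]
    exact mul_nonneg hv0 (gam_self_nonneg hd.riemb hx z)
  have e3 := traceK_hessM_le_of_max hd.riemb hx g hbe hz hmax
  rw [hd.traceK_gb hx (hessM g be), ← lap_eq_traceK hg hx hbe, bil_hessM] at e3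
  have e4 := abs_le.1 (hH w)
  rw [hww] at e4
  have hlow : laplaceBeltrami g be x - Hb * p - t * q ≤ laplaceBeltrami (gb g φ f) z x := by
    rw [e1]
    have := mul_nonneg hp0 e2
    linarith
  -- upper bound for the scalar curvature
  have f1 := hd.id_G hx
  have f2 : (t + p * a) ^ 2 ≤ n * normSqK (gb g φ f) (fun y => hh g φ f y + aa g φ f y • XX φ f y) x := by
    have h3 := traceK_sq_le (T := fun y => hh g φ f y + aa g φ f y • XX φ f y) hd.riemb hx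
      fun i j => by
        simp only [Matrix.add_apply, Matrix.smul_apply, hd.symT_hh.symm x hx i j,
          hd.symT_XX.symm x hx i j]
    have h4 : traceK (gb g φ f) (fun y => aa g φ f y • XX φ f y) x = p * a := by
      rw [hp, ← hd.traceK_XX hx]
      simp only [traceK, Matrix.smul_apply, smul_eq_mul, Finset.sum_mul]
      exact Finset.sum_congr rfl fun i _ => Finset.sum_congr rfl fun j _ => by rw [ha]; ring
    rwa [traceK_add, h4] at h3
  have f3 := bracket_le (q := q) hn' f2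
  have f4 : laplaceBeltrami g φ x = Φ1 * laplaceBeltrami g z x + Φ2 * gam g be be x := by
    rw [lap_congr hφ, lap_comp hg hx hΦ hz, hGe]
  have f5 : hess g φ x w w = Φ1 * hess g z x w w + Φ2 * (q * q) := by
    rw [hess_congr hφ, hess_comp hΦ hz]
  have f6 : hess g z x w w - hess g be x w w
      ≤ p * (laplaceBeltrami g z x - laplaceBeltrami g be x) := by
    have h3 := psd_ww_le (T := fun y => hessM g z y - hessM g be y) hg hx
      (fun Y Z => by
        rw [bil_sub, bil_sub, bil_hessM, bil_hessM, bil_hessM, bil_hessM, hess_symm hg hx hz Y,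
          hess_symm hg hx hbe Y])
      (fun Y => by rw [bil_sub, bil_hessM, bil_hessM]; linarith [hhess g Y]) w
    rwa [bil_sub, bil_hessM, bil_hessM, traceK_sub, ← lap_eq_traceK hg hx hz,
      ← lap_eq_traceK hg hx hbe, hww] at h3
  have f7 := abs_le.1 (abs_lap_le hg hx hbe hH)
  have f11 := abs_le.1 (hR w)
  rw [hww] at f11
  have f10 := alg1 (Φ1 := Φ1) (Φ2 := Φ2) hn' hp0 hδ hδφ h1 h1' h2 hHb hG0 hG hq2 f6 e4.2 f7.1
  rw [← f4, ← f5] at f10
  have hq3 : q ^ 2 ≤ p * G := hq2.trans (mul_le_mul_of_nonneg_left hG hp0)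
  have f12 : (p * a) ^ 2 ≤ (C1 / δ) ^ 2 * (p * G) := by
    rw [hae, mul_pow, mul_pow]
    calc _ ≤ 1 ^ 2 * ((C1 / δ) ^ 2 * (p * G)) := by gcongr
      _ = _ := by ring
  exact alg2 hn' hlow f1 f3 f10 f11.1 f12 hq3 e4.2

theorem gam_sub_le (hg : IsRiemannianOn g univ) {u v : E n → ℝ} (hu : DifferentiableAt ℝ u x)
    (hv : DifferentiableAt ℝ v x) :
    gam g (fun y => u y - v y) (fun y => u y - v y) x ≤ 2 * gam g u u x + 2 * gam g v v x := by
  have hx := mem_univ x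
  have h := gam_self_nonneg hg hx fun y => u y + v y
  rw [gam_add_left hu hv, gam_add_right hu hv, gam_add_right hu hv] at h
  rw [gam_sub_left hu hv, gam_sub_right hu hv, gam_sub_right hu hv]
  linarith

/-- derivatives of the radial barrier `c |y|^(-a)` -/
theorem radial {P a c : ℝ} (ha : 0 ≤ a) (hx : 0 < ‖x‖) (hc : |c| * ‖x‖ ^ (-a) ≤ 1)
    (hg : IsRiemannianOn g univ) (h1 : gam g (fun y => ‖y‖) (fun y => ‖y‖) x ≤ P)
    (h2 : ∀ Y, |hess g (fun y => ‖y‖) x Y Y| ≤ P / ‖x‖ * bil (g x) Y Y) :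
    ContDiffAt ℝ 2 (fun y : E n => c * ‖y‖ ^ (-a)) x ∧
    gam g (fun y => c * ‖y‖ ^ (-a)) (fun y => c * ‖y‖ ^ (-a)) x ≤ a ^ 2 * P / ‖x‖ ^ 2 ∧
    ∀ Y, |hess g (fun y => c * ‖y‖ ^ (-a)) x Y Y| ≤ a * (a + 2) * P / ‖x‖ ^ 2 * bil (g x) Y Y := by
  have hxu := mem_univ x
  have hN : ContDiffAt ℝ 2 (fun y : E n => ‖y‖) x := contDiffAt_norm ℝ (norm_pos_iff.1 hx)
  have hNd : DifferentiableAt ℝ (fun y : E n => ‖y‖) x := hN.differentiableAt (by norm_num)
  have hθ : ContDiffAt ℝ 2 (fun s : ℝ => c * s ^ (-a)) ‖x‖ :=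
    contDiffAt_const.mul (Real.contDiffAt_rpow_const_of_ne hx.ne')
  have hθd := hθ.differentiableAt (by norm_num)
  have d1 : deriv (fun s : ℝ => c * s ^ (-a)) = fun s => c * -a * s ^ (-a - 1) := by
    funext s
    rw [deriv_const_mul_field, Real.deriv_rpow_const, mul_assoc]
  have d2 : deriv (deriv fun s : ℝ => c * s ^ (-a)) ‖x‖
      = c * -a * ((-a - 1) * ‖x‖ ^ (-a - 1 - 1)) := by
    rw [d1, deriv_const_mul_field, Real.deriv_rpow_const]
  have b1 : |deriv (fun s : ℝ => c * s ^ (-a)) ‖x‖| ≤ a / ‖x‖ := by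
    rw [d1]
    simp only [Real.rpow_sub_one hx.ne', abs_mul, abs_neg, abs_div, abs_of_nonneg ha,
      abs_of_pos hx, abs_of_pos (Real.rpow_pos_of_pos hx _)]
    calc _ = |c| * ‖x‖ ^ (-a) * (a / ‖x‖) := by ring
      _ ≤ 1 * (a / ‖x‖) := by gcongr
      _ = _ := one_mul _
  have b2 : |deriv (deriv fun s : ℝ => c * s ^ (-a)) ‖x‖| ≤ a * (a + 1) / ‖x‖ ^ 2 := by
    rw [d2, show -a - 1 = -(a + 1) by ring, show -(a + 1) - 1 = -a - 1 - 1 by ring]
    simp only [Real.rpow_sub_one hx.ne', abs_mul, abs_neg, abs_div, abs_of_nonneg ha,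
      abs_of_pos hx, abs_of_pos (Real.rpow_pos_of_pos hx _),
      abs_of_nonneg (show 0 ≤ a + 1 by linarith)]
    calc _ = |c| * ‖x‖ ^ (-a) * (a * (a + 1) / ‖x‖ ^ 2) := by ring
      _ ≤ 1 * (a * (a + 1) / ‖x‖ ^ 2) := by gcongr
      _ = _ := one_mul _
  have hG0 := gam_self_nonneg hg hxu fun y : E n => ‖y‖
  refine ⟨hθ.comp x hN, ?_, fun Y => ?_⟩
  · rw [gam_comp_left (φ := fun s : ℝ => c * s ^ (-a)) hθd hNd,
      gam_comp_right (φ := fun s : ℝ => c * s ^ (-a)) hθd hNd, ← mul_assoc, ← pow_two, ← sq_abs]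
    calc _ ≤ (a / ‖x‖) ^ 2 * P := by gcongr
      _ = _ := by ring
  · rw [hess_comp (φ := fun s : ℝ => c * s ^ (-a)) hθ hN]
    have hY := bil_self_nonneg hg hxu Y
    have k1 := fderiv_sq_le hg hxu (fun y : E n => ‖y‖) Y
    refine (abs_add_le _ _).trans ?_
    rw [abs_mul, abs_mul, abs_mul_self, ← pow_two]
    calc _ ≤ a / ‖x‖ * (P / ‖x‖ * bil (g x) Y Y) + a * (a + 1) / ‖x‖ ^ 2 * (P * bil (g x) Y Y) := by
          gcongr
          · exact h2 Y
          · exact k1.trans (by gcongr)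
      _ = _ := by ring

theorem contDiff_cut (a b : ℝ) : ContDiff ℝ ∞ (cut a b) :=
  Real.smoothTransition.contDiff.comp ((contDiff_id.sub contDiff_const).div_const _)

theorem cut_of_le {a b t : ℝ} (hab : a < b) (h : t ≤ a) : cut a b t = 0 :=
  Real.smoothTransition.zero_of_nonpos (div_nonpos_of_nonpos_of_nonneg (by linarith) (by linarith))

theorem cut_of_ge {a b t : ℝ} (hab : a < b) (h : b ≤ t) : cut a b t = 1 :=
  Real.smoothTransition.one_of_one_le ((one_le_div (by linarith)).2 (by linarith))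

theorem exists_cut_bound {a b : ℝ} (hab : a < b) : ∃ C : ℝ, ∀ t, 0 ≤ deriv (cut a b) t ∧
    deriv (cut a b) t ≤ C ∧ |deriv (deriv (cut a b)) t| ≤ C := by
  have hm : Monotone (cut a b) := fun s t h =>
    Real.smoothTransition.monotone (by have := sub_pos.2 hab; gcongr)
  have hs : HasCompactSupport (deriv (cut a b)) := by
    refine HasCompactSupport.intro (isCompact_Icc (a := a) (b := b)) fun t ht => ?_
    rcases not_and_or.1 ht with h | h
    · have : cut a b =ᶠ[𝓝 t] fun _ => 0 := by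
        filter_upwards [Iio_mem_nhds (not_le.1 h)] with s hs using cut_of_le hab (le_of_lt hs)
      rw [this.deriv_eq, deriv_const]
    · have : cut a b =ᶠ[𝓝 t] fun _ => 1 := by
        filter_upwards [Ioi_mem_nhds (not_le.1 h)] with s hs using cut_of_ge hab (le_of_lt hs)
      rw [this.deriv_eq, deriv_const]
  have c1 : ContDiff ℝ ∞ (deriv (cut a b)) := (contDiff_cut a b).iterate_deriv 1
  obtain ⟨C1, h1⟩ := c1.continuous.bounded_above_of_compact_support hs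
  obtain ⟨C2, h2⟩ := (c1.continuous_deriv (by simp)).bounded_above_of_compact_support hs.deriv
  refine ⟨max C1 C2, fun t => ⟨hm.deriv_nonneg, ?_, (h2 t).trans (le_max_right _ _)⟩⟩
  exact ((le_abs_self _).trans (h1 t)).trans (le_max_left _ _)

end Crest.Agent.N346.Bd.S3

end
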