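import Crest.Agent.N346.Bd.WDefs

/-! Row 346, S8 (helper73): the De Giorgi lemma applied to a power of `W`. -/

set_option autoImplicit false

open MeasureTheory Filter Set
open scoped ContDiff Topology
open Crest.GeometryTopology.CoordMetric Crest.MathPhysics.ExteriorData
open Crest.Agent.R202.Tens Crest.Agent.R247.Bo84 Crest.Agent.N346.Id Crest.Agent.N346.P1

noncomputable section

namespace Crest.Agent.N346.Bd.S8

variable {n : ℕ} {g : MetricField n} {φ f W σ : E n → ℝ}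

/-- the conclusion of `DGStmt` for one exponent -/
def DG (n N : ℕ) : Prop := ∀ P : ℝ, 2 ≤ P →
  ∀ (ψ γ : E n → ℝ) (V : E n → E n), ContDiff ℝ 1 ψ → ContDiff ℝ 1 V → Continuous γ →
  (∀ x, ψ x ≤ 1) → (∃ x, ψ x = 1) → Bornology.IsBounded {x | 1 / 4 ≤ ψ x} →
  (∀ x, 1 / 4 < ψ x → 0 ≤ γ x ∧ ‖fderiv ℝ ψ x‖ ^ 2 ≤ P * γ x * fderiv ℝ ψ x (V x) ∧
    γ x / P - P ≤ divE (fun y i => V y i) x) →
  (P ^ N)⁻¹ ≤ volume.real {x | 1 / 4 < ψ x}

theorem divE_vol {G : MetricField n} (hG : IsRiemannianOn G univ) (V : E n → E n) (x : E n) :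
    divE (fun y i => (volDensity G y • V y) i) x = volDensity G x * divg G V x := by
  have := Real.sqrt_pos.2 (det_pos hG (mem_univ x))
  simp only [divE, divg, volDensity, PiLp.smul_apply, smul_eq_mul]
  field_simp

theorem gm_le (hd : Jd g φ f univ) (x : E n) : gm g φ f x ≤ 1 + gm g φ f x * pp g φ f x := by
  have h1 := hd.gm_sq_mul (mem_univ x)
  have h2 := hd.one_le_gm (mem_univ x)
  have h3 := hd.pp_lt_one (mem_univ x)
  nlinarith [mul_nonneg (sub_nonneg.2 h2) (mul_nonneg (zero_le_one.trans h2) (sub_nonneg.2 h3.le))]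

theorem hasFDerivAt_pow (hW : ContDiff ℝ ∞ W) {x : E n} (h0 : 0 < W x) (S : ℝ) (L : ℕ) :
    HasFDerivAt (fun y => (W y / S) ^ L) ((L * (W x / S) ^ L / W x) • fderiv ℝ W x) x := by
  have h := ((hW.differentiable (by simp) x).hasFDerivAt.mul_const S⁻¹).pow L
  simp only [← div_eq_mul_inv] at h
  refine h.congr_fderiv ?_
  rw [smul_smul]
  congr 1
  rcases L with _ | L
  · simp
  · simp only [Nat.add_sub_cancel, nsmul_eq_mul, pow_succ]
    field_simp

/-- arithmetic of the divergence bound -/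
theorem arith {γ q τ C m X Λ D : ℝ} (hγ : 1 ≤ γ) (hq : γ ≤ 1 + q) (hτ : 0 < τ) (hτ1 : τ ≤ 1)
    (hC : 0 ≤ C) (hX : 0 < X) (hm : X⁻¹ ≤ m) (hm' : m ≤ Λ) (hD : τ * q - C ≤ D) :
    γ / X - Λ * ((C + 2) ^ 2 / τ) ≤ γ * m * D := by
  have hm0 : 0 < m := (inv_pos.2 hX).trans_le hm
  have h1 : γ - (C + 2) ^ 2 / τ ≤ γ * D := by
    have e : (C + 2) ^ 2 / τ = τ * ((C + 2) / τ) ^ 2 := by field_simp
    have e2 : C + 2 = τ * ((C + 2) / τ) := by field_simp
    have h2 : γ * (τ * (γ - 1) - C) ≤ γ * D :=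
      mul_le_mul_of_nonneg_left (by nlinarith) (by linarith)
    set u := (C + 2) / τ
    have hu : 0 ≤ u := by positivity
    have h3 : (τ + C + 1) * γ ≤ τ * u * γ := mul_le_mul_of_nonneg_right (by linarith) (by linarith)
    rw [e]
    nlinarith [mul_nonneg hτ.le (sq_nonneg (γ - u)), mul_nonneg hτ.le (mul_nonneg hu (zero_le_one.trans hγ))]
  have h2 := mul_le_mul_of_nonneg_left h1 hm0.le
  have h3 : γ / X ≤ m * γ := by
    rw [div_eq_inv_mul]; exact mul_le_mul_of_nonneg_right hm (by linarith)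
  have h4 := mul_le_mul_of_nonneg_right hm' (show 0 ≤ (C + 2) ^ 2 / τ by positivity)
  linarith

theorem dg_apply {N N' : ℕ} (hDG : DG n N') (hd : Jd g φ f univ) {X : ℝ} (hX : 4 ≤ X)
    (g_hi : ∀ x Y, bil (g x) Y Y ≤ X * ‖Y‖ ^ 2) (vol_lo : ∀ x, X⁻¹ ≤ volDensity g x)
    (vol_hi : ∀ x, volDensity g x ≤ X) (hW : ContDiff ℝ ∞ W) (hσ : ContDiff ℝ ∞ σ)
    (hW0 : ∀ x, 0 < W x) (hs : ∀ x, X⁻¹ ^ 4 / 2 ≤ σ x * W x ∧ σ x * W x ≤ X ^ 4 / 2)
    (hdiv : ∀ x, X⁻¹ ^ 3 * gm g φ f x * pp g φ f x - 2 * X ^ 2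
      - X ^ N * (1 + σ x ^ 2 * gam (gb g φ f) W W x)
      ≤ divg (gb g φ f) (fun y => σ y • grad (gb g φ f) W y) x)
    {x0 : E n} (hS : ∀ x, W x ≤ W x0) {ρ : ℝ} (hfar : ∀ x, ρ ≤ ‖x‖ → W x ≤ W x0 / 4) :
    ((X ^ (3 * N + 15)) ^ N')⁻¹ ≤ volume.real {x | W x0 / 4 < W x} := by
  have hX1 : 1 ≤ X := by linarith
  have hX0 : 0 < X := by linarith
  have hp : ∀ {a b : ℕ}, a ≤ b → X ^ a ≤ X ^ b := fun h => pow_le_pow_right₀ hX1 h
  have hp4 : ∀ a : ℕ, 4 * X ^ a ≤ X ^ (a + 1) := fun a => by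
    rw [pow_succ']; exact mul_le_mul_of_nonneg_right hX (by positivity)
  set S := W x0 with hSd
  have hS0 : 0 < S := hW0 x0
  set L := ⌈X ^ (N + 4)⌉₊ with hL
  have hL1 : X ^ (N + 4) ≤ L := Nat.le_ceil _
  have hL4 : (4 : ℝ) ≤ L := by linarith [hp4 0, hp (show 0 + 1 ≤ N + 4 by omega), pow_zero X]
  have hL2 : (L : ℝ) ≤ X ^ (N + 5) := by
    have := Nat.ceil_lt_add_one (show 0 ≤ X ^ (N + 4) by positivity)
    linarith [hp4 (N + 4), one_le_pow₀ (n := N + 4) hX1]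
  have hLn : 2 ≤ L := by exact_mod_cast (show (2 : ℝ) ≤ L by linarith)
  set Ψ : E n → ℝ := fun y => (W y / S) ^ L with hΨ
  have hq : ∀ x, 0 < W x / S ∧ W x / S ≤ 1 := fun x =>
    ⟨div_pos (hW0 x) hS0, (div_le_one hS0).2 (hS x)⟩
  have hΨ1 : ∀ x, Ψ x ≤ 1 := fun x => pow_le_one₀ (hq x).1.le (hq x).2
  have hΨs : ContDiff ℝ ∞ Ψ := (hW.div_const S).pow L
  have hG := hd.riemb
  have hU : ∀ x, ContDiffAt ℝ ∞ (fun y => σ y • grad (gb g φ f) W y) x := fun x =>
    hσ.contDiffAt.smul (contDiffAt_grad hG (mem_univ x) hW.contDiffAt (by simp) le_rfl)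
  have hin : ∀ x, 1 / 4 ≤ Ψ x → ‖x‖ < ρ := fun x hx => by
    by_contra h
    have h1 : W x / S ≤ 1 / 4 := by rw [div_le_iff₀ hS0]; linarith [hfar x (not_lt.1 h)]
    have h2 : Ψ x ≤ (W x / S) ^ 2 := pow_le_pow_of_le_one (hq x).1.le (hq x).2 hLn
    nlinarith [(hq x).1]
  have key := hDG (X ^ (3 * N + 15)) (by linarith [hp4 0, hp (show 0 + 1 ≤ 3 * N + 15 by omega), pow_zero X])
    Ψ (gm g φ f) (fun y => volDensity (gb g φ f) y • ((L * Ψ y) • (σ y • grad (gb g φ f) W y)))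
    (hΨs.of_le (by simp))
    (ContDiff.of_le (n := ∞) (contDiff_iff_contDiffAt.2 fun x =>
      (contDiffAt_sqrt_det hG (mem_univ x)).smul
        ((contDiffAt_const.mul hΨs.contDiffAt).smul (hU x))) (by simp))
    (continuous_iff_continuousAt.2 fun x => (hd.c_gm (mem_univ x)).continuousAt) hΨ1
    ⟨x0, by simp [hΨ, ← hSd, hS0.ne']⟩
    ((Metric.isBounded_ball (x := (0 : E n)) (r := ρ)).subset fun x hx => by
      simpa using hin x hx) fun x hx => ?_
  · refine key.trans (measureReal_mono (fun x hx => ?_) ?_)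
    · have h2 : Ψ x ≤ (W x / S) ^ 1 := pow_le_pow_of_le_one (hq x).1.le (hq x).2 (by omega)
      have h3 : 1 / 4 < W x / S := by rw [← pow_one (W x / S)]; exact lt_of_lt_of_le hx h2
      rw [lt_div_iff₀ hS0] at h3
      change S / 4 < W x
      linarith
    · refine ne_top_of_le_ne_top (measure_ball_lt_top (x := (0 : E n)) (r := ρ)).ne
        (measure_mono fun x hx => ?_)
      by_contra h
      exact absurd (hfar x (by simpa using h)) (not_le.2 hx)
  have hx' := mem_univ x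
  have hγ := hd.one_le_gm hx'
  have hD := (hasFDerivAt_pow hW (hW0 x) S L).fderiv
  have hΓ := gam_self_nonneg hG hx' W
  have hWx := hW0 x
  have hLΨ : 1 ≤ L * Ψ x := by nlinarith
  have hLΨ' : L * Ψ x ≤ X ^ (N + 5) := by nlinarith [hΨ1 x]
  have hσ0 : 0 < σ x := (pos_iff_pos_of_mul_pos (lt_of_lt_of_le (by positivity) (hs x).1)).2 hWx
  refine ⟨by linarith, ?_, ?_⟩
  · have h1 := norm_sq_le_gam hd.riem hx' hX0.le (g_hi x) W
    have h2 := mul_le_mul_of_nonneg_left (gam_le_gb hd hx' W) hX0.le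
    rw [hD, norm_smul, mul_pow, Real.norm_eq_abs, sq_abs]
    simp only [map_smul, smul_apply, smul_eq_mul]
    rw [← gam_eq_fderiv_grad, hd.volDensity_gb hx']
    change (L * Ψ x / W x) ^ 2 * _ ≤ _ * _ * (_ * (L * Ψ x * (σ x * (L * Ψ x / W x * _))))
    set k := L * Ψ x / W x with hk
    have e : L * Ψ x = k * W x := by rw [hk]; field_simp
    rw [e]
    have h3 : X ≤ X ^ (3 * N + 15) * (volDensity g x * (σ x * W x)) := by
      have a1 : X⁻¹ * (X⁻¹ ^ 4 / 2) ≤ volDensity g x * (σ x * W x) :=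
        mul_le_mul (vol_lo x) (hs x).1 (by positivity) ((inv_pos.2 hX0).le.trans (vol_lo x))
      have a2 : 4 * X ^ 6 ≤ X ^ (3 * N + 15) := (hp4 6).trans (hp (by omega))
      refine le_trans ?_ (mul_le_mul a2 a1 (by positivity) (by positivity))
      have : 4 * X ^ 6 * (X⁻¹ * (X⁻¹ ^ 4 / 2)) = 2 * X := by field_simp; norm_num
      linarith
    have h4 := mul_le_mul_of_nonneg_right h3
      (show 0 ≤ gm g φ f x ^ 2 * gam (gb g φ f) W W x by positivity)
    have h5 := mul_le_mul_of_nonneg_left ((h1.trans h2).trans h4) (_root_.sq_nonneg k)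
    exact h5.trans (le_of_eq (by ring))
  · have dU := (hU x).differentiableAt (by simp)
    have dΨ : DifferentiableAt ℝ Ψ x := hΨs.differentiable (by simp) x
    rw [divE_vol hG (fun y => (L * Ψ y) • (σ y • grad (gb g φ f) W y)),
      divg_smul hG hx' (dΨ.const_mul _) dU, fderiv_const_mul dΨ, hD, hd.volDensity_gb hx']
    simp only [map_smul, smul_apply, smul_eq_mul]
    rw [← gam_eq_fderiv_grad]
    have h1 : X ^ N * σ x ^ 2 ≤ L * (σ x / W x) := by
      have a1 : X ^ N * (σ x * W x) ≤ L := by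
        have := mul_le_mul_of_nonneg_left (hs x).2 (show 0 ≤ X ^ N by positivity)
        have e : X ^ N * (X ^ 4 / 2) = X ^ (N + 4) / 2 := by ring
        linarith [show 0 ≤ X ^ (N + 4) by positivity]
      rw [← mul_div_assoc, le_div_iff₀ hWx]
      nlinarith [mul_le_mul_of_nonneg_right a1 hσ0.le]
    have h2 := mul_le_mul_of_nonneg_right h1 hΓ
    have h3 := arith (C := 2 * X ^ 2 + X ^ N) (m := volDensity g x * (L * Ψ x))
      (Λ := X * X ^ (N + 5)) (τ := X⁻¹ ^ 3)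
      (D := divg (gb g φ f) (fun y => σ y • grad (gb g φ f) W y) x
        + L * (σ x / W x) * gam (gb g φ f) W W x) hγ (gm_le hd x) (by positivity)
      (pow_le_one₀ (by positivity) (inv_le_one_of_one_le₀ hX1)) (by positivity) hX0
      ((vol_lo x).trans (le_mul_of_one_le_right ((inv_pos.2 hX0).le.trans (vol_lo x)) hLΨ))
      (mul_le_mul (vol_hi x) hLΨ' (by linarith) hX0.le) (by linarith [hdiv x])
    have h4 : X * X ^ (N + 5) * ((2 * X ^ 2 + X ^ N + 2) ^ 2 / X⁻¹ ^ 3) ≤ X ^ (3 * N + 15) := by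
      have a1 : 2 * X ^ 2 + X ^ N + 2 ≤ X ^ (N + 3) := by
        linarith [hp4 (N + 2), hp (show 2 ≤ N + 2 by omega), hp (show N ≤ N + 2 by omega), hp4 0,
          hp (show 0 + 1 ≤ N + 2 by omega), pow_zero X, hp (show 1 ≤ 2 by omega), pow_one X]
      have a2 := pow_le_pow_left₀ (by positivity) a1 2
      calc _ = X * X ^ (N + 5) * X ^ 3 * (2 * X ^ 2 + X ^ N + 2) ^ 2 := by field_simp
        _ ≤ X * X ^ (N + 5) * X ^ 3 * (X ^ (N + 3)) ^ 2 :=
          mul_le_mul_of_nonneg_left a2 (by positivity)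
        _ = _ := by ring
    have h5 : gm g φ f x / X ^ (3 * N + 15) ≤ gm g φ f x / X :=
      div_le_div_of_nonneg_left (by linarith) hX0 (by linarith [hp (show 1 ≤ 3 * N + 15 by omega), pow_one X])
    refine le_trans (by linarith) (h3.trans (le_of_eq ?_))
    simp only [hΨ]
    ring

end Crest.Agent.N346.Bd.S8

end
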