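import Crest.Agent.N346.Bd.Defs

/-! Row 346, Part 1 (helper11): assembly of `EstStmt` and `EnStmt` from the barrier leaves. -/

set_option autoImplicit false

open MeasureTheory Filter Set
open scoped ContDiff Topology
open Crest.GeometryTopology.CoordMetric Crest.MathPhysics.ExteriorData
open Crest.Agent.R202.Tens Crest.Agent.R247.Bo84 Crest.Agent.N346.Id Crest.Agent.N346.P1

noncomputable section

namespace Crest.Agent.N346.Bd

namespace TopA

variable {n : ℕ}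

theorem cut_nonneg (a b t : ℝ) : 0 ≤ cut a b t := Real.smoothTransition.nonneg _

theorem cut_le_one (a b t : ℝ) : cut a b t ≤ 1 := Real.smoothTransition.le_one _

theorem contDiff_cut (a b : ℝ) {u : E n → ℝ} (hu : ContDiff ℝ ∞ u) :
    ContDiff ℝ ∞ fun x => cut a b (u x) :=
  Real.smoothTransition.contDiff.comp ((hu.sub contDiff_const).div_const _)

theorem sl_of_sol {S : Setup n} (hS : S.OK) {e M z3 : ℝ} {an f z : E n → ℝ} (he : 0 < e)
    (he1 : e ≤ 1) (hM : 0 ≤ M) (hz3 : 0 ≤ z3) (h1 : ∀ x, an x ∈ Icc (0 : ℝ) 1)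
    (h2 : ∀ x, ‖x‖ ≤ 2 * e⁻¹ ^ 5 → an x = 0)
    (h3 : ∀ m > 0, ∃ R' : ℝ, ∀ x, R' ≤ ‖x‖ → m ≤ |z x| → an x = 1) {B : ℕ → ℝ} (hf : Bdd B f)
    (hz : Bdd B z) (h : S.Sol e M z3 an f z) : Sl S e M z3 an f z := by
  have e1 : (S.coef an).gt 1 = S.g := by funext x; simp [Coef.gt, Setup.coef]
  have e2 : (S.coef an).Kt 1 = S.K := by funext x; simp [Coef.Kt, Setup.coef]
  have e3 : phi (S.par e M z3) (S.coef an) 1 f z = ph S e f z := rfl
  refine ⟨hM, hz3, h1, h2, h3, ⟨B, hf, hz⟩, ⟨hS.good.riem, ?_, hf.1.contDiffOn, fun x _ => ?_⟩,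
    fun x => ?_, fun x => ?_⟩
  · have hs := hS.good.s_smooth
    refine ContDiff.contDiffOn ?_
    exact contDiff_const.add (contDiff_const.mul ((contDiff_const.add ((contDiff_const.mul
      ((contDiff_cut _ _ hs).mul (contDiff_const.sub ((contDiff_const.sub (contDiff_cut _ _ hs)).mul
        (contDiff_const.sub (contDiff_cut _ _ (contDiff_const.mul hf.1))))))).mul
      (contDiff_cut _ _ hz.1))).sub contDiff_const))
  · simp only [ph, phi, Par.phiF, Par.chi, Par.Ph, Par.δ, Setup.par, Setup.coef]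
    have a1 := cut_nonneg (1 / 4) (1 / 2) (S.s x)
    have a2 := cut_nonneg S.ra S.rb (S.s x)
    have a3 := cut_le_one S.ra S.rb (S.s x)
    have a4 := cut_nonneg (-S.t1) (-S.t1 / 2) (Par.τ ⟨S.θ, S.t0, S.t1, e, 0, 0⟩ * f x)
    have a5 := cut_le_one (-S.t1) (-S.t1 / 2) (Par.τ ⟨S.θ, S.t0, S.t1, e, 0, 0⟩ * f x)
    have a6 := cut_nonneg (-S.θ / 2) (-S.θ / 4) (z x)
    have a7 : 0 ≤ 1 - e ^ 2 := by nlinarith
    have a8 : 0 ≤ 1 - (1 - cut S.ra S.rb (S.s x)) *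
        (1 - cut (-S.t1) (-S.t1 / 2) (Par.τ ⟨S.θ, S.t0, S.t1, e, 0, 0⟩ * f x)) := by nlinarith
    have a9 := mul_nonneg (mul_nonneg a7 (mul_nonneg a1 a8)) a6
    have a10 : 0 < e ^ 2 := by positivity
    linarith
  · have := h.jang x
    rwa [e1, e2, e3] at this
  · have := h.conf x
    simp only [gbar, GG, TT, e1, e3] at this
    rw [this]
    simp only [rhs, Par.τ, Par.sz, Par.dd, Setup.par, Setup.coef]
    ring

theorem a0_ge (hn : 3 ≤ n) : 3 / 4 ≤ a0 n := by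
  have : (3 : ℝ) ≤ n := by exact_mod_cast hn
  unfold a0; linarith

theorem a0_le (n : ℕ) : a0 n ≤ n := by
  have : (0 : ℝ) ≤ n := Nat.cast_nonneg n
  unfold a0; linarith

theorem pow_div_rpow (hn : 3 ≤ n) {X r : ℝ} (hX : 1 ≤ X) (hr : 0 < r) (k : ℕ) :
    (X ^ k / r) ^ a0 n ≤ X ^ (k * n) * r ^ (-a0 n) := by
  rw [Real.div_rpow (by positivity) hr.le, Real.rpow_neg hr.le, div_eq_mul_inv, pow_mul,
    ← Real.rpow_natCast (X ^ k) n]
  have := a0_ge hn
  gcongr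
  · exact one_le_pow₀ hX
  · exact a0_le n

/-- everything that the leaves give for a bounded solution -/
theorem all_est (s1 : S1Stmt) (s2 : S2Stmt) (s3 : S3Stmt) (s4 : S4Stmt) (s5 : S5Stmt)
    (s6 : S6Stmt) (s7a : S7aStmt) (s7b : S7bStmt) (s7c : S7cStmt) (hn : 3 ≤ n) {S : Setup n}
    (hS : S.OK) {P T0 R : ℝ} {bp : E n → ℝ} (hG : Geo S P T0 R bp) :
    ∃ P1 ≥ (0 : ℝ), ∃ e1 > (0 : ℝ), ∀ e, 0 < e → e ≤ e1 → ∀ (M z3 : ℝ) (an f z : E n → ℝ),
      Sl S e M z3 an f z → FF S e f z T0 ∧ (∀ x, S.s x ≤ S.ra → e ^ 3 * f x ≤ -S.t1) ∧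
      EI S e f z M z3 an P1 ∧ Integrable (cost S e z P1) ∧ ∫ x, cost S e z P1 x ≤ √e ∧
      Integrable (ed S e f z) ∧ ∫ x, ed S e f z x ≤ e⁻¹ ^ (5 * n) := by
  obtain ⟨P1, hP1, ea, hea, ha⟩ := s7a n hn S hS P T0 R bp hG
  obtain ⟨e1, he1, h1⟩ := s1 n hn S hS P T0 R bp hG
  obtain ⟨e2, he2, h2⟩ := s2 n hn S hS P T0 R bp hG
  obtain ⟨e3, he3, h3⟩ := s3 n hn S hS P T0 R bp hG
  obtain ⟨e4, he4, h4⟩ := s4 n hn S hS P T0 R bp hG
  obtain ⟨e5, he5, h5⟩ := s5 n hn S hS P T0 R bp hG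
  obtain ⟨e6, he6, h6⟩ := s6 n hn S hS P T0 R bp hG
  obtain ⟨eb, heb, hb⟩ := s7b P1 hP1 n hn S hS P T0 R bp hG
  obtain ⟨ec, hec, hc⟩ := s7c P1 n hn S hS P T0 R bp hG
  refine ⟨P1, hP1, min (min (min e1 e2) (min e3 e4)) (min (min e5 e6) (min (min ea eb) (min ec 1))),
    by positivity, fun e he hle M z3 an f z h => ?_⟩
  simp only [le_min_iff] at hle
  obtain ⟨⟨⟨l1, l2⟩, l3, l4⟩, ⟨l5, l6⟩, ⟨la, lb⟩, lc, l0⟩ := hle
  have zlo := h1 e he l1 M z3 an f z h
  have zfar := h3 e he l3 M z3 an f z h zlo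
  obtain ⟨fb, ffar⟩ := h4 e he l4 M z3 an f z h zfar
  have gfar := h5 e he l5 M z3 an f z h zfar fb
  have ff : FF S e f z T0 := ⟨zlo, zfar, fb, ffar, gfar, h6 e he l6 M z3 an f z h zfar ffar gfar⟩
  have ei := ha e he la M z3 an f z h fb
  obtain ⟨ci, cl⟩ := hb e he lb M z3 an f z h zfar
  exact ⟨ff, h2 e he l2 M z3 an f z h, ei, ci, cl,
    hc e he lc M z3 an f z h ff ei ci (cl.trans (Real.sqrt_le_one.2 l0))⟩

end TopA

open TopA in
theorem top : TopStmt := by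
  intro hgeo s1 s2 s3 s4 s5 s6 s7a s7b s7c s7d dg s8
  constructor
  · intro n hn S hS
    obtain ⟨P, T0, R, bp, hG⟩ := hgeo n hn S hS
    obtain ⟨P1, -, e1, he1, h1⟩ := all_est s1 s2 s3 s4 s5 s6 s7a s7b s7c hn hS hG
    obtain ⟨N, e2, he2, h2⟩ := s8 dg n hn S hS P T0 R bp hG
    have hP := hG.P_ge
    refine ⟨N + 5 * n + 8, min (min e1 e2) P⁻¹, by positivity,
      fun e he hle M hM z3 hz3 L hL B f z hsol hf hz => ?_⟩
    simp only [le_min_iff] at hle
    obtain ⟨⟨l1, l2⟩, l3⟩ := hle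
    rw [← inv_pow] at hL ⊢
    have hXP : P ≤ e⁻¹ := (le_inv_comm₀ he (by linarith)).1 l3
    have hX2 : 2 ≤ e⁻¹ := hP.trans hXP
    have he1' : e ≤ 1 := by
      have := (le_inv_comm₀ two_pos he).1 hX2
      linarith
    have hX1 : 1 ≤ e⁻¹ := by linarith
    have hpow : ∀ k ≤ N + 5 * n + 8, e⁻¹ ^ k ≤ e⁻¹ ^ (N + 5 * n + 8) := fun k hk =>
      pow_le_pow_right₀ hX1 hk
    have hmul : ∀ (j k : ℕ), 2 ^ j * e⁻¹ ^ k ≤ e⁻¹ ^ (j + k) := fun j k => by
      rw [pow_add]; gcongr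
    have h5 : 2 * e⁻¹ ^ 5 ≤ e⁻¹ ^ (N + 5 * n + 8) := by
      simpa using (hmul 1 5).trans (hpow _ (by omega))
    have h4 : 16 * e⁻¹ ^ 4 ≤ e⁻¹ ^ (N + 5 * n + 8) := by
      have := (hmul 4 4).trans (hpow _ (by omega))
      norm_num at this ⊢
      exact this
    have h40 : 0 < e⁻¹ ^ 4 := by positivity
    have h50 : 0 < e⁻¹ ^ 5 := by positivity
    have hL0 : 0 < L := lt_of_lt_of_le (by positivity) hL
    have hsl : Sl S e M z3 (fun x => 1 - eta L x) f z := sl_of_sol hS he he1' hM hz3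
      (fun x => ⟨by linarith [Bs.eta_le_one L x], by linarith [Bs.eta_nonneg L x]⟩)
      (fun x hx => by rw [Bs.eta_eq_one hL0 (by linarith), sub_self])
      (fun m _ => ⟨2 * L, fun x hx _ => by rw [Bs.eta_eq_zero hL0 hx, sub_zero]⟩) hf hz hsol
    obtain ⟨ff, inner, -, -, -, ei, el⟩ := h1 e he l1 M z3 _ f z hsl
    have hψ := h2 e he l2 M z3 _ f z hsl ff ei el
    have hγ : ∀ x, 1 ≤ gm' S e f z x := fun x => hsl.jd.one_le_gm (mem_univ x)
    have hexp : ∀ x, Real.exp (2 * z x) ≤ psi S e f z x := fun x =>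
      le_mul_of_one_le_left (Real.exp_pos _).le (hγ x)
    have hθ0 := hS.par_ok.θ_pos
    have hθ1 := hS.par_ok.θ_le
    simp only [Setup.par] at hθ0 hθ1
    refine ⟨ff.zlo, fun x => ?_, fun x => ?_, inner, fun x hx => ?_, fun x hx => ?_, fun x hx => ?_⟩
    · rcases le_total (z x) 0 with h0 | h0
      · exact (Real.exp_le_one_iff.2 h0).trans (one_le_pow₀ hX1)
      · exact (Real.exp_le_exp.2 (by linarith)).trans
          ((hexp x).trans ((hψ x).trans (hpow _ (by omega))))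
    · have i1 : gm' S e f z x = psi S e f z x * Real.exp (-(2 * z x)) := by
        rw [psi, mul_assoc, ← Real.exp_add]; simp
      have i2 : Real.exp (-(2 * z x)) ≤ 2 ^ 4 := by
        have := ff.zlo x
        calc _ ≤ Real.exp (1 + 1) := Real.exp_le_exp.2 (by linarith)
          _ ≤ 3 * 3 := by
            rw [Real.exp_add]
            have := Real.exp_one_lt_d9
            gcongr <;> linarith
          _ ≤ _ := by norm_num
      change gm' S e f z x ≤ _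
      rw [i1]
      calc _ ≤ e⁻¹ ^ N * 2 ^ 4 := mul_le_mul (hψ x) i2 (Real.exp_pos _).le (by positivity)
        _ ≤ _ := by rw [mul_comm]; exact (hmul 4 N).trans (hpow _ (by omega))
    · have i1 := ff.zfar x (by linarith)
      have hx0 : 0 < ‖x‖ := by linarith
      have i2 : (e⁻¹ ^ 4 / ‖x‖) ^ a0 n ≤ 1 / 4 := by
        have j1 : e⁻¹ ^ 4 / ‖x‖ ≤ (1 / 4) ^ 2 := by rw [div_le_iff₀ hx0]; linarith
        calc _ ≤ (((1 : ℝ) / 4) ^ 2) ^ a0 n := by have := a0_ge hn; gcongr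
          _ ≤ (((1 : ℝ) / 4) ^ 2) ^ ((2 : ℕ) : ℝ)⁻¹ :=
            Real.rpow_le_rpow_of_exponent_ge (by norm_num) (by norm_num)
              (by have := a0_ge hn; norm_num; linarith)
          _ = _ := Real.pow_rpow_inv_natCast (by norm_num) two_ne_zero
      nlinarith
    · have i1 := ff.ffar x (by linarith)
      have hT : 0 ≤ T0 := (abs_nonneg _).trans (hG.trK_T x)
      rw [abs_mul, abs_of_pos (by positivity : 0 < e ^ 3), ← le_inv_mul_iff₀ (by positivity),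
        ← inv_pow, ← mul_assoc] at i1
      refine i1.trans (mul_le_mul ?_ (Real.exp_le_exp.2 ?_) (Real.exp_pos _).le (by positivity))
      · calc _ ≤ e⁻¹ ^ 3 * e⁻¹ := by gcongr; exact hG.T0_le.trans hXP
          _ ≤ _ := by rw [← pow_succ]; exact hpow _ (by omega)
      · have : 0 < e ^ 2 := by positivity
        nlinarith
    · have hx0 : 0 < ‖x‖ := by linarith
      have i0 : 0 ≤ ‖x‖ ^ (-a0 n) := by positivity
      change |z x| ≤ _ * ‖x‖ ^ (-a0 n)
      rw [abs_le]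
      constructor
      · have i1 := ff.zfar x (by linarith)
        have i2 := pow_div_rpow hn hX1 hx0 4
        have i3 := mul_le_mul_of_nonneg_right (hpow (4 * n) (by omega)) i0
        have i4 : 0 ≤ (e⁻¹ ^ 4 / ‖x‖) ^ a0 n := by positivity
        nlinarith
      · have i1 := ff.pfar (e⁻¹ ^ N) (one_le_pow₀ hX1) (fun y _ => by linarith [hψ y]) x
          (by linarith)
        have i2 := mul_le_mul_of_nonneg_left (pow_div_rpow hn hX1 hx0 5)
          (show 0 ≤ e⁻¹ ^ N by positivity)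
        rw [← mul_assoc, ← pow_add] at i2
        have i3 := mul_le_mul_of_nonneg_right (hpow (N + 5 * n) (by omega)) i0
        have i4 := Real.add_one_le_exp (2 * z x)
        have i5 := hexp x
        have i6 : 0 ≤ e⁻¹ ^ (N + 5 * n + 8) * ‖x‖ ^ (-a0 n) := by positivity
        linarith
  · intro n hn S hS ε hε N
    obtain ⟨P, T0, R, bp, hG⟩ := hgeo n hn S hS
    obtain ⟨P1, hP1, e1, he1, h1⟩ := all_est s1 s2 s3 s4 s5 s6 s7a s7b s7c hn hS hG
    obtain ⟨e2, he2, h2⟩ := s7d P1 n hn S hS P T0 R bp hG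
    refine ⟨min (min e1 e2) (min 1 (ε ^ 2)), by positivity,
      fun e he hle M hM z3 hz3 B f z hsol hf hz hest => ?_⟩
    simp only [le_min_iff] at hle
    obtain ⟨⟨l1, l2⟩, l3, l4⟩ := hle
    have hsl : Sl S e M z3 (fun _ => 0) f z := by
      refine sl_of_sol hS he l3 hM hz3 (fun _ => ⟨le_rfl, zero_le_one⟩) (fun _ _ => rfl)
        (fun m hm => ?_) hf hz hsol
      have ht := (tendsto_rpow_neg_atTop (show 0 < a0 n by linarith [a0_ge hn])).const_mul (e ^ N)⁻¹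
      rw [mul_zero] at ht
      obtain ⟨R', hR'⟩ := eventually_atTop.1 (ht.eventually (gt_mem_nhds hm))
      exact ⟨max R' (e ^ N)⁻¹, fun x hx hmz => absurd (hmz.trans
        (hest.far_z x ((le_max_right _ _).trans hx))) (hR' _ ((le_max_left _ _).trans hx)).not_ge⟩
    obtain ⟨ff, -, ei, ci, cl, di, -⟩ := h1 e he l1 M z3 _ f z hsl
    obtain ⟨r1, r2⟩ := h2 e he l2 M z3 _ f z hsl (fun _ => rfl) ff ei ci (fun x => by
      have : 0 ≤ (S.par e 0 0).sz (z x) := sub_nonneg.2 (cut_le_one _ _ _)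
      unfold cost
      positivity) di
    exact ⟨r1, r2.mono (cl.trans (Real.sqrt_le_iff.2 ⟨hε.le, l4⟩))⟩

end Crest.Agent.N346.Bd

end
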