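import Crest.Agent.N346.Bd.WDefs

/-!
Row 346, Part 1 (helper71): the `W`-inequality, part 1: norms, algebra, the integrals `II`.
-/

set_option autoImplicit false

open MeasureTheory Filter Set
open scoped ContDiff Topology
open Crest.GeometryTopology.CoordMetric Crest.MathPhysics.ExteriorData
open Crest.Agent.R202.Tens Crest.Agent.R247.Bo84 Crest.Agent.N346.Id Crest.Agent.N346.P1

noncomputable section

namespace Crest.Agent.N346.Bd

variable {n : ℕ}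

/-- a symmetric nonnegative bilinear form -/
structure IP (b : E n →L[ℝ] E n →L[ℝ] ℝ) : Prop where
  symm : ∀ Y Z, b Y Z = b Z Y
  nonneg : ∀ Y, 0 ≤ b Y Y
  cs : ∀ Y Z, b Y Z ^ 2 ≤ b Y Y * b Z Z

theorem ip_bil {G : MetricField n} {U : Set (E n)} {x : E n} (hG : IsRiemannianOn G U)
    (hx : x ∈ U) : IP (bil (G x)) :=
  ⟨bil_symm hG hx, bil_self_nonneg hG hx, bil_sq_le hG hx⟩

/-- the seminorm of a form -/
def nb (b : E n →L[ℝ] E n →L[ℝ] ℝ) (Y : E n) : ℝ := √(b Y Y)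

namespace IP
variable {b : E n →L[ℝ] E n →L[ℝ] ℝ} (h : IP b) {Y Z w : E n} {c p : ℝ}
include h

omit h in
theorem nb_nonneg (b : E n →L[ℝ] E n →L[ℝ] ℝ) (Y : E n) : 0 ≤ nb b Y := Real.sqrt_nonneg _

theorem nb_sq (Y : E n) : nb b Y ^ 2 = b Y Y := Real.sq_sqrt (h.nonneg Y)

theorem abs_b (Y Z : E n) : |b Y Z| ≤ nb b Y * nb b Z := by
  rw [nb, nb, ← Real.sqrt_mul (h.nonneg Y)]
  exact Real.abs_le_sqrt (h.cs Y Z)

omit h in
theorem nb_le (hc : 0 ≤ c) (hY : b Y Y ≤ c ^ 2) : nb b Y ≤ c := Real.sqrt_le_iff.2 ⟨hc, hY⟩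

theorem nb_add (Y Z : E n) : nb b (Y + Z) ≤ nb b Y + nb b Z := by
  refine nb_le (add_nonneg (nb_nonneg _ _) (nb_nonneg _ _)) ?_
  have h1 := (abs_le.1 (h.abs_b Y Z)).2
  simp only [map_add, add_apply]
  rw [h.symm Z Y]
  nlinarith [h.nb_sq Y, h.nb_sq Z]

omit h in
theorem nb_smul (c : ℝ) (Y : E n) : nb b (c • Y) = |c| * nb b Y := by
  simp only [nb, map_smul, smul_apply, smul_eq_mul]
  rw [← mul_assoc, Real.sqrt_mul (mul_self_nonneg c), Real.sqrt_mul_self_eq_abs]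

theorem nb_sub (Y Z : E n) : nb b (Y - Z) ≤ nb b Y + nb b Z := by
  have := h.nb_add Y ((-1 : ℝ) • Z)
  rwa [nb_smul, neg_one_smul, ← sub_eq_add_neg, abs_neg, abs_one, one_mul] at this

omit h in
theorem nb_smul_le {B : ℝ} (h0 : 0 ≤ c) (hB : c ≤ B) (Y : E n) : nb b (c • Y) ≤ B * nb b Y := by
  rw [nb_smul, abs_of_nonneg h0]
  have := nb_nonneg b Y
  gcongr

theorem key (h1 : p ≤ 1) (hw : (1 - p) * b w w = p) (Y : E n) :
    (1 - p) * b Y w ^ 2 ≤ p * b Y Y := by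
  have := h.cs Y w
  calc _ ≤ (1 - p) * (b Y Y * b w w) := by gcongr
    _ = b Y Y * ((1 - p) * b w w) := by ring
    _ = _ := by rw [hw, mul_comm]

/-- `|Π Y| ≤ |Y|` -/
theorem nb_Pi (h0 : 0 ≤ p) (h1 : p ≤ 1) (hw : (1 - p) * b w w = p) (Y : E n) :
    nb b (p • Y - ((1 - p) * b Y w) • w) ≤ nb b Y := by
  refine nb_le (nb_nonneg _ _) ?_
  rw [h.nb_sq]
  simp only [map_sub, map_smul, sub_apply, smul_apply, smul_eq_mul]
  rw [h.symm w Y]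
  have h2 := h.nonneg Y
  have h3 : (1 - p) * b Y w * ((1 - p) * b Y w * b w w) = p * ((1 - p) * b Y w ^ 2) := by
    rw [show (1 - p) * b Y w * ((1 - p) * b Y w * b w w)
      = (1 - p) * b Y w ^ 2 * ((1 - p) * b w w) by ring, hw]; ring
  have h4 : 0 ≤ p * ((1 - p) * b Y w ^ 2) :=
    mul_nonneg h0 (mul_nonneg (by linarith) (sq_nonneg _))
  have h5 : p * p * b Y Y ≤ b Y Y := by
    have : p * p ≤ 1 := mul_le_one₀ h1 h0 h1
    nlinarith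
  nlinarith

/-- `|(1-p) ⟨Y, w⟩ w| ≤ |Y|` -/
theorem nb_aw (h0 : 0 ≤ p) (h1 : p ≤ 1) (hw : (1 - p) * b w w = p) (Y : E n) :
    nb b (((1 - p) * b Y w) • w) ≤ nb b Y := by
  refine nb_le (nb_nonneg _ _) ?_
  rw [h.nb_sq]
  simp only [map_smul, smul_apply, smul_eq_mul]
  have h2 := h.nonneg Y
  have h3 : (1 - p) * b Y w * ((1 - p) * b Y w * b w w) = p * ((1 - p) * b Y w ^ 2) := by
    rw [show (1 - p) * b Y w * ((1 - p) * b Y w * b w w)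
      = (1 - p) * b Y w ^ 2 * ((1 - p) * b w w) by ring, hw]; ring
  have h4 := h.key h1 hw Y
  have h5 : p * (p * b Y Y) ≤ b Y Y := by
    have : p * p ≤ 1 := mul_le_one₀ h1 h0 h1
    nlinarith
  rw [h3]
  exact (mul_le_mul_of_nonneg_left h4 h0).trans h5

/-- `|(1-p) ⟨Y, w⟩| ≤ |Y|` -/
theorem abs_a (h0 : 0 ≤ p) (h1 : p ≤ 1) (hw : (1 - p) * b w w = p) (Y : E n) :
    |(1 - p) * b Y w| ≤ nb b Y := by
  refine Real.abs_le_sqrt ?_
  have h4 := h.key h1 hw Y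
  have h2 := h.nonneg Y
  calc _ = (1 - p) * ((1 - p) * b Y w ^ 2) := by ring
    _ ≤ (1 - p) * (p * b Y Y) := by gcongr
    _ = ((1 - p) * p) * b Y Y := by ring
    _ ≤ 1 * b Y Y := by gcongr; nlinarith
    _ = _ := one_mul _

/-- the quadratic form of the `W`-inequality -/
theorem quad {v : ℝ} (h0 : 0 ≤ p) (h1 : p ≤ 1) (hw : (1 - p) * b w w = p) (hv : 0 ≤ v) (Z : E n) :
    4 * b Z Z ≤ b ((2 : ℝ) • Z + v • (p • Z - ((1 - p) * b Z w) • w))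
      ((2 : ℝ) • Z + v • (p • Z - ((1 - p) * b Z w) • w) + (p * v) • Z) := by
  set N := p • Z - ((1 - p) * b Z w) • w with hN
  have h2 : 0 ≤ b Z N := by
    have := h.key h1 hw Z
    simp only [hN, map_sub, map_smul, smul_eq_mul]
    nlinarith
  have h3 := h.nonneg N
  have h4 := h.nonneg Z
  simp only [map_add, map_smul, add_apply, smul_apply, smul_eq_mul]
  rw [h.symm N Z]
  have h5 := mul_nonneg hv h2
  have h6 := mul_nonneg (mul_nonneg hv hv) h3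
  have h7 := mul_nonneg (mul_nonneg h0 hv) h4
  have h8 := mul_nonneg (mul_nonneg h0 hv) h5
  nlinarith

omit h in
theorem core_real {B y ζ e1 e2 a1 a2 : ℝ} (hB : 1 ≤ B) (hy : 0 ≤ y) (hζ : 0 ≤ ζ)
    (p1 : 0 ≤ e1) (p2 : 0 ≤ e2) (p3 : 0 ≤ a1) (p4 : 0 ≤ a2) (n1 : e1 ≤ y + 2 * B ^ 2)
    (n2 : e2 ≤ y + 3 * B ^ 2) (n3 : a1 ≤ 3 * B * ζ) (n4 : a2 ≤ 4 * B * ζ) :
    e1 + a1 ≤ 4 * B ^ 2 * (1 + y + ζ) ∧ e1 * e2 ≤ 9 * B ^ 4 * (1 + y) ^ 2 ∧
      e1 * a2 ≤ 12 * B ^ 3 * (1 + y) * ζ ∧ a1 * e2 ≤ 12 * B ^ 3 * (1 + y) * ζ := by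
  have hB0 : 0 ≤ B := by linarith
  have hBB : B ≤ B ^ 2 := by nlinarith
  have hB2 : 1 ≤ B ^ 2 := by nlinarith
  have a4 : B * ζ ≤ B ^ 2 * ζ := by gcongr
  have a5 : y ≤ B ^ 2 * y := by nlinarith
  have a6 := mul_nonneg hB0 hζ
  have m2 : e2 ≤ 3 * B ^ 2 * (1 + y) := by nlinarith
  have m1 : e1 ≤ 3 * B ^ 2 * (1 + y) := by nlinarith
  have m3 : a1 ≤ 4 * B * ζ := by linarith
  refine ⟨by nlinarith, ?_, ?_, ?_⟩
  · calc _ ≤ (3 * B ^ 2 * (1 + y)) * (3 * B ^ 2 * (1 + y)) := by gcongr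
      _ = _ := by ring
  · calc _ ≤ (3 * B ^ 2 * (1 + y)) * (4 * B * ζ) := by gcongr
      _ = _ := by ring
  · calc _ ≤ (4 * B * ζ) * (3 * B ^ 2 * (1 + y)) := by gcongr
      _ = _ := by ring

/-- The algebraic core: lower bound of `⟨Q, Q - pV⟩` and upper bounds for `|V|, |Q|`. -/
theorem core {B vz vc κ : ℝ} {Q V X : E n} (hB : 1 ≤ B) (h0 : 0 ≤ p) (h1 : p ≤ 1)
    (hw : (1 - p) * b w w = p) (vz0 : 0 ≤ vz) (vz1 : vz ≤ B) (vc0 : 0 ≤ vc) (vc1 : vc ≤ B)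
    (κ0 : 0 ≤ κ) (κ1 : κ ≤ B) (hX : nb b X ≤ B) (hV : V = vz • Z + vc • X)
    (hY : Y = (2 : ℝ) • Z + (p • V + (Q - ((1 - p) * b V w) • w)) + κ • X) :
    nb b V ≤ B ^ 2 * (1 + nb b Y + nb b Z) ∧ nb b Q ≤ 4 * B ^ 2 * (1 + nb b Y + nb b Z) ∧
    4 * nb b Z ^ 2 - 9 * B ^ 4 * (1 + nb b Y) ^ 2 - 24 * B ^ 3 * (1 + nb b Y) * nb b Z
      ≤ b Q Q - p * b Q V := by
  have hy := nb_nonneg b Y
  have hζ := nb_nonneg b Z
  have hB0 : 0 ≤ B := by linarith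
  have hBX : B * nb b X ≤ B ^ 2 := by rw [pow_two]; gcongr
  have q := h.quad h0 h1 hw vz0 Z
  have n1 := h.nb_Pi h0 h1 hw Z
  have n2 := h.nb_Pi h0 h1 hw X
  obtain ⟨NZ, hNZ⟩ : ∃ N, N = p • Z - ((1 - p) * b Z w) • w := ⟨_, rfl⟩
  obtain ⟨NX, hNX⟩ : ∃ N, N = p • X - ((1 - p) * b X w) • w := ⟨_, rfl⟩
  rw [← hNZ] at q n1
  rw [← hNX] at n2
  obtain ⟨A, hA⟩ : ∃ A, A = (2 : ℝ) • Z + vz • NZ := ⟨_, rfl⟩
  obtain ⟨E1, hE1⟩ : ∃ A, A = Y - vc • NX - κ • X := ⟨_, rfl⟩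
  rw [← hA] at q
  obtain ⟨A', hA'⟩ : ∃ A', A' = A + (p * vz) • Z := ⟨_, rfl⟩
  obtain ⟨E2, hE2⟩ : ∃ A', A' = E1 - (p * vc) • X := ⟨_, rfl⟩
  rw [← hA'] at q
  have hQ : Q = E1 - A := by
    rw [hE1, hA, hY, hNZ, hNX, hV]
    simp only [map_add, map_smul, add_apply, smul_apply, smul_eq_mul]
    module
  have hQV : Q - p • V = E2 - A' := by
    rw [hQ, hV, hE2, hA']; module
  have pz : p * vz ≤ B := (mul_le_of_le_one_left vz0 h1).trans vz1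
  have pc : p * vc ≤ B := (mul_le_of_le_one_left vc0 h1).trans vc1
  have hBζ : nb b Z ≤ B * nb b Z := le_mul_of_one_le_left hζ hB
  have nA : nb b A ≤ 3 * B * nb b Z := by
    have a1 := h.nb_add ((2 : ℝ) • Z) (vz • NZ)
    have a2 := nb_smul_le (b := b) (c := 2) (B := 2) (by norm_num) le_rfl Z
    have a3 := nb_smul_le (b := b) vz0 vz1 NZ
    have a4 : B * nb b NZ ≤ B * nb b Z := by gcongr
    rw [hA]; linarith
  have nA' : nb b A' ≤ 4 * B * nb b Z := by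
    have a1 := h.nb_add A ((p * vz) • Z)
    have a2 := nb_smul_le (b := b) (mul_nonneg h0 vz0) pz Z
    rw [hA']; linarith
  have nE : nb b E1 ≤ nb b Y + 2 * B ^ 2 := by
    have a1 := h.nb_sub (Y - vc • NX) (κ • X)
    have a2 := h.nb_sub Y (vc • NX)
    have a3 := nb_smul_le (b := b) vc0 vc1 NX
    have a4 := nb_smul_le (b := b) κ0 κ1 X
    have a5 : B * nb b NX ≤ B * nb b X := by gcongr
    rw [hE1]; linarith
  have nE' : nb b E2 ≤ nb b Y + 3 * B ^ 2 := by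
    have a1 := h.nb_sub E1 ((p * vc) • X)
    have a2 := nb_smul_le (b := b) (mul_nonneg h0 vc0) pc X
    rw [hE2]; linarith
  obtain ⟨c1, c2, c3, c4⟩ := core_real hB hy hζ (nb_nonneg b E1) (nb_nonneg b E2) (nb_nonneg b A)
    (nb_nonneg b A') nE nE' nA nA'
  refine ⟨?_, ?_, ?_⟩
  · have a1 := h.nb_add (vz • Z) (vc • X)
    have a2 := nb_smul_le (b := b) vz0 vz1 Z
    have a3 := nb_smul_le (b := b) vc0 vc1 X
    have a4 : B * nb b Z ≤ B ^ 2 * nb b Z := by rw [pow_two, mul_assoc]; gcongr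
    have a5 : 0 ≤ B ^ 2 * nb b Y := by positivity
    rw [hV]; linarith
  · have a1 := h.nb_sub E1 A
    rw [hQ]; linarith
  · have e1 : b Q Q - p * b Q V = b Q (Q - p • V) := by simp
    have e2 : b (E1 - A) (E2 - A') = b E1 E2 - b E1 A' - b A E2 + b A A' := by
      simp only [map_sub, sub_apply]; ring
    have b1 := (abs_le.1 (h.abs_b E1 E2)).1
    have b2 := (abs_le.1 (h.abs_b E1 A')).2
    have b3 := (abs_le.1 (h.abs_b A E2)).2
    rw [e1, hQV, hQ, e2, h.nb_sq]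
    linarith

end IP

/-- the last elementary step -/
theorem final_alg {B y ζ a : ℝ} (hB : 1 ≤ B) (hy : 0 ≤ y) (hζ : 0 ≤ ζ) (ha : a ≤ 1) :
    -(800 * B ^ 8 * (1 + y ^ 2)) ≤ 4 * ζ ^ 2 - 9 * B ^ 4 * (1 + y) ^ 2 - 24 * B ^ 3 * (1 + y) * ζ
      - a * ζ ^ 2 - 40 * B ^ 4 * (1 + y + ζ) := by
  have h34 : B ^ 3 ≤ B ^ 4 := pow_le_pow_right₀ hB (by norm_num)
  have h48 : B ^ 4 ≤ B ^ 8 := pow_le_pow_right₀ hB (by norm_num)
  have h4 : 0 ≤ B ^ 4 := by positivity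
  set u := 1 + y with hu
  have hu1 : 1 ≤ u := by linarith
  have h1 : 24 * B ^ 3 * u * ζ ≤ 24 * B ^ 4 * u * ζ := by gcongr
  have h2 : 40 * B ^ 4 * ζ ≤ 40 * B ^ 4 * u * ζ := by
    rw [mul_assoc (40 * B ^ 4)]; gcongr; nlinarith
  have h3 : 40 * B ^ 4 * u ≤ 40 * B ^ 4 * u ^ 2 := by gcongr; nlinarith
  have h5 : 64 * B ^ 4 * u * ζ ≤ 3 * ζ ^ 2 + 342 * B ^ 8 * u ^ 2 := by
    nlinarith [sq_nonneg (3 * ζ - 32 * B ^ 4 * u), sq_nonneg (B ^ 4 * u)]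
  have h6 : 49 * B ^ 4 * u ^ 2 ≤ 49 * B ^ 8 * u ^ 2 := by gcongr
  have h7 : u ^ 2 ≤ 2 * (1 + y ^ 2) := by rw [hu]; nlinarith [sq_nonneg (y - 1)]
  have h8 : 391 * B ^ 8 * u ^ 2 ≤ 391 * B ^ 8 * (2 * (1 + y ^ 2)) := by gcongr
  have h9 : a * ζ ^ 2 ≤ 1 * ζ ^ 2 := by gcongr
  have h10 : 0 ≤ B ^ 8 * (1 + y ^ 2) := by positivity
  nlinarith

/-! ### the integrals `II` -/

theorem hasDerivAt_II (P : Par) (k : ℕ) (z : ℝ) :
    HasDerivAt (II P k) (4 * P.Ph z ^ k * Real.exp (4 * z)) z := by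
  have hc : Continuous fun ζ => 4 * P.Ph ζ ^ k * Real.exp (4 * ζ) := by
    have := (contDiff_Ph P).continuous
    fun_prop
  exact (hc.integral_hasStrictDerivAt _ _).hasDerivAt

theorem contDiff_II (P : Par) (k : ℕ) : ContDiff ℝ ∞ (II P k) := by
  rw [contDiff_infty_iff_deriv]
  refine ⟨fun z => (hasDerivAt_II P k z).differentiableAt, ?_⟩
  rw [show deriv (II P k) = _ from funext fun z => (hasDerivAt_II P k z).deriv]
  exact (contDiff_const.mul ((contDiff_Ph P).pow k)).mul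
    (Real.contDiff_exp.comp (contDiff_const.mul contDiff_id))

theorem II_mem {P : Par} (hθ : 0 < P.θ) {k : ℕ} (hk : k ≠ 0) (z : ℝ) :
    II P k z ∈ Icc 0 (Real.exp (4 * z)) := by
  have hc : Continuous fun ζ => 4 * P.Ph ζ ^ k * Real.exp (4 * ζ) := by
    have := (contDiff_Ph P).continuous
    fun_prop
  rcases le_total z (-P.θ / 2) with hz | hz
  · have : II P k z = 0 := by
      rw [II, intervalIntegral.integral_congr (g := fun _ => 0), intervalIntegral.integral_zero]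
      intro ζ hζ
      rw [uIcc_of_ge hz] at hζ
      simp [Ph_zero hθ hζ.2, hk]
    rw [this]; exact ⟨le_rfl, (Real.exp_pos _).le⟩
  · constructor
    · refine intervalIntegral.integral_nonneg hz fun ζ _ => ?_
      have := (Ph_mem P ζ).1
      positivity
    · have h1 : ∫ ζ in (-P.θ / 2)..z, 4 * Real.exp (4 * ζ)
          = Real.exp (4 * z) - Real.exp (4 * (-P.θ / 2)) := by
        refine intervalIntegral.integral_eq_sub_of_hasDerivAt (f := fun ζ => Real.exp (4 * ζ))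
          (fun ζ _ => ?_) (Continuous.intervalIntegrable (by fun_prop) _ _)
        simpa [mul_comm] using ((hasDerivAt_id ζ).const_mul 4).exp
      have h2 : II P k z ≤ ∫ ζ in (-P.θ / 2)..z, 4 * Real.exp (4 * ζ) := by
        refine intervalIntegral.integral_mono_on hz (hc.intervalIntegrable _ _)
          (Continuous.intervalIntegrable (by fun_prop) _ _) fun ζ _ => ?_
        have h3 : P.Ph ζ ^ k ≤ 1 := pow_le_one₀ (Ph_mem P ζ).1 (Ph_mem P ζ).2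
        have := Real.exp_pos (4 * ζ)
        nlinarith
      have := Real.exp_pos (4 * (-P.θ / 2))
      linarith

end Crest.Agent.N346.Bd

end
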