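import Crest.Agent.N346.Bd.W1

/-!
Row 346, Part 1 (helper71): the `W`-inequality, part 2: the first integral and its divergence.
-/

set_option autoImplicit false

open MeasureTheory Filter Set
open scoped ContDiff Topology
open Crest.GeometryTopology.CoordMetric Crest.MathPhysics.ExteriorData
open Crest.Agent.R202.Tens Crest.Agent.R247.Bo84 Crest.Agent.N346.Id Crest.Agent.N346.P1

noncomputable section

namespace Crest.Agent.N346.Bd

variable {n : ℕ}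

/-- `1 - cut` in the variable `t = τ f` -/
def c3 (P : Par) (t : ℝ) : ℝ := 1 - cut (-P.t1) (-P.t1 / 2) t

theorem contDiff_c3 (P : Par) : ContDiff ℝ ∞ (c3 P) := contDiff_const.sub (contDiff_cut _ _)

theorem c3_mem (P : Par) (t : ℝ) : c3 P t ∈ Icc (0 : ℝ) 1 := one_sub_mem (cut_mem _ _ _)

theorem exists_c3_bound {t1 : ℝ} (h : 0 < t1) : ∃ C : ℝ, 1 ≤ C ∧ ∀ P : Par, P.t1 = t1 → ∀ t,
    |deriv (c3 P) t| ≤ C ∧ |deriv (deriv (c3 P)) t| ≤ C := by
  obtain ⟨C, h1, h2⟩ := exists_cut_bound (a := -t1) (b := -t1 / 2) (by linarith)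
  refine ⟨C, h1, fun P hP t => ?_⟩
  subst hP
  have e : deriv (c3 P) = fun t => -deriv (cut (-P.t1) (-P.t1 / 2)) t :=
    funext fun t => deriv_const_sub _
  rw [e]
  refine ⟨by rw [abs_neg, abs_of_nonneg (h2 t).1]; exact (h2 t).2.1, ?_⟩
  rw [deriv.fun_neg, abs_neg]
  exact (h2 t).2.2

/-- `κ = σ ∂_χ 𝒲` -/
def kp (P : Par) (d : ℝ) (g : MetricField n) (a1 a2 f z : E n → ℝ) (x : E n) : ℝ :=
  sg P d g a1 a2 f z x * (2 * d * (1 - d) * II P 1 (z x)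
    + 2 * (1 - d) ^ 2 * chd P a1 a2 f x * II P 2 (z x))

/-- standing hypotheses -/
structure WH (P0 : ℝ) (P : Par) (d : ℝ) (g K : MetricField n) (EE : VectorField n)
    (a1 a2 f z : E n → ℝ) : Prop where
  bg : BG P0 g K EE a1 a2
  θ_pos : 0 < P.θ
  e_pos : 0 < P.e
  e_le : P.e ≤ 1
  d_lo : P.e ^ 2 ≤ d
  d_le : d ≤ 1
  cf : ContDiff ℝ ∞ f
  cz : ContDiff ℝ ∞ z
  J : ∀ x, Th g (phd P d a1 a2 f z) f K x = P.τ * f x
  fb : ∀ x, |P.τ * f x| ≤ P0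

namespace WH

variable {P0 : ℝ} {P : Par} {d : ℝ} {g K : MetricField n} {EE : VectorField n}
  {a1 a2 f z : E n → ℝ} (h : WH P0 P d g K EE a1 a2 f z)

local notation "φ" => phd P d a1 a2 f z
local notation "χ" => chd P a1 a2 f
local notation "ḡ" => gb g (phd P d a1 a2 f z) f
local notation "γ" => gm g (phd P d a1 a2 f z) f
local notation "𝓅" => pp g (phd P d a1 a2 f z) f
local notation "𝓌" => wv g (phd P d a1 a2 f z) f
local notation "ℓ" => ell g (phd P d a1 a2 f z) f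
local notation "𝒱" => Vv g (phd P d a1 a2 f z) f
local notation "𝒬" => Qv g (phd P d a1 a2 f z) f
local notation "ℋ" => H0 g (phd P d a1 a2 f z) f
local notation "𝒶" => aa g (phd P d a1 a2 f z) f
local notation "𝒲" => WW P d g a1 a2 f z
local notation "σ" => sg P d g a1 a2 f z
local notation "κ" => kp P d g a1 a2 f z

theorem chd_eq (P : Par) (a1 a2 f : E n → ℝ) :
    chd P a1 a2 f = fun x => a1 x - a1 x * a2 x * c3 P (P.τ * f x) := by
  funext x; simp only [chd, Par.chi, c3]; ring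

include h

theorem d_pos : 0 < d := lt_of_lt_of_le (pow_pos h.e_pos 2) h.d_lo

theorem c_u3 : ContDiff ℝ ∞ fun x => c3 P (P.τ * f x) :=
  (contDiff_c3 P).comp (contDiff_const.mul h.cf)

theorem c_chi : ContDiff ℝ ∞ χ := by
  rw [chd_eq]; exact h.bg.a1_b2.smooth.sub (h.bg.a12_b2.smooth.mul h.c_u3)

theorem chi_mem (x : E n) : χ x ∈ Icc (0 : ℝ) 1 := Bd.chi_mem P (h.bg.a1_mem x) (h.bg.a2_mem x) _

theorem c_phi : ContDiff ℝ ∞ φ :=
  contDiff_const.add ((contDiff_const.mul h.c_chi).mul ((contDiff_Ph P).comp h.cz))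

theorem phi_mem (x : E n) : φ x ∈ Icc d 1 := by
  have h1 := h.chi_mem x
  have h2 := Ph_mem P (z x)
  have h3 := mul_nonneg h1.1 h2.1
  have h4 := mul_le_one₀ h1.2 h2.1 h2.2
  have h5 := h.d_le
  rw [phd, mul_assoc]
  constructor <;> nlinarith

theorem phi_pos (x : E n) : 0 < φ x := h.d_pos.trans_le (h.phi_mem x).1

theorem jd : Jd g φ f univ :=
  ⟨h.bg.riem, h.c_phi.contDiffOn, h.cf.contDiffOn, fun x _ => h.phi_pos x⟩

theorem c_gm : ContDiff ℝ ∞ γ := contDiff_iff_contDiffAt.2 fun x => h.jd.c_gm (mem_univ x)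

theorem WW_eq : 𝒲 = fun x => Real.exp (4 * z x) * (φ x ^ 2 * (γ x ^ 2 - 1) + d ^ 2)
    + 2 * d * (1 - d) * χ x * II P 1 (z x) + (1 - d) ^ 2 * χ x ^ 2 * II P 2 (z x) := by
  funext x; rw [WW, h.jd.gm_sq (mem_univ x)]; ring

theorem sg_eq : σ = fun x => 1 / 2 * Real.exp (-(4 * z x) - 2 * ℓ x - 2 * lv φ x) := by
  funext x
  have h1 := h.jd.gm_pos (mem_univ x)
  have h2 := h.phi_pos x
  have e : ∀ a : ℝ, 0 < a → Real.exp (2 * Real.log a) = a ^ 2 := fun a ha => by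
    rw [two_mul, Real.exp_add, Real.exp_log ha, pow_two]
  rw [sg, Real.exp_sub, Real.exp_sub, ell, lv, e _ h1, e _ h2]
  field_simp

theorem c_WW : ContDiff ℝ ∞ 𝒲 := by
  rw [h.WW_eq]
  exact (((Real.contDiff_exp.comp (contDiff_const.mul h.cz)).mul (((h.c_phi.pow 2).mul
    ((h.c_gm.pow 2).sub contDiff_const)).add contDiff_const)).add
    ((contDiff_const.mul h.c_chi).mul ((contDiff_II P 1).comp h.cz))).add
    ((contDiff_const.mul (h.c_chi.pow 2)).mul ((contDiff_II P 2).comp h.cz))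

theorem c_ell : ContDiff ℝ ∞ ℓ := contDiff_iff_contDiffAt.2 fun x => h.jd.c_ell (mem_univ x)

theorem c_lv : ContDiff ℝ ∞ (lv φ) := contDiff_iff_contDiffAt.2 fun x => h.jd.c_lv (mem_univ x)

theorem c_sg : ContDiff ℝ ∞ σ := by
  rw [h.sg_eq]
  exact contDiff_const.mul (Real.contDiff_exp.comp (((contDiff_const.mul h.cz).neg.sub
    (contDiff_const.mul h.c_ell)).sub (contDiff_const.mul h.c_lv)))

theorem c_kp : ContDiff ℝ ∞ κ :=
  h.c_sg.mul ((contDiff_const.mul ((contDiff_II P 1).comp h.cz)).add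
    ((contDiff_const.mul h.c_chi).mul ((contDiff_II P 2).comp h.cz)))

theorem WW_bounds (x : E n) : P.e ^ 4 * (γ x * Real.exp (2 * z x)) ^ 2 ≤ 𝒲 x ∧
    𝒲 x ≤ (γ x * Real.exp (2 * z x)) ^ 2 := by
  have hE : Real.exp (2 * z x) ^ 2 = Real.exp (4 * z x) := by
    rw [← Real.exp_nat_mul]; congr 1; push_cast; ring
  have h1 := II_mem h.θ_pos one_ne_zero (z x)
  have h2 := II_mem h.θ_pos two_ne_zero (z x)
  have h3 := h.chi_mem x
  have h4 := h.phi_mem x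
  have hd0 := h.d_pos
  have hd1 : 0 ≤ 1 - d := sub_nonneg.2 h.d_le
  have hs : 0 ≤ γ x ^ 2 - 1 := by have := h.jd.one_le_gm (mem_univ x); nlinarith
  have hX := Real.exp_pos (4 * z x)
  have h5 : 0 ≤ χ x := h3.1
  have h6 : 0 ≤ II P 1 (z x) := h1.1
  have h7 : 0 ≤ II P 2 (z x) := h2.1
  rw [h.WW_eq, mul_pow, hE]
  constructor
  · have a1 : P.e ^ 4 ≤ d ^ 2 := by
      rw [show P.e ^ 4 = (P.e ^ 2) ^ 2 by ring]; have := h.d_lo; gcongr
    have a2 : d ^ 2 ≤ φ x ^ 2 := by have := h4.1; gcongr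
    have a3 : P.e ^ 4 * γ x ^ 2 ≤ φ x ^ 2 * (γ x ^ 2 - 1) + d ^ 2 := by nlinarith
    have a4 : 0 ≤ 2 * d * (1 - d) * χ x * II P 1 (z x) := by positivity
    have a5 : 0 ≤ (1 - d) ^ 2 * χ x ^ 2 * II P 2 (z x) := by positivity
    nlinarith
  · have a2 : φ x ^ 2 ≤ 1 := pow_le_one₀ (h.phi_pos x).le h4.2
    have a3 : φ x ^ 2 * (γ x ^ 2 - 1) ≤ γ x ^ 2 - 1 := by nlinarith
    have a4 : 2 * d * (1 - d) * χ x * II P 1 (z x) ≤ 2 * d * (1 - d) * 1 * Real.exp (4 * z x) := by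
      have := h3.2; have := h1.2; gcongr
    have a5 : (1 - d) ^ 2 * χ x ^ 2 * II P 2 (z x) ≤ (1 - d) ^ 2 * 1 ^ 2 * Real.exp (4 * z x) := by
      have := h3.2; have := h2.2; gcongr
    nlinarith

theorem sg_mul_exp (x : E n) : σ x * Real.exp (4 * z x) = 1 / (2 * γ x ^ 2 * φ x ^ 2) := by
  rw [sg, Real.exp_neg]
  have := Real.exp_pos (4 * z x)
  field_simp

theorem sg_pos (x : E n) : 0 < σ x := by rw [h.sg_eq]; positivity

theorem inv_phi_le (x : E n) : (φ x)⁻¹ ≤ P.e⁻¹ ^ 2 := by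
  rw [inv_pow]
  exact inv_anti₀ (pow_pos h.e_pos 2) (h.d_lo.trans (h.phi_mem x).1)

theorem sg_exp_le (x : E n) : σ x * Real.exp (4 * z x) ≤ P.e⁻¹ ^ 4 / 2 := by
  have h1 := h.jd.one_le_gm (mem_univ x)
  have h2 := h.phi_pos x
  have h3 := h.inv_phi_le x
  rw [h.sg_mul_exp]
  calc _ ≤ 1 / (2 * 1 ^ 2 * φ x ^ 2) := by gcongr
    _ = (φ x)⁻¹ ^ 2 / 2 := by field_simp
    _ ≤ (P.e⁻¹ ^ 2) ^ 2 / 2 := by gcongr
    _ = _ := by ring

theorem kp_mem (x : E n) : κ x ∈ Icc 0 (P.e⁻¹ ^ 4) := by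
  have h1 := II_mem h.θ_pos one_ne_zero (z x)
  have h2 := II_mem h.θ_pos two_ne_zero (z x)
  have h3 := h.chi_mem x
  have hd0 := h.d_pos
  have hd1 : 0 ≤ 1 - d := sub_nonneg.2 h.d_le
  have h5 : 0 ≤ χ x := h3.1
  have h6 : 0 ≤ II P 1 (z x) := h1.1
  have h7 : 0 ≤ II P 2 (z x) := h2.1
  have h8 := h.sg_pos x
  refine ⟨by rw [kp]; positivity, ?_⟩
  have a4 : 2 * d * (1 - d) * II P 1 (z x) ≤ 2 * d * (1 - d) * Real.exp (4 * z x) := by
    have := h1.2; gcongr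
  have a5 : 2 * (1 - d) ^ 2 * χ x * II P 2 (z x) ≤ 2 * (1 - d) ^ 2 * 1 * Real.exp (4 * z x) := by
    have := h3.2; have := h2.2; gcongr
  have hX := Real.exp_pos (4 * z x)
  have a6 : 2 * d * (1 - d) * II P 1 (z x) + 2 * (1 - d) ^ 2 * χ x * II P 2 (z x)
      ≤ 2 * Real.exp (4 * z x) := by nlinarith
  have := h.sg_exp_le x
  calc κ x ≤ σ x * (2 * Real.exp (4 * z x)) := by rw [kp]; gcongr
    _ ≤ _ := by linarith

theorem hII (k : ℕ) (x : E n) : HasFDerivAt (fun y => II P k (z y))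
    ((4 * P.Ph (z x) ^ k * Real.exp (4 * z x)) • fderiv ℝ z x) x :=
  (hasDerivAt_II P k (z x)).comp_hasFDerivAt x (Bs.smooth_diff h.cz x).hasFDerivAt

/-- the first integral: `σ d𝒲 = 2 dz + p dv + dℓ + κ dχ` -/
theorem first_integral (x Y : E n) : σ x * fderiv ℝ 𝒲 x Y = 2 * fderiv ℝ z x Y
    + (𝓅 x * fderiv ℝ (lv φ) x Y + fderiv ℝ ℓ x Y) + κ x * fderiv ℝ χ x Y := by
  have hz := (Bs.smooth_diff h.cz x).hasFDerivAt
  have hφ := (Bs.smooth_diff h.c_phi x).hasFDerivAt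
  have hγ := (Bs.smooth_diff h.c_gm x).hasFDerivAt
  have hχ := (Bs.smooth_diff h.c_chi x).hasFDerivAt
  have hW := (((hz.const_mul 4).exp.mul (((hφ.pow 2).mul ((hγ.pow 2).sub_const 1)).add_const
    (d ^ 2))).add ((hχ.const_mul (2 * d * (1 - d))).mul (h.hII 1 x))).add
    (((hχ.pow 2).const_mul ((1 - d) ^ 2)).mul (h.hII 2 x))
  have e1 := (congrArg (fun F => fderiv ℝ F x) h.WW_eq).trans hW.fderiv
  have h1 := h.jd.gm_pos (mem_univ x)
  have h2 := h.phi_pos x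
  have h3 := h.sg_mul_exp x
  have h4 : 𝓅 x = 1 - (γ x ^ 2)⁻¹ := by rw [← h.jd.one_sub_pp (mem_univ x)]; ring
  have h5 : d ^ 2 + 2 * d * (1 - d) * χ x * P.Ph (z x) + (1 - d) ^ 2 * χ x ^ 2 * P.Ph (z x) ^ 2
      = φ x ^ 2 := by rw [phd]; ring
  have e2 : fderiv ℝ 𝒲 x Y = Real.exp (4 * z x) * (4 * (φ x ^ 2 * (γ x ^ 2 - 1)
      + (d ^ 2 + 2 * d * (1 - d) * χ x * P.Ph (z x) + (1 - d) ^ 2 * χ x ^ 2 * P.Ph (z x) ^ 2))
        * fderiv ℝ z x Y
      + 2 * φ x * (γ x ^ 2 - 1) * fderiv ℝ φ x Y + 2 * φ x ^ 2 * γ x * fderiv ℝ γ x Y)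
      + (2 * d * (1 - d) * II P 1 (z x) + 2 * (1 - d) ^ 2 * χ x * II P 2 (z x))
        * fderiv ℝ χ x Y := by
    rw [e1]
    simp only [add_apply, smul_apply, smul_eq_mul, Pi.mul_apply, nsmul_eq_mul,
      Nat.cast_ofNat, Nat.add_one_sub_one, pow_one]
    ring
  rw [e2, h5, mul_add, ← mul_assoc, h3, h.jd.fderiv_phi (mem_univ x), h.jd.fderiv_gm (mem_univ x),
    h4, kp]
  field_simp
  ring

theorem vec_id (x : E n) : σ x • grad ḡ 𝒲 x
    = (2 : ℝ) • grad ḡ z x + (𝓅 x • 𝒱 x + grad ḡ ℓ x) + κ x • grad ḡ χ x := by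
  refine bil_injective h.jd.riemb (mem_univ x) fun Y => ?_
  simp only [map_add, map_smul, add_apply, smul_apply, smul_eq_mul,
    bil_grad h.jd.riemb (mem_univ x), h.jd.gb_Vv (mem_univ x)]
  exact h.first_integral x Y

theorem dgrad {u : E n → ℝ} (hu : ContDiff ℝ ∞ u) (x : E n) : DifferentiableAt ℝ (grad ḡ u) x :=
  differentiableAt_grad h.jd.riemb (mem_univ x) (hu.contDiffAt.of_le (by norm_cast))

theorem div_eq (x : E n) : divg ḡ (fun y => σ y • grad ḡ 𝒲 y) x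
    = 2 * laplaceBeltrami ḡ z x + divg ḡ (fun y => 𝓅 y • 𝒱 y + grad ḡ ℓ y) x
      + (κ x * laplaceBeltrami ḡ χ x + fderiv ℝ κ x (grad ḡ χ x)) := by
  have hb := h.jd.riemb
  have hx := mem_univ x
  have d1 : DifferentiableAt ℝ (fun y => (2 : ℝ) • grad ḡ z y) x :=
    (differentiableAt_const (2 : ℝ)).smul (h.dgrad h.cz x)
  have d2 : DifferentiableAt ℝ (fun y => 𝓅 y • 𝒱 y + grad ḡ ℓ y) x :=
    (((h.jd.c_pp hx).differentiableAt (by simp)).smul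
      ((h.jd.c_Vv hx).differentiableAt (by simp))).add (h.dgrad h.c_ell x)
  have d3 : DifferentiableAt ℝ (fun y => κ y • grad ḡ χ y) x :=
    (Bs.smooth_diff h.c_kp x).smul (h.dgrad h.c_chi x)
  rw [funext h.vec_id, divg_add hb hx (d1.fun_add d2) d3, divg_add hb hx d1 d2,
    divg_smul hb hx (Bs.smooth_diff h.c_kp x) (h.dgrad h.c_chi x),
    divg_smul (h := fun _ => (2 : ℝ)) hb hx (differentiableAt_const _) (h.dgrad h.cz x),
    divg_grad, divg_grad]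
  simp

theorem V_eq (x : E n) : 𝒱 x = ((1 - d) * χ x * deriv P.Ph (z x) / φ x) • grad ḡ z x
    + ((1 - d) * P.Ph (z x) / φ x) • grad ḡ χ x := by
  refine bil_injective h.jd.riemb (mem_univ x) fun Y => ?_
  have hz := (Bs.smooth_diff h.cz x).hasFDerivAt
  have hχ := (Bs.smooth_diff h.c_chi x).hasFDerivAt
  have hP : HasFDerivAt (fun y => P.Ph (z y)) (deriv P.Ph (z x) • fderiv ℝ z x) x :=
    ((contDiff_Ph P).differentiable (by simp) (z x)).hasDerivAt.comp_hasFDerivAt x hz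
  have e1 : fderiv ℝ φ x = _ := (((hχ.const_mul (1 - d)).mul hP).const_add d).fderiv
  simp only [map_add, map_smul, add_apply, smul_apply, smul_eq_mul,
    bil_grad h.jd.riemb (mem_univ x), h.jd.gb_Vv (mem_univ x), h.jd.fderiv_lv (mem_univ x), e1]
  ring

theorem dkp (x Y : E n) : fderiv ℝ κ x Y
    = κ x * (-(4 * fderiv ℝ z x Y) - 2 * fderiv ℝ ℓ x Y - 2 * fderiv ℝ (lv φ) x Y)
      + σ x * Real.exp (4 * z x) * (8 * (1 - d) * P.Ph (z x) * φ x) * fderiv ℝ z x Y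
      + σ x * (2 * (1 - d) ^ 2 * II P 2 (z x)) * fderiv ℝ χ x Y := by
  have hz := (Bs.smooth_diff h.cz x).hasFDerivAt
  have hχ := (Bs.smooth_diff h.c_chi x).hasFDerivAt
  have hl := (Bs.smooth_diff h.c_ell x).hasFDerivAt
  have hv := (Bs.smooth_diff h.c_lv x).hasFDerivAt
  have hs := ((((hz.const_mul 4).neg.sub (hl.const_mul 2)).sub (hv.const_mul 2)).exp.const_mul
    (1 / 2))
  have hs' : HasFDerivAt σ (σ x • (-((4 : ℝ) • fderiv ℝ z x) - (2 : ℝ) • fderiv ℝ ℓ x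
      - (2 : ℝ) • fderiv ℝ (lv φ) x)) x := by
    rw [h.sg_eq]
    refine hs.congr_fderiv ?_
    ext Y
    simp only [smul_apply, smul_eq_mul, Pi.sub_apply, Pi.neg_apply]
    ring
  have e1 : fderiv ℝ κ x = _ := (hs'.mul (((h.hII 1 x).const_mul (2 * d * (1 - d))).add
    ((hχ.const_mul (2 * (1 - d) ^ 2)).mul (h.hII 2 x)))).fderiv
  rw [e1, kp, phd]
  simp only [add_apply, sub_apply, neg_apply, smul_apply, smul_eq_mul, Pi.add_apply, Pi.mul_apply]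
  ring

end WH

end Crest.Agent.N346.Bd

end
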