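import Crest.Agent.N346.Bd.W2

/-!
Row 346, Part 1 (helper71): the `W`-inequality, part 3: the error terms and `wineq : WStmt`.
-/

set_option autoImplicit false

open MeasureTheory Filter Set
open scoped ContDiff Topology
open Crest.GeometryTopology.CoordMetric Crest.MathPhysics.ExteriorData
open Crest.Agent.R202.Tens Crest.Agent.R247.Bo84 Crest.Agent.N346.Id Crest.Agent.N346.P1

noncomputable section

namespace Crest.Agent.N346.Bd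

variable {n : ℕ}

theorem fderiv_Kww {g K : MetricField n} {w : E n → E n} {x : E n} (hK : SymT K univ)
    (hw : DifferentiableAt ℝ w x) : fderiv ℝ (fun y => bil (K y) (w y) (w y)) x (w x)
      = cK g K x (w x) + 2 * bil (K x) (cov g w x (w x)) (w x) := by
  have hb : DifferentiableAt ℝ (fun y => bil (K y)) x :=
    (contDiffAt_bil (hK.contDiffAt isOpen_univ (mem_univ x))).differentiableAt (by simp)
  have h1 := ((hb.hasFDerivAt.clm_apply hw.hasFDerivAt).clm_apply hw.hasFDerivAt).fderiv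
  have h2 := ((hb.hasFDerivAt.clm_apply (hasFDerivAt_const (w x) x)).clm_apply
    (hasFDerivAt_const (w x) x)).fderiv
  rw [cK, h1, h2, cov_apply]
  simp only [add_apply, ContinuousLinearMap.comp_apply, ContinuousLinearMap.flip_apply, map_add,
    zero_apply, map_zero]
  rw [hK.bil_symm (mem_univ x) (w x) (fderiv ℝ w x (w x))]
  ring

theorem abs_mul_le' {a b A B : ℝ} (ha : |a| ≤ A) (hb : |b| ≤ B) : |a * b| ≤ A * B := by
  rw [abs_mul]; exact mul_le_mul ha hb (abs_nonneg _) ((abs_nonneg _).trans ha)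

theorem abs_le_of_mem {a A : ℝ} (h : a ∈ Icc 0 A) : |a| ≤ A := by
  rw [abs_of_nonneg h.1]; exact h.2

namespace WH

variable {P0 : ℝ} {P : Par} {d : ℝ} {g K : MetricField n} {EE : VectorField n}
  {a1 a2 f z : E n → ℝ} (h : WH P0 P d g K EE a1 a2 f z)

local notation "φ" => phd P d a1 a2 f z
local notation "χ" => chd P a1 a2 f
local notation "ḡ" => gb g (phd P d a1 a2 f z) f
local notation "γ" => gm g (phd P d a1 a2 f z) f
local notation "𝓅" => pp g (phd P d a1 a2 f z) f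
local notation "𝓌" => wv g (phd P d a1 a2 f z) f
local notation "ℓ" => ell g (phd P d a1 a2 f z) f
local notation "𝒱" => Vv g (phd P d a1 a2 f z) f
local notation "𝒬" => Qv g (phd P d a1 a2 f z) f
local notation "ℋ" => H0 g (phd P d a1 a2 f z) f
local notation "𝒶" => aa g (phd P d a1 a2 f z) f
local notation "𝒲" => WW P d g a1 a2 f z
local notation "σ" => sg P d g a1 a2 f z
local notation "κ" => kp P d g a1 a2 f z

include h

theorem ip (x : E n) : IP (bil (ḡ x)) := ip_bil h.jd.riemb (mem_univ x)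

theorem p_mem (x : E n) : 𝓅 x ∈ Icc (0 : ℝ) 1 :=
  ⟨h.jd.pp_nonneg (mem_univ x), (h.jd.pp_lt_one (mem_univ x)).le⟩

theorem hw (x : E n) : (1 - 𝓅 x) * bil (ḡ x) (𝓌 x) (𝓌 x) = 𝓅 x := by
  rw [gb_wv_wv h.jd (mem_univ x)]
  linear_combination 𝓅 x * h.jd.gm_sq_mul (mem_univ x)

theorem a_eq (x : E n) : 𝒶 x = bil (ḡ x) (𝒱 x) (𝓌 x) := (h.jd.gb_Vv (mem_univ x) _).symm

theorem ww_le (x : E n) : bil (g x) (𝓌 x) (𝓌 x) ≤ 1 := by
  rw [h.jd.bil_wv_wv (mem_univ x)]; exact (h.p_mem x).2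

theorem abs_H0 (x : E n) : |ℋ x| ≤ 3 * P0 := by
  rw [H0_eq_Th h.jd (mem_univ x) K, h.J]
  have h1 := abs_le.1 (h.fb x)
  have h2 := abs_le.1 (h.bg.trK_le x)
  have h3 := abs_le.1 (h.bg.abs_Kww_le (h.ww_le x))
  rw [abs_le]; constructor <;> linarith

theorem P_le_sq : P0 ≤ P0 ^ 2 := by have := h.bg.P_ge; nlinarith

theorem nb_B2 {u : E n → ℝ} (hu : B2 P0 g u) (x : E n) : nb (bil (ḡ x)) (grad ḡ u x) ≤ P0 := by
  refine IP.nb_le (by linarith [h.bg.P_ge]) ?_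
  rw [← gam_eq_bil h.jd.riemb (mem_univ x)]
  exact (gam_gb_le h.jd (mem_univ x) u).trans ((hu.d_le x).trans h.P_le_sq)

theorem tau_pos : 0 < P.τ := pow_pos h.e_pos 3

theorem tau_le (x : E n) : P.τ ≤ φ x :=
  (pow_le_pow_of_le_one h.e_pos.le h.e_le (by norm_num)).trans (h.d_lo.trans (h.phi_mem x).1)

theorem c_F : ContDiff ℝ ∞ fun y => P.τ * f y := contDiff_const.mul h.cf

theorem gam_F (x : E n) : gam ḡ (fun y => P.τ * f y) (fun y => P.τ * f y) x ≤ 1 := by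
  rw [gam_const_mul_left _ (Bs.smooth_diff h.cf x), gam_const_mul_right _ (Bs.smooth_diff h.cf x)]
  have h1 := h.jd.gam_gb_f_f (mem_univ x)
  have h2 := gam_self_nonneg h.jd.riemb (mem_univ x) f
  have h3 : P.τ ^ 2 ≤ φ x ^ 2 := by have := h.tau_pos; have := h.tau_le x; gcongr
  have h4 := (h.p_mem x).2
  nlinarith

theorem nb_F (x : E n) : nb (bil (ḡ x)) (grad ḡ (fun y => P.τ * f y) x) ≤ 1 := by
  refine IP.nb_le zero_le_one ?_
  rw [← gam_eq_bil h.jd.riemb (mem_univ x), one_pow]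
  exact h.gam_F x

theorem lap_B2 {u : E n → ℝ} (hu : B2 P0 g u) (x : E n) : |laplaceBeltrami ḡ u x|
    ≤ (n * P0 + 3 * P0 ^ 2) * (1 + nb (bil (ḡ x)) (𝒱 x)) := by
  have hP := h.bg.P_ge
  have hv := IP.nb_nonneg (bil (ḡ x)) (𝒱 x)
  have h1 := abs_le.1 (abs_traceK_hessM_le h.jd (mem_univ x) (by linarith) (hu.h_le x))
  have h2 : |gam ḡ u (lv φ) x| ≤ P0 * nb (bil (ḡ x)) (𝒱 x) := by
    rw [gam_eq_bil h.jd.riemb (mem_univ x)]
    refine ((h.ip x).abs_b _ _).trans ?_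
    have := h.nb_B2 hu x
    change _ * nb _ (𝒱 x) ≤ _
    gcongr
  have h3 := abs_le.1 (abs_mul_le' (abs_le_of_mem (h.p_mem x)) h2)
  have h4 := abs_le.1 (abs_mul_le' (h.abs_H0 x) (abs_fderiv_wv_le h.jd (mem_univ x) (u := u)
    (by linarith) ((hu.d_le x).trans h.P_le_sq)))
  have h5 : P0 * nb (bil (ḡ x)) (𝒱 x) ≤ (n * P0 + 3 * P0 ^ 2) * nb (bil (ḡ x)) (𝒱 x) := by
    have : 0 ≤ n * P0 := by positivity
    have := h.P_le_sq
    gcongr; nlinarith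
  rw [h.jd.lap_gb (mem_univ x) (hu.smooth.contDiffAt.of_le (by norm_cast)), abs_le]
  constructor <;> nlinarith

theorem lap_F (x : E n) : |laplaceBeltrami ḡ (fun y => P.τ * f y) x|
    ≤ 3 * P0 + 2 * nb (bil (ḡ x)) (𝒱 x) := by
  have hP := h.bg.P_ge
  have hv := IP.nb_nonneg (bil (ḡ x)) (𝒱 x)
  have hγ := h.jd.one_le_gm (mem_univ x)
  have hφ := h.phi_pos x
  have hp := h.p_mem x
  have h1 : nb (bil (ḡ x)) (𝓌 x) ≤ γ x := by
    refine IP.nb_le (by linarith) ?_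
    rw [gb_wv_wv h.jd (mem_univ x)]
    exact mul_le_of_le_one_right (sq_nonneg _) hp.2
  have h2 : |𝒶 x| ≤ nb (bil (ḡ x)) (𝒱 x) * γ x := by
    rw [h.a_eq]; exact ((h.ip x).abs_b _ _).trans (by gcongr)
  have h3 := abs_mul_le' (a := 2 - 𝓅 x) (A := 2) (abs_le_of_mem ⟨by linarith [hp.2],
    by linarith [hp.1]⟩) h2
  have h4 : |ℋ x - (2 - 𝓅 x) * 𝒶 x| ≤ (3 * P0 + 2 * nb (bil (ḡ x)) (𝒱 x)) * γ x := by
    refine (abs_sub _ _).trans ?_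
    have := h.abs_H0 x
    nlinarith
  rw [lap_const_mul h.jd.riemb (mem_univ x) _ (h.jd.cf2 (mem_univ x)),
    h.jd.lap_gb_f (mem_univ x), abs_mul, abs_div, abs_of_pos h.tau_pos,
    abs_of_pos (a := φ x * γ x) (by positivity), ← mul_div_assoc, div_le_iff₀ (by positivity)]
  calc _ ≤ φ x * ((3 * P0 + 2 * nb (bil (ḡ x)) (𝒱 x)) * γ x) := by
        have := h.tau_le x; gcongr
    _ = _ := by ring

theorem a12_mem (x : E n) : a1 x * a2 x ∈ Icc (0 : ℝ) 1 :=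
  ⟨mul_nonneg (h.bg.a1_mem x).1 (h.bg.a2_mem x).1,
    mul_le_one₀ (h.bg.a1_mem x).2 (h.bg.a2_mem x).1 (h.bg.a2_mem x).2⟩

variable {C3 : ℝ} (hC : ∀ t, |deriv (c3 P) t| ≤ C3 ∧ |deriv (deriv (c3 P)) t| ≤ C3)
include hC

theorem nb_u3 (x : E n) : nb (bil (ḡ x)) (grad ḡ (fun y => c3 P (P.τ * f y)) x) ≤ C3 := by
  rw [grad_comp (f := fun y => P.τ * f y) ((contDiff_c3 P).differentiable (by simp) _)
    (Bs.smooth_diff h.c_F x), IP.nb_smul]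
  have h1 := (hC (P.τ * f x)).1
  have h2 := h.nb_F x
  have h3 := IP.nb_nonneg (bil (ḡ x)) (grad ḡ (fun y => P.τ * f y) x)
  have h4 := abs_nonneg (deriv (c3 P) (P.τ * f x))
  nlinarith

theorem nb_X (x : E n) : nb (bil (ḡ x)) (grad ḡ χ x) ≤ 2 * P0 + C3 := by
  have d1 := Bs.smooth_diff h.bg.a1_b2.smooth x
  have d2 := Bs.smooth_diff h.bg.a12_b2.smooth x
  have d3 := Bs.smooth_diff h.c_u3 x
  have e : grad ḡ χ x = grad ḡ a1 x - ((a1 x * a2 x) • grad ḡ (fun y => c3 P (P.τ * f y)) x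
      + c3 P (P.τ * f x) • grad ḡ (fun y => a1 y * a2 y) x) := by
    rw [← grad_mul d2 d3, ← grad_sub d1 (d2.fun_mul d3), ← chd_eq]
  have h1 := h.nb_B2 h.bg.a1_b2 x
  have h2 := h.nb_B2 h.bg.a12_b2 x
  have h3 := h.nb_u3 hC x
  have h4 := IP.nb_smul_le (b := bil (ḡ x)) (h.a12_mem x).1 (h.a12_mem x).2
    (grad ḡ (fun y => c3 P (P.τ * f y)) x)
  have h5 := IP.nb_smul_le (b := bil (ḡ x)) (c3_mem P (P.τ * f x)).1 (c3_mem P _).2
    (grad ḡ (fun y => a1 y * a2 y) x)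
  rw [e]
  refine ((h.ip x).nb_sub _ _).trans ((add_le_add_right ((h.ip x).nb_add _ _) _).trans ?_)
  linarith

theorem lap_chi (x : E n) : |laplaceBeltrami ḡ χ x|
    ≤ (2 * (n * P0 + 3 * P0 ^ 2) + 6 * P0 * C3) * (1 + nb (bil (ḡ x)) (𝒱 x)) := by
  have hP := h.bg.P_ge
  have hv := IP.nb_nonneg (bil (ḡ x)) (𝒱 x)
  have hb := h.jd.riemb
  have hx := mem_univ x
  have c2 : ∀ {u : E n → ℝ}, ContDiff ℝ ∞ u → ContDiffAt ℝ 2 u x := fun hu =>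
    hu.contDiffAt.of_le (by norm_cast)
  have e : laplaceBeltrami ḡ χ x = laplaceBeltrami ḡ a1 x - (a1 x * a2 x *
      (deriv (c3 P) (P.τ * f x) * laplaceBeltrami ḡ (fun y => P.τ * f y) x
        + deriv (deriv (c3 P)) (P.τ * f x) * gam ḡ (fun y => P.τ * f y) (fun y => P.τ * f y) x)
      + c3 P (P.τ * f x) * laplaceBeltrami ḡ (fun y => a1 y * a2 y) x
      + 2 * gam ḡ (fun y => a1 y * a2 y) (fun y => c3 P (P.τ * f y)) x) := by
    rw [← lap_comp hb hx (f := fun y => P.τ * f y)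
      ((contDiff_c3 P).contDiffAt.of_le (by norm_cast)) (c2 h.c_F),
      ← lap_mul hb hx (c2 h.bg.a12_b2.smooth) (c2 h.c_u3),
      ← lap_sub hb hx (c2 h.bg.a1_b2.smooth) (c2 (h.bg.a12_b2.smooth.mul h.c_u3)), ← chd_eq]
  have hC0 : 0 ≤ C3 := (abs_nonneg _).trans (hC 0).1
  have h1 := abs_le.1 (h.lap_B2 h.bg.a1_b2 x)
  have h2 := abs_le.1 (abs_mul_le' (abs_le_of_mem (c3_mem P (P.τ * f x)))
    (h.lap_B2 h.bg.a12_b2 x))
  have h3 := abs_mul_le' (hC (P.τ * f x)).1 (h.lap_F x)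
  have h4 := abs_mul_le' (hC (P.τ * f x)).2
    (abs_le_of_mem ⟨gam_self_nonneg hb hx _, h.gam_F x⟩)
  have h5 := abs_le.1 (abs_mul_le' (abs_le_of_mem (h.a12_mem x))
    ((abs_add_le _ _).trans (add_le_add h3 h4)))
  have h6 : |gam ḡ (fun y => a1 y * a2 y) (fun y => c3 P (P.τ * f y)) x| ≤ P0 * C3 := by
    rw [gam_eq_bil hb hx]
    refine ((h.ip x).abs_b _ _).trans ?_
    have := h.nb_B2 h.bg.a12_b2 x
    have := h.nb_u3 hC x
    have := IP.nb_nonneg (bil (ḡ x)) (grad ḡ (fun y => c3 P (P.τ * f y)) x)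
    gcongr
  have h7 := abs_le.1 h6
  have h8 : C3 ≤ P0 * C3 := by nlinarith
  have h9 : C3 * nb (bil (ḡ x)) (𝒱 x) ≤ P0 * C3 * nb (bil (ḡ x)) (𝒱 x) := by gcongr
  have h10 : 0 ≤ C3 * nb (bil (ḡ x)) (𝒱 x) := by positivity
  rw [e, abs_le]
  constructor <;> linarith

omit hC

theorem dH0 (x : E n) : P.τ * γ x * 𝓅 x - 2 * P0
    - 2 * P0 * (nb (bil (ḡ x)) (𝒬 x) + nb (bil (ḡ x)) (𝒱 x)) ≤ fderiv ℝ ℋ x (𝓌 x) := by
  have hP := h.bg.P_ge
  have hx := mem_univ x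
  have dw : DifferentiableAt ℝ 𝓌 x := (h.jd.c_wv hx).differentiableAt (by simp)
  have hKc := h.bg.symK.contDiffAt isOpen_univ hx
  have d1 := Bs.smooth_diff h.cf x
  have d2 : DifferentiableAt ℝ (traceK g K) x :=
    (contDiffAt_traceK h.bg.riem hx le_rfl hKc).differentiableAt (by simp)
  have d3 : DifferentiableAt ℝ (fun y => bil (K y) (𝓌 y) (𝓌 y)) x :=
    (contDiffAt_bil_apply hKc (h.jd.c_wv hx) (h.jd.c_wv hx)).differentiableAt (by simp)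
  have e : ℋ = fun y => P.τ * f y + (traceK g K y - bil (K y) (𝓌 y) (𝓌 y)) :=
    funext fun y => by rw [H0_eq_Th h.jd (mem_univ y) K, h.J]
  have e1 := (congrArg (fun F => fderiv ℝ F x) e).trans
    ((d1.hasFDerivAt.const_mul P.τ).add (d2.hasFDerivAt.sub d3.hasFDerivAt)).fderiv
  have h1 := abs_le.1 (h.bg.dtrK_le x _ (h.ww_le x))
  have h2 := abs_le.1 (h.bg.cK_le x _ (h.ww_le x))
  have h3 : P.τ * γ x * 𝓅 x ≤ P.τ * fderiv ℝ f x (𝓌 x) := by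
    have a1 := h.jd.df_wv hx
    have a2 := h.phi_pos x
    have a3 : 0 ≤ γ x * 𝓅 x := mul_nonneg (h.jd.gm_pos hx).le (h.p_mem x).1
    have a4 : 0 ≤ fderiv ℝ f x (𝓌 x) := by
      by_contra hn
      nlinarith [mul_pos a2 (neg_pos.2 (not_le.1 hn))]
    have a5 := mul_le_of_le_one_left a4 (h.phi_mem x).2
    have := h.tau_pos
    rw [mul_assoc, ← a1]
    gcongr
  have h4 : nb (bil (ḡ x)) (𝒬 x - 𝓅 x • 𝒱 x) ≤ nb (bil (ḡ x)) (𝒬 x) + nb (bil (ḡ x)) (𝒱 x) := by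
    have a1 := (h.ip x).nb_sub (𝒬 x) (𝓅 x • 𝒱 x)
    have a2 := IP.nb_smul_le (b := bil (ḡ x)) (h.p_mem x).1 (h.p_mem x).2 (𝒱 x)
    linarith
  have h5 : bil (K x) (𝒬 x - 𝓅 x • 𝒱 x) (𝓌 x) ≤ P0 * nb (bil (ḡ x)) (𝒬 x - 𝓅 x • 𝒱 x) := by
    have a0 := IP.nb_nonneg (bil (ḡ x)) (𝒬 x - 𝓅 x • 𝒱 x)
    refine (abs_le_of_sq_le_sq' ((h.bg.K_le x _ _).trans ?_) (by positivity)).2
    have a1 := h.jd.bil_le_gb hx (𝒬 x - 𝓅 x • 𝒱 x)
    have a2 := h.ww_le x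
    have a3 := bil_self_nonneg h.bg.riem hx (𝓌 x)
    have a4 := (h.ip x).nonneg (𝒬 x - 𝓅 x • 𝒱 x)
    rw [mul_pow, (h.ip x).nb_sq]
    calc _ ≤ P0 ^ 2 * (bil (ḡ x) (𝒬 x - 𝓅 x • 𝒱 x) (𝒬 x - 𝓅 x • 𝒱 x) * 1) := by gcongr
      _ = _ := by ring
  have h6 : P0 * nb (bil (ḡ x)) (𝒬 x - 𝓅 x • 𝒱 x)
      ≤ P0 * (nb (bil (ḡ x)) (𝒬 x) + nb (bil (ḡ x)) (𝒱 x)) := by gcongr
  rw [e1, add_apply, sub_apply, smul_apply, smul_eq_mul, fderiv_Kww (g := g) h.bg.symK dw,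
    h.jd.cov_wv_wv hx]
  linarith

theorem nb_ell (x : E n) :
    nb (bil (ḡ x)) (grad ḡ ℓ x) ≤ nb (bil (ḡ x)) (𝒬 x) + nb (bil (ḡ x)) (𝒱 x) := by
  rw [h.jd.grad_gb_ell (mem_univ x), h.a_eq]
  exact ((h.ip x).nb_sub _ _).trans
    (add_le_add_right ((h.ip x).nb_aw (h.p_mem x).1 (h.p_mem x).2 (h.hw x) _) _)

theorem dkp_ge {B : ℝ} (hB : P.e⁻¹ ^ 4 ≤ B) (x : E n) (hX : nb (bil (ḡ x)) (grad ḡ χ x) ≤ B) :
    -(B ^ 2 * (8 * nb (bil (ḡ x)) (grad ḡ z x) + 2 * nb (bil (ḡ x)) (𝒬 x)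
      + 4 * nb (bil (ḡ x)) (𝒱 x))) ≤ fderiv ℝ κ x (grad ḡ χ x) := by
  have hb := h.jd.riemb
  have hx := mem_univ x
  have key : ∀ (Y : E n) (c : ℝ), nb (bil (ḡ x)) Y ≤ c → |bil (ḡ x) Y (grad ḡ χ x)| ≤ c * B :=
    fun Y c hc => ((h.ip x).abs_b _ _).trans (mul_le_mul hc hX (IP.nb_nonneg _ _)
      ((IP.nb_nonneg _ _).trans hc))
  have h1 := key (grad ḡ z x) _ le_rfl
  have h2 := key _ _ (h.nb_ell x)
  have h3 := key (𝒱 x) _ le_rfl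
  rw [bil_grad hb hx] at h1 h2
  rw [h.jd.gb_Vv hx] at h3
  have h4 : |-(4 * fderiv ℝ z x (grad ḡ χ x)) - 2 * fderiv ℝ ℓ x (grad ḡ χ x)
      - 2 * fderiv ℝ (lv φ) x (grad ḡ χ x)| ≤ (4 * nb (bil (ḡ x)) (grad ḡ z x)
        + 2 * nb (bil (ḡ x)) (𝒬 x) + 4 * nb (bil (ḡ x)) (𝒱 x)) * B := by
    have := abs_le.1 h1; have := abs_le.1 h2; have := abs_le.1 h3
    rw [abs_le]; constructor <;> linarith
  have h5 := abs_le.1 (abs_mul_le' ((abs_le_of_mem (h.kp_mem x)).trans hB) h4)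
  have hd1 : 0 ≤ 1 - d := sub_nonneg.2 h.d_le
  have hσ := h.sg_pos x
  have h6 : |σ x * Real.exp (4 * z x) * (8 * (1 - d) * P.Ph (z x) * φ x)| ≤ B / 2 * 8 := by
    refine abs_mul_le' (abs_le_of_mem ⟨by positivity, (h.sg_exp_le x).trans (by linarith)⟩)
      (abs_le_of_mem ⟨?_, ?_⟩)
    · have := (Ph_mem P (z x)).1; have := h.phi_pos x; positivity
    · have a1 := Ph_mem P (z x)
      have a2 := a1.1
      have a3 := h.phi_pos x
      have a4 := (h.phi_mem x).2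
      have a5 : 1 - d ≤ 1 := by linarith [h.d_pos]
      calc _ ≤ 8 * 1 * 1 * (1 : ℝ) := by have := a1.2; gcongr
        _ = _ := by ring
  have h7 := abs_le.1 (abs_mul_le' h6 h1)
  have h8 : 0 ≤ σ x * (2 * (1 - d) ^ 2 * II P 2 (z x)) * fderiv ℝ χ x (grad ḡ χ x) := by
    have a1 := (II_mem h.θ_pos two_ne_zero (z x)).1
    have a2 := gam_self_nonneg hb hx χ
    rw [gam_eq_fderiv_grad] at a2
    positivity
  rw [h.dkp]
  linarith

end WH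

theorem err_alg {B P s ζ q v : ℝ} (hB : 1 ≤ B) (hP : P ≤ B) (hs : 1 ≤ s) (hζ : ζ ≤ s)
    (hq0 : 0 ≤ q) (hq : q ≤ 4 * B ^ 2 * s) (hv0 : 0 ≤ v) (hv : v ≤ B ^ 2 * s) :
    4 * P + 3 * P * v + 2 * P * (q + v) + B * (B * (1 + v)) + B ^ 2 * (8 * ζ + 2 * q + 4 * v)
      ≤ 40 * B ^ 4 * s := by
  have hB0 : 0 ≤ B := by linarith
  have h12 : B ≤ B ^ 2 := by nlinarith
  have h24 : B ^ 2 ≤ B ^ 4 := pow_le_pow_right₀ hB (by norm_num)
  have h1 : B ^ 4 ≤ B ^ 4 * s := le_mul_of_one_le_right (by positivity) hs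
  have h2 : P * v ≤ B ^ 2 * v := by gcongr; linarith
  have h3 : P * q ≤ B ^ 2 * q := by gcongr; linarith
  have h4 : B ^ 2 * v ≤ B ^ 2 * (B ^ 2 * s) := by gcongr
  have h5 : B ^ 2 * q ≤ B ^ 2 * (4 * B ^ 2 * s) := by gcongr
  have h6 : B ^ 2 * ζ ≤ B ^ 2 * s := by gcongr
  have h7 : B ^ 2 * s ≤ B ^ 4 * s := by gcongr
  nlinarith

/-- The `W`-inequality. -/
theorem wineq : WStmt := by
  intro n hn θ t1 P0 hθ ht1
  obtain ⟨C3, hC3, hC⟩ := exists_c3_bound ht1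
  obtain ⟨CΦ, hCΦ, hΦ⟩ := exists_Ph_bound hθ
  obtain ⟨C1, hC1⟩ : ∃ C1 : ℝ, C1 = 2 * (n * P0 + 3 * P0 ^ 2) + 6 * P0 * C3 + CΦ := ⟨_, rfl⟩
  refine ⟨33, min 1 (800 * C1 ^ 8 + 1)⁻¹, by positivity,
    fun P hPθ hPt he he1 d hd hd1 g K EE a1 a2 f z bg cf cz J fb => ?_⟩
  have h : WH P0 P d g K EE a1 a2 f z := ⟨bg, hPθ ▸ hθ, he, he1.trans (min_le_left _ _), hd, hd1,
    cf, cz, J, fb⟩
  refine ⟨h.jd, h.c_WW, h.c_sg, fun x => ⟨⟨hd.trans (h.phi_mem x).1, (h.phi_mem x).2⟩,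
    (h.WW_bounds x).1, (h.WW_bounds x).2, ?_⟩⟩
  have hx := mem_univ x
  have hP := bg.P_ge
  have hC' := hC P hPt
  have hi : 1 ≤ P.e⁻¹ := (one_le_inv₀ he).2 h.e_le
  have hi4 : 1 ≤ P.e⁻¹ ^ 4 := one_le_pow₀ hi
  have hi24 : P.e⁻¹ ^ 2 ≤ P.e⁻¹ ^ 4 := pow_le_pow_right₀ hi (by norm_num)
  have hn0 : 0 ≤ n * P0 := by positivity
  have k1 : 2 * P0 + C3 ≤ 6 * P0 * C3 := by nlinarith
  have k2 : 0 ≤ P0 ^ 2 := sq_nonneg _
  have k3 : 1 ≤ C1 := by linarith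
  obtain ⟨B, hB⟩ : ∃ B, B = C1 * P.e⁻¹ ^ 4 := ⟨_, rfl⟩
  have b1 : C1 ≤ B := hB ▸ le_mul_of_one_le_right (by linarith) hi4
  have b2 : P.e⁻¹ ^ 4 ≤ B := hB ▸ le_mul_of_one_le_left (by linarith) k3
  have b3 : 1 ≤ B := k3.trans b1
  have hφ := h.phi_pos x
  have hd0 : 0 ≤ 1 - d := sub_nonneg.2 hd1
  have hd2 : 1 - d ≤ 1 := by linarith [h.d_pos]
  have hχ := h.chi_mem x
  have hχ0 := hχ.1
  have hΦ' := hΦ P hPθ (z x)
  have hΦ0 := hΦ'.1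
  have hPh := Ph_mem P (z x)
  have hPh0 := hPh.1
  have hφi := h.inv_phi_le x
  have hX : nb (bil (gb g (phd P d a1 a2 f z) f x))
      (grad (gb g (phd P d a1 a2 f z) f) (chd P a1 a2 f) x) ≤ B :=
    (h.nb_X hC' x).trans (by linarith)
  have vz1 : (1 - d) * chd P a1 a2 f x * deriv P.Ph (z x) / phd P d a1 a2 f z x ≤ B := by
    rw [div_eq_mul_inv, hB]
    calc _ ≤ 1 * 1 * CΦ * P.e⁻¹ ^ 4 := by
          have := hχ.2; have := hΦ'.2.1; have := hφi.trans hi24; gcongr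
      _ ≤ _ := by rw [one_mul, one_mul]; gcongr; nlinarith
  have vc1 : (1 - d) * P.Ph (z x) / phd P d a1 a2 f z x ≤ B := by
    rw [div_eq_mul_inv]
    calc _ ≤ 1 * 1 * P.e⁻¹ ^ 4 := by have := hPh.2; have := hφi.trans hi24; gcongr
      _ ≤ _ := by linarith
  have hY := h.vec_id x
  rw [h.jd.grad_gb_ell hx, h.a_eq] at hY
  obtain ⟨c1, c2, c3⟩ := (h.ip x).core b3 (h.p_mem x).1 (h.p_mem x).2 (h.hw x) (by positivity) vz1
    (by positivity) vc1 (h.kp_mem x).1 ((h.kp_mem x).2.trans b2) hX (h.V_eq x) hY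
  have e1 := h.jd.id_W hx
  have e2 := h.dH0 x
  have e3 := h.dkp_ge b2 x hX
  have e4 := abs_le.1 (abs_mul_le' ((abs_le_of_mem (h.kp_mem x)).trans b2)
    ((h.lap_chi hC' x).trans (mul_le_mul_of_nonneg_right (c := B) (by linarith)
      (add_nonneg zero_le_one (IP.nb_nonneg _ _)))))
  have e5 := (abs_le.1 (bg.R_le x)).1
  have e6 := ((abs_le.1 (bg.Ric_le x _)).2.trans
    (mul_le_of_le_one_right (by linarith) (h.ww_le x)))
  have e7 := sq_nonneg (H0 g (phd P d a1 a2 f z) f x)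
  have e8 := abs_le.1 (abs_mul_le' (h.abs_H0 x)
    ((h.ip x).abs_a (h.p_mem x).1 (h.p_mem x).2 (h.hw x) (Vv g (phd P d a1 a2 f z) f x)))
  rw [← h.a_eq] at e8
  have y2 : nb (bil (gb g (phd P d a1 a2 f z) f x)) (sg P d g a1 a2 f z x •
      grad (gb g (phd P d a1 a2 f z) f) (WW P d g a1 a2 f z) x) ^ 2
      = sg P d g a1 a2 f z x ^ 2 * gam (gb g (phd P d a1 a2 f z) f)
        (WW P d g a1 a2 f z) (WW P d g a1 a2 f z) x := by
    rw [IP.nb_smul, mul_pow, sq_abs, (h.ip x).nb_sq, gam_eq_bil h.jd.riemb hx]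
  have z2 : nb (bil (gb g (phd P d a1 a2 f z) f x)) (grad (gb g (phd P d a1 a2 f z) f) z x) ^ 2
      = gam (gb g (phd P d a1 a2 f z) f) z z x := by
    rw [(h.ip x).nb_sq, gam_eq_bil h.jd.riemb hx]
  rw [h.div_eq, ← y2, ← z2]
  have hy := IP.nb_nonneg (bil (gb g (phd P d a1 a2 f z) f x)) (sg P d g a1 a2 f z x •
      grad (gb g (phd P d a1 a2 f z) f) (WW P d g a1 a2 f z) x)
  have hζ := IP.nb_nonneg (bil (gb g (phd P d a1 a2 f z) f x))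
    (grad (gb g (phd P d a1 a2 f z) f) z x)
  have f1 := final_alg b3 hy hζ (al_le hn)
  have f2 := err_alg (P := P0) b3 (by linarith) (by linarith) (le_add_of_nonneg_left (by linarith))
    (IP.nb_nonneg _ _) c2 (IP.nb_nonneg _ _) c1
  have f3 : 800 * B ^ 8 ≤ P.e⁻¹ ^ 33 := by
    have a1 : 800 * C1 ^ 8 + 1 ≤ P.e⁻¹ :=
      (le_inv_comm₀ he (by positivity)).1 (he1.trans (min_le_right _ _))
    calc _ = 800 * C1 ^ 8 * P.e⁻¹ ^ 32 := by rw [hB]; ring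
      _ ≤ P.e⁻¹ * P.e⁻¹ ^ 32 := by gcongr; linarith
      _ = _ := by ring
  have f4 := mul_le_mul_of_nonneg_right f3 (add_nonneg zero_le_one (sq_nonneg (nb (bil (gb g
    (phd P d a1 a2 f z) f x)) (sg P d g a1 a2 f z x •
      grad (gb g (phd P d a1 a2 f z) f) (WW P d g a1 a2 f z) x))))
  linarith

end Crest.Agent.N346.Bd

end
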