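import Crest.Agent.N346.Bd.Basic

/-!
Row 346, Part 1 (helper71): the first integral `WW` and the statement of the `W`-inequality.
-/

set_option autoImplicit false

open MeasureTheory Filter Set
open scoped ContDiff Topology
open Crest.GeometryTopology.CoordMetric Crest.MathPhysics.ExteriorData
open Crest.Agent.R202.Tens Crest.Agent.R247.Bo84 Crest.Agent.N346.Id Crest.Agent.N346.P1

noncomputable section

namespace Crest.Agent.N346.Bd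

variable {n : ℕ}

/-- `I_k(z) = ∫^z 4 Φ̂^k e^{4ζ} dζ`. -/
def II (P : Par) (k : ℕ) (z : ℝ) : ℝ := ∫ ζ in (-P.θ / 2)..z, 4 * P.Ph ζ ^ k * Real.exp (4 * ζ)

section
variable (P : Par) (d : ℝ) (g : MetricField n) (a1 a2 f z : E n → ℝ)

/-- `χ(x, τ f)`. -/
def chd (x : E n) : ℝ := P.chi (a1 x) (a2 x) (P.τ * f x)

/-- `φ = d + (1 - d) χ Φ̂(z)`. -/
def phd (x : E n) : ℝ := d + (1 - d) * chd P a1 a2 f x * P.Ph (z x)

/-- `𝒲 = e^{4z} φ² s + 4 ∫^z φ² e^{4ζ} dζ`. -/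
def WW (x : E n) : ℝ :=
  Real.exp (4 * z x) * (phd P d a1 a2 f z x ^ 2 * Id.sq g (phd P d a1 a2 f z) f x + d ^ 2)
    + 2 * d * (1 - d) * chd P a1 a2 f x * II P 1 (z x)
    + (1 - d) ^ 2 * chd P a1 a2 f x ^ 2 * II P 2 (z x)

/-- `σ = e^{-4z} / (2 γ² φ²)`. -/
def sg (x : E n) : ℝ :=
  Real.exp (-(4 * z x)) / (2 * gm g (phd P d a1 a2 f z) f x ^ 2 * phd P d a1 a2 f z x ^ 2)

end

theorem ph_eq_phd (S : Setup n) (e : ℝ) (f z : E n → ℝ) :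
    ph S e f z = phd (S.par e 0 0) (e ^ 2) (S.coef 0).a1 (S.coef 0).a2 f z :=
  funext fun x => ph_eq S e f z x

theorem phi_eq_phd (P : Par) (c : Coef n) (t : ℝ) (f z : E n → ℝ) :
    phi P c t f z = phd P (1 - t * (1 - P.δ)) c.a1 c.a2 f z := by
  funext x; simp only [phi, Par.phiF, phd, chd]; ring

/-- The `W`-inequality (helper71). -/
def WStmt : Prop := ∀ n : ℕ, 3 ≤ n → ∀ θ t1 P0 : ℝ, 0 < θ → 0 < t1 → ∃ (N : ℕ) (e1 : ℝ), 0 < e1 ∧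
  ∀ P : Par, P.θ = θ → P.t1 = t1 → 0 < P.e → P.e ≤ e1 → ∀ d : ℝ, P.e ^ 2 ≤ d → d ≤ 1 →
  ∀ (g K : MetricField n) (EE : VectorField n) (a1 a2 f z : E n → ℝ), BG P0 g K EE a1 a2 →
  ContDiff ℝ ∞ f → ContDiff ℝ ∞ z →
  (∀ x, Th g (phd P d a1 a2 f z) f K x = P.τ * f x) → (∀ x, |P.τ * f x| ≤ P0) →
  Jd g (phd P d a1 a2 f z) f univ ∧ ContDiff ℝ ∞ (WW P d g a1 a2 f z) ∧
  ContDiff ℝ ∞ (sg P d g a1 a2 f z) ∧ ∀ x,
    phd P d a1 a2 f z x ∈ Icc (P.e ^ 2) 1 ∧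
    P.e ^ 4 * (gm g (phd P d a1 a2 f z) f x * Real.exp (2 * z x)) ^ 2 ≤ WW P d g a1 a2 f z x ∧
    WW P d g a1 a2 f z x ≤ (gm g (phd P d a1 a2 f z) f x * Real.exp (2 * z x)) ^ 2 ∧
    P.τ * gm g (phd P d a1 a2 f z) f x * pp g (phd P d a1 a2 f z) f x
      + (2 * laplaceBeltrami (gb g (phd P d a1 a2 f z) f) z x
        + al n * gam (gb g (phd P d a1 a2 f z) f) z z x
        - scalarCurv (gb g (phd P d a1 a2 f z) f) x)
      - P.e⁻¹ ^ N * (1 + sg P d g a1 a2 f z x ^ 2 * gam (gb g (phd P d a1 a2 f z) f)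
        (WW P d g a1 a2 f z) (WW P d g a1 a2 f z) x)
      ≤ divg (gb g (phd P d a1 a2 f z) f) (fun y => sg P d g a1 a2 f z y •
        grad (gb g (phd P d a1 a2 f z) f) (WW P d g a1 a2 f z) y) x

end Crest.Agent.N346.Bd

end
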